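import Vale.Agent.P158.Core

/-!
TASK Approx: approximation by local events.
Plan: replace A by toMeasurable (a.e. equal). The measurable cylinders form a set algebra generating the product
sigma algebra (isSetAlgebra_measurableCylinders, generateFrom_measurableCylinders);
Measure.MeasureDense.of_generateFrom_isSetAlgebra_finite and MeasureDense.approx (file
Mathlib/MeasureTheory/Measure/SeparableMeasure.lean) give a cylinder A' = cylinder S B with μ (A ∆ A') < ε.
-/

namespace Vale.Agent.P158

open MeasureTheory

theorem approx_local (G : Measure ℝ) [IsProbabilityMeasure G] {A : Set Om}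
    (hA : NullMeasurableSet A (mu G)) {ε : ℝ} (hε : 0 < ε) :
    ∃ (S : Finset E) (A' : Set Om), MeasurableSet A' ∧
      (∀ ω ω' : Om, (∀ e ∈ S, ω e = ω' e) → ω ∈ A' → ω' ∈ A') ∧
      (mu G).real (A \ A') ≤ ε ∧ (mu G).real (A' \ A) ≤ ε := by
  have hd : (mu G).MeasureDense (measurableCylinders fun _ : E => ℝ) :=
    Measure.MeasureDense.of_generateFrom_isSetAlgebra_finite (mu G)
      isSetAlgebra_measurableCylinders generateFrom_measurableCylinders.symm
  obtain ⟨t, ht, hμ⟩ := hd.approx (toMeasurable (mu G) A) (measurableSet_toMeasurable _ _)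
    (measure_ne_top _ _) ε hε
  have hc : mu G (symmDiff A t) = mu G (symmDiff (toMeasurable (mu G) A) t) :=
    measure_congr (ae_eq_set_symmDiff (NullMeasurableSet.toMeasurable_ae_eq hA).symm
      Filter.EventuallyEq.rfl)
  have hr : (mu G).real (symmDiff A t) ≤ ε := by
    rw [Measure.real, hc]
    exact ENNReal.toReal_le_of_le_ofReal hε.le hμ.le
  obtain ⟨S, B, hB, rfl⟩ := (mem_measurableCylinders t).1 ht
  refine ⟨S, cylinder S B, MeasurableSet.of_mem_measurableCylinders ht, ?_, ?_, ?_⟩
  · intro ω ω' h hω
    rw [mem_cylinder] at hω ⊢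
    have : S.restrict ω' = S.restrict ω := funext fun e => (h e.1 e.2).symm
    rwa [this]
  · exact (measureReal_mono (by rw [Set.symmDiff_def]; exact Set.subset_union_left)).trans hr
  · exact (measureReal_mono (by rw [Set.symmDiff_def]; exact Set.subset_union_right)).trans hr

end Vale.Agent.P158
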