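import Vale.Agent.P158.Line

/-!
TASK Low: lowering finitely many weights. Throughout 0 ≤ ω' ≤ ω and ω' = ω off the finset S.
Plan: T_low_ge: le_T_path and cost_eq_sum (a path uses each edge once, so it gains at most the total).
T_low_lt: take the geodesic path p of ω'; if no edge of p is in S its cost is the old cost ≥ T ω;
otherwise an edge s(q,q') of p is in S, q in p.support, T_add_of_mem_geo.
T_low_one: geodesic path of ω'; if it uses s(q,q') split it at this edge (induct on the walk: either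
the first edge is s(q,q') and the tail does not use it again, or recurse), the two parts have unchanged cost.
IsLine.low: for i ≤ j take i' ≤ i, j ≤ j' such that all edges of S are in the segment i'..j'
(S finite); the segment has new cost T ω - total ≤ T ω' (T_low_ge), so it is geodesic for ω';
sub-segments of a geodesic are geodesic (triangle inequality); conclude with isLine_of_sum.
IsLine.raise: sums along the line are unchanged, T ω' ≤ T ω ≤ sum.
-/

namespace Vale.Agent.P158

open SimpleGraph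

variable {h : ℝ} {ω ω' : Om} {γ : ℤ → V} {S : Finset E}

theorem cost_low_path (hS : ∀ e ∉ S, ω' e = ω e) {x y : V} (p : grid.Walk x y) (hp : p.IsPath)
    (hsub : ∀ e ∈ S, e ∈ p.edges) : cost ω' p = cost ω p - ∑ e ∈ S, (ω e - ω' e) := by
  rw [cost_eq_sum ω' p hp, cost_eq_sum ω p hp,
    Finset.sum_subset (s₂ := p.edges.toFinset) (fun e he => List.mem_toFinset.2 (hsub e he))
      fun e _ he => by rw [hS e he, sub_self], Finset.sum_sub_distrib]
  ring

theorem T_low_ge (h0 : ∀ e, 0 ≤ ω' e) (hle : ∀ e, ω' e ≤ ω e) (hS : ∀ e ∉ S, ω' e = ω e)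
    (x y : V) : T ω x y - ∑ e ∈ S, (ω e - ω' e) ≤ T ω' x y := by
  refine le_T_path h0 fun p hp => ?_
  have h1 := T_le_cost (fun e => (h0 e).trans (hle e)) p
  have h2 : ∑ e ∈ p.edges.toFinset, (ω e - ω' e) ≤ ∑ e ∈ S, (ω e - ω' e) := by
    rw [← Finset.sum_subset (s₁ := p.edges.toFinset ∩ S) Finset.inter_subset_left
      fun e h1 h2 => by rw [hS e fun h3 => h2 (Finset.mem_inter.2 ⟨h1, h3⟩), sub_self]]
    exact Finset.sum_le_sum_of_subset_of_nonneg Finset.inter_subset_right
      fun e _ _ => sub_nonneg.2 (hle e)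
  rw [Finset.sum_sub_distrib, ← cost_eq_sum ω p hp, ← cost_eq_sum ω' p hp] at h2
  linarith

theorem T_low_lt (hR' : Reg h ω') (hle : ∀ e, ω' e ≤ ω e) (hS : ∀ e ∉ S, ω' e = ω e)
    {x y : V} (hlt : T ω' x y < T ω x y) :
    ∃ q q' : V, s(q, q') ∈ S ∧ T ω' x y = T ω' x q + T ω' q y := by
  obtain ⟨p, -, hp⟩ := hR'.geo x y
  by_cases hc : ∃ e ∈ p.edges, e ∈ S
  · obtain ⟨e, he, heS⟩ := hc
    induction e using Sym2.ind with
    | _ q q' =>
      exact ⟨q, q', heS, T_add_of_mem_geo hR'.nn p hp (p.fst_mem_support_of_mem_edges he)⟩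
  · have h1 := cost_congr (ω := ω') (ω' := ω) p fun e he => hS e fun h => hc ⟨e, he, h⟩
    have h2 := T_le_cost (fun e => (hR'.nn e).trans (hle e)) p
    linarith

theorem T_low_one (hR' : Reg h ω') (hle : ∀ e, ω' e ≤ ω e) {q q' : V}
    (hS : ∀ e, e ≠ s(q, q') → ω' e = ω e) (x y : V) :
    min (T ω x y) (min (T ω x q + ω' s(q, q') + T ω q' y) (T ω x q' + ω' s(q, q') + T ω q y))
      ≤ T ω' x y := by
  have h0 : ∀ e, 0 ≤ ω e := fun e => (hR'.nn e).trans (hle e)
  refine le_T_path hR'.nn fun p hp => ?_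
  induction p with
  | nil => exact (min_le_left _ _).trans (T_self h0 _).le
  | @cons x z y hxz p ih =>
    rw [cost_cons]
    by_cases hc : s(x, z) = s(q, q')
    · have h1 : s(x, z) ∉ p.edges := (List.nodup_cons.1 hp.isTrail.edges_nodup).1
      have h2 := cost_congr (ω := ω') (ω' := ω) p fun e he => hS e fun h => h1 (by rwa [hc, ← h])
      have h3 := T_le_cost h0 p
      have h4 := T_self h0 x
      rw [hc]
      refine (min_le_right _ _).trans ?_
      rcases Sym2.eq_iff.1 hc with ⟨rfl, rfl⟩ | ⟨rfl, rfl⟩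
      · exact (min_le_left _ _).trans (by linarith)
      · exact (min_le_right _ _).trans (by linarith)
    · have h1 := ih hp.of_cons
      have h2 : ∀ v, T ω x v ≤ ω' s(x, z) + T ω z v := fun v => by
        rw [hS _ hc]
        exact (T_triangle h0 x z v).trans (add_le_add_left (T_le_edge h0 hxz) _)
      have h3 := h2 y
      have h4 := h2 q
      have h5 := h2 q'
      simp only [min_le_iff] at h1 ⊢
      rcases h1 with h1 | h1 | h1
      · exact Or.inl (by linarith)
      · exact Or.inr (Or.inl (by linarith))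
      · exact Or.inr (Or.inr (by linarith))

theorem low_split (f : ℤ → ℝ) {i j k : ℤ} (hij : i ≤ j) (hjk : j ≤ k) :
    ∑ n ∈ Finset.Ico i k, f n = ∑ n ∈ Finset.Ico i j, f n + ∑ n ∈ Finset.Ico j k, f n := by
  rw [← Finset.sum_union (Finset.Ico_disjoint_Ico_consecutive i j k),
    Finset.Ico_union_Ico_eq_Ico hij hjk]

theorem low_T_le_sum (h0 : ∀ e, 0 ≤ ω e) (hadj : ∀ i, grid.Adj (γ i) (γ (i + 1))) {i j : ℤ}
    (hij : i ≤ j) : T ω (γ i) (γ j) ≤ ∑ k ∈ Finset.Ico i j, ω s(γ k, γ (k + 1)) := by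
  induction j, hij using Int.leInduction with
  | base => simp [T_self h0]
  | succ j hj ih =>
    have h1 : Finset.Ico j (j + 1) = {j} := by
      ext k
      simp only [Finset.mem_Ico, Finset.mem_singleton]
      omega
    rw [low_split _ hj (by omega : j ≤ j + 1), h1, Finset.sum_singleton]
    exact (T_triangle h0 _ (γ j) _).trans (add_le_add ih (T_le_edge h0 (hadj j)))

theorem IsLine.low (hpos : ∀ e, 0 < ω e) (h0 : ∀ e, 0 ≤ ω' e) (hle : ∀ e, ω' e ≤ ω e)
    (hS : ∀ e ∉ S, ω' e = ω e) (hγ : IsLine ω γ) (hu : ∀ e ∈ S, Uses γ e) : IsLine ω' γ := by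
  refine isLine_of_sum h0 hγ.adj fun i j hij =>
    le_antisymm ?_ (low_T_le_sum h0 hγ.adj hij.le)
  choose! f hf using hu
  obtain ⟨a, ha⟩ := (insert i (S.image f)).bddBelow
  obtain ⟨b, hb⟩ := (insert j (S.image fun e => f e + 1)).bddAbove
  have hai : a ≤ i := ha (by simp)
  have hjb : j ≤ b := hb (by simp)
  have h1 : S ⊆ (Finset.Ico a b).image fun k => s(γ k, γ (k + 1)) := fun e he =>
    Finset.mem_image.2 ⟨f e, Finset.mem_Ico.2 ⟨ha (Finset.mem_coe.2 (Finset.mem_insert_of_mem
      (Finset.mem_image_of_mem f he))), hb (Finset.mem_coe.2 (Finset.mem_insert_of_mem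
      (Finset.mem_image_of_mem (fun e => f e + 1) he)))⟩, (hf e he).symm⟩
  have h2 := (Finset.sum_le_sum_of_subset_of_nonneg (f := fun e => ω e - ω' e) h1
    fun e _ _ => sub_nonneg.2 (hle e)).trans
    (Finset.sum_image_le_of_nonneg fun e _ => sub_nonneg.2 (hle e))
  have h3 := T_low_ge h0 hle hS (γ a) (γ b)
  have h4 := hγ.T_sum (fun e => (hpos e).le) (i := a) (j := b) (by omega)
  have h5 := T_triangle h0 (γ a) (γ i) (γ b)
  have h6 := T_triangle h0 (γ i) (γ j) (γ b)
  have h7 := low_T_le_sum h0 hγ.adj hai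
  have h8 := low_T_le_sum h0 hγ.adj hjb
  have h9 := low_split (fun k => ω' s(γ k, γ (k + 1))) hai (hij.le.trans hjb)
  have h10 := low_split (fun k => ω' s(γ k, γ (k + 1))) hij.le hjb
  rw [Finset.sum_sub_distrib (s := Finset.Ico a b)] at h2
  linarith

/-- raising weights off a line keeps it a line, with the same times along it. -/
theorem IsLine.raise (h0 : ∀ e, 0 ≤ ω' e) (hle : ∀ e, ω' e ≤ ω e) (hγ : IsLine ω' γ)
    (hu : ∀ e, Uses γ e → ω' e = ω e) :
    IsLine ω γ ∧ ∀ i j, T ω (γ i) (γ j) = T ω' (γ i) (γ j) := by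
  have h1 : ∀ e, 0 ≤ ω e := fun e => (h0 e).trans (hle e)
  have h2 : ∀ i j, i ≤ j → ∑ k ∈ Finset.Ico i j, ω s(γ k, γ (k + 1)) = T ω' (γ i) (γ j) :=
    fun i j hij => by
      rw [hγ.T_sum h0 hij]
      exact Finset.sum_congr rfl fun k _ => (hu _ ⟨k, rfl⟩).symm
  have h3 : ∀ i j, i ≤ j → T ω (γ i) (γ j) = T ω' (γ i) (γ j) := fun i j hij =>
    le_antisymm ((low_T_le_sum h1 hγ.adj hij).trans (h2 i j hij).le) (T_mono h0 hle _ _)
  refine ⟨isLine_of_sum h1 hγ.adj fun i j hij => by rw [h2 i j hij.le, h3 i j hij.le],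
    fun i j => ?_⟩
  rcases le_total i j with hij | hij
  · exact h3 i j hij
  · rw [T_comm ω, T_comm ω', h3 j i hij]

end Vale.Agent.P158
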