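import Vale.Agent.P158.Bus
import Vale.Agent.P158.Low

/-!
TASK B2: two disjoint lines with constant e-functions can be perturbed to violate Lemma E.
A = bus γ, Ar = bus (rev γ), A' = bus γ', τ' k = A' (γ' k), v = γ 0.
kappa_ge: fix θ > 0. Choose k large with S1 + τ' (-k) < -θ and S2 - τ' k < -θ (T_far, bus_line), then n large with
exists_lt_bus_add (twice). Geodesics γ (-n) to γ' (-k) and γ' k to γ n avoid v (otherwise T_add_of_mem_geo makes the difference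
≥ 0); concatenate with the segment of γ' from -k to k (avoids v); Det gives η ≤ S1 + S2 + 2θ.
s3_le: S3 = A' (γ n) - A (γ n) ≤ T (γ' 0) (γ n) - T v (γ n) (bus_le with index 0), which tends to Ar (γ' 0) = S2.
b2_det: f = s(γ 0, γ 1), δ = ω f - ω' f in (0, κ). (1) γ is a line of ω' (IsLine.low), so is rev γ. (2) T' = T along γ' and γ' is
a line of ω': T_low_one; for {q,q'} = {γ i, γ j} = {γ 0, γ 1}: T (γ' a) (γ i) ≥ Ar (γ' a) - Ar (γ i),
T (γ j) (γ' b) ≥ A (γ' b) - A (γ j) (bus_lip, bus_rev), sum ≥ τ' b - τ' a + κ - ω f. (3) Apply PE ω' to (rev γ, rev γ'):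
bus' (rev γ') (γ' k) = - τ' k. Lower bound: bus' (rev γ) y ≥ Ar y - δ (T_low_ge, T_mono). (4) Not constant: for k large positive
bus' (rev γ) (γ' k) + τ' k ≥ S2 + δ (T_low_one; T' (γ n) v = T (γ n) v - δ for n ≥ 1), while for m large
bus' (rev γ) (γ' (-m)) + τ' (-m) ≤ T v (γ' (-m)) - T (γ' (-m)) (γ' 0) < S3 + δ ≤ S2 + δ (bus_le index 0, exists_lt_bus_add).
-/

namespace Vale.Agent.P158

variable {h : ℝ} {ω : Om} {γ γ' : ℤ → V}

theorem b2_tau_pos (h0 : ∀ e, 0 ≤ ω e) (hγ : IsLine ω γ) {k : ℤ} (hk : 0 ≤ k) :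
    bus ω γ (γ k) = T ω (γ 0) (γ k) := by
  have := bus_line h0 hγ hk
  rw [bus_zero h0 hγ] at this
  linarith

theorem b2_tau_neg (h0 : ∀ e, 0 ≤ ω e) (hγ : IsLine ω γ) {k : ℤ} (hk : k ≤ 0) :
    bus ω γ (γ k) = - T ω (γ 0) (γ k) := by
  have := bus_line h0 hγ hk
  rw [bus_zero h0 hγ, T_comm] at this
  linarith

theorem kappa_ge (hR : Reg h ω) (hγ : IsLine ω γ) (hγ' : IsLine ω γ') (hdis : ∀ k, γ' k ≠ γ 0)
    {η S1 S2 : ℝ} (hD : Det ω γ 0 η) (h1 : ∀ k, bus ω γ (γ' k) - bus ω γ' (γ' k) = S1)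
    (h2 : ∀ k, bus ω (rev γ) (γ' k) + bus ω γ' (γ' k) = S2) : η ≤ S1 + S2 := by
  have h0 := hR.nn
  refine le_of_forall_pos_le_add fun θ hθ => ?_
  obtain ⟨k, hk⟩ := hγ'.T_far hR (γ' 0) (|S1| + |S2| + θ)
  have k1 := hk k (by simp)
  have k2 := hk (-(k : ℤ)) (by simp)
  have t1 := b2_tau_pos h0 hγ' (k := k) (by omega)
  have t2 := b2_tau_neg h0 hγ' (k := -(k : ℤ)) (by omega)
  have s1 := h1 (-(k : ℤ))
  have s2 := h2 k
  have a1 := le_abs_self S1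
  have a2 := le_abs_self S2
  have a3 := abs_nonneg S1
  have a4 := abs_nonneg S2
  obtain ⟨N1, hN1⟩ := exists_lt_bus_add h0 hγ (γ' (-(k : ℤ))) (half_pos hθ)
  obtain ⟨N2, hN2⟩ := exists_lt_bus_add h0 (hγ.rev h0) (γ' k) (half_pos hθ)
  have b1 := hN1 (N1 + N2 + 1) (by omega)
  have b2 := hN2 (N1 + N2 + 1) (by omega)
  set n : ℕ := N1 + N2 + 1 with hn
  simp only [rev_apply, neg_neg, neg_zero] at b2
  obtain ⟨p1, -, hp1⟩ := hR.geo (γ (-(n : ℤ))) (γ' (-(k : ℤ)))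
  obtain ⟨p2, -, hp2⟩ := hR.geo (γ n) (γ' k)
  obtain ⟨q, -, hq, -, hqs, -⟩ := hγ'.seg hR.pos (i := -(k : ℤ)) (j := k) (by omega)
  have hd := hD (-(n : ℤ)) n _ _ (p1.append (q.append p2.reverse)) (by omega) (by omega) rfl rfl
    (by
      intro z hz hb
      rw [mem_box_zero] at hb
      subst hb
      simp only [SimpleGraph.Walk.mem_support_append_iff, SimpleGraph.Walk.support_reverse,
        List.mem_reverse] at hz
      rcases hz with hz | hz | hz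
      · have e1 := T_add_of_mem_geo h0 p1 hp1 hz
        have e2 := T_nonneg h0 (γ 0) (γ' (-(k : ℤ)))
        linarith
      · obtain ⟨j, -, -, hj⟩ := (hqs _).1 hz
        exact hdis j hj
      · have e1 := T_add_of_mem_geo h0 p2 hp2 hz
        have e2 := T_nonneg h0 (γ 0) (γ' k)
        linarith)
  simp only [cost_append, cost_reverse] at hd
  have c1 := hγ.T_add h0 (i := -(n : ℤ)) (j := 0) (k := n) (by omega) (by omega)
  have c2 := bus_line h0 hγ' (i := -(k : ℤ)) (j := k) (by omega)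
  have c3 := T_comm ω (γ n) (γ 0)
  linarith

theorem s3_le (h0 : ∀ e, 0 ≤ ω e) (hγ : IsLine ω γ) (hγ' : IsLine ω γ') {S2 S3 : ℝ}
    (h2 : ∀ k, bus ω (rev γ) (γ' k) + bus ω γ' (γ' k) = S2)
    (h3 : ∀ k, bus ω γ' (γ k) - bus ω γ (γ k) = S3) : S3 ≤ S2 := by
  have a1 := h2 0
  rw [bus_zero h0 hγ'] at a1
  have a2 : S3 ≤ bus ω (rev γ) (γ' 0) := by
    refine le_bus h0 (hγ.rev h0) 0 fun n _ => ?_
    simp only [rev_apply, neg_neg, neg_zero]
    have b1 := bus_le h0 hγ' (γ n) 0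
    simp only [Nat.cast_zero, neg_zero, T_self h0] at b1
    have b2 := h3 n
    have b3 := b2_tau_pos h0 hγ (k := n) (by omega)
    have b4 := T_comm ω (γ n) (γ 0)
    have b5 := T_comm ω (γ n) (γ' 0)
    linarith
  linarith

theorem b2_det (hR : Reg h ω) (hγ : IsLine ω γ) (hγ' : IsLine ω γ') (hdis : ∀ i j, γ i ≠ γ' j)
    {S1 S2 S3 : ℝ} (h1 : ∀ k, bus ω γ (γ' k) - bus ω γ' (γ' k) = S1)
    (h2 : ∀ k, bus ω (rev γ) (γ' k) + bus ω γ' (γ' k) = S2)
    (h3 : ∀ k, bus ω γ' (γ k) - bus ω γ (γ k) = S3) {ω' : Om}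
    (hω' : ∀ e, e ≠ s(γ 0, γ 1) → ω' e = ω e)
    (hlo : ω s(γ 0, γ 1) - (S1 + S2) < ω' s(γ 0, γ 1)) (hhi : ω' s(γ 0, γ 1) < ω s(γ 0, γ 1))
    (hR' : Reg h ω') : ¬ PE ω' := by
  classical
  intro hE
  have h0 := hR.nn
  have h0' := hR'.nn
  have hle : ∀ e, ω' e ≤ ω e := by
    intro e
    by_cases he : e = s(γ 0, γ 1)
    · rw [he]; exact hhi.le
    · exact (hω' e he).le
  have hS : ∀ e ∉ ({s(γ 0, γ 1)} : Finset E), ω' e = ω e := fun e he => hω' e (by simpa using he)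
  have hγ1 : IsLine ω' γ := hγ.low hR.pos h0' hle hS (fun e he => ⟨0, by simpa using he⟩)
  have hf : T ω (γ 0) (γ 1) = ω s(γ 0, γ 1) := by simpa using hγ.T_succ h0 0
  have hf' : T ω' (γ 0) (γ 1) = ω' s(γ 0, γ 1) := by simpa using hγ1.T_succ h0' 0
  have A0 := bus_zero h0 hγ
  have A1 : bus ω γ (γ 1) = ω s(γ 0, γ 1) := by rw [b2_tau_pos h0 hγ (by omega), hf]
  have R0 := bus_rev h0 hγ 0
  have R1 := bus_rev h0 hγ 1
  have hTT : ∀ a b : ℤ, a ≤ b → T ω' (γ' a) (γ' b) = T ω (γ' a) (γ' b) := by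
    intro a b hab
    refine le_antisymm (T_mono h0' hle _ _) (le_trans ?_ (T_low_one hR' hle hω' _ _))
    have e1 := bus_line h0 hγ' hab
    have e2 := h1 b
    have e3 := h2 a
    have e4 := bus_lip h0 (hγ.rev h0) (γ' a) (γ 0)
    have e5 := bus_lip h0 (hγ.rev h0) (γ' a) (γ 1)
    have e6 := bus_lip h0 hγ (γ' b) (γ 0)
    have e7 := bus_lip h0 hγ (γ' b) (γ 1)
    have e8 := T_comm ω (γ' b) (γ 0)
    have e9 := T_comm ω (γ' b) (γ 1)
    have e10 := h0 s(γ 0, γ 1)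
    refine le_min le_rfl (le_min ?_ ?_) <;> linarith
  have hγ2 : IsLine ω' γ' := by
    refine isLine_of_add hγ'.adj (fun i => ?_) (fun i j k hij hjk => ?_)
    · rw [hTT i (i + 1) (by omega), hγ'.T_succ h0, hω']
      intro he
      rcases Sym2.eq_iff.1 he with ⟨h3, -⟩ | ⟨h3, -⟩
      · exact hdis _ _ h3.symm
      · exact hdis _ _ h3.symm
    · rw [hTT i k (by omega), hTT i j hij, hTT j k hjk]
      exact hγ'.T_add h0 hij hjk
  have hτ : ∀ k, bus ω' γ' (γ' k) = bus ω γ' (γ' k) := by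
    intro k
    rcases le_total 0 k with hk | hk
    · rw [b2_tau_pos h0' hγ2 hk, b2_tau_pos h0 hγ' hk, hTT 0 k hk]
    · rw [b2_tau_neg h0' hγ2 hk, b2_tau_neg h0 hγ' hk, T_comm ω', T_comm ω, hTT k 0 hk]
  have hlow : ∀ y, bus ω (rev γ) y - (ω s(γ 0, γ 1) - ω' s(γ 0, γ 1)) ≤ bus ω' (rev γ) y := by
    intro y
    refine le_bus h0' (hγ1.rev h0') 0 fun n _ => ?_
    have e1 := bus_le h0 (hγ.rev h0) y n
    have e2 := T_low_ge h0' hle hS (rev γ (-(n : ℤ))) y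
    have e3 := T_mono h0' hle (rev γ (-(n : ℤ))) (rev γ 0)
    rw [Finset.sum_singleton] at e2
    linarith
  have hconst := hE (rev γ) (rev γ') (hγ1.rev h0') (hγ2.rev h0')
    ⟨S2 - (ω s(γ 0, γ 1) - ω' s(γ 0, γ 1)), fun k => by
      simp only [rev_apply]
      rw [bus_rev h0' hγ2, hτ]
      have e1 := hlow (γ' (-k))
      have e2 := h2 (-k)
      linarith⟩
  have hc : ∀ k, bus ω' (rev γ) (γ' k) + bus ω γ' (γ' k) = bus ω' (rev γ) (γ' 0) := by
    intro k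
    have := hconst (-k)
    simp only [rev_apply, neg_neg, neg_zero] at this
    rw [bus_rev h0' hγ2, hτ] at this
    linarith
  have hs3 := s3_le h0 hγ hγ' h2 h3
  obtain ⟨m, hm⟩ := exists_lt_bus_add h0 hγ' (γ 0) (sub_pos.2 hhi)
  have u1 := hm m le_rfl
  have u2 := bus_le h0' (hγ1.rev h0') (γ' (-(m : ℤ))) 0
  simp only [rev_apply, Nat.cast_zero, neg_zero, T_self h0'] at u2
  have u3 := T_mono h0' hle (γ 0) (γ' (-(m : ℤ)))
  have u4 := b2_tau_neg h0 hγ' (k := -(m : ℤ)) (by omega)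
  have u5 := h3 0
  have u6 := hc (-(m : ℤ))
  have u7 := T_comm ω (γ' (-(m : ℤ))) (γ 0)
  have u8 := T_comm ω (γ' (-(m : ℤ))) (γ' 0)
  obtain ⟨k, hk⟩ := hγ'.T_far hR (γ' 0) (|S2| + T ω (γ 0) (γ' 0) + 2 * ω s(γ 0, γ 1))
  have v1 := hk k (by simp)
  have v2 := b2_tau_pos h0 hγ' (k := k) (by omega)
  have v3 : S2 + (ω s(γ 0, γ 1) - ω' s(γ 0, γ 1)) - bus ω γ' (γ' k) ≤ bus ω' (rev γ) (γ' k) := by
    refine le_bus h0' (hγ1.rev h0') 1 fun n hn => ?_
    simp only [rev_apply, neg_neg, neg_zero]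
    have w1 := T_low_one hR' hle hω' (γ n) (γ' k)
    have w2 := bus_le h0 (hγ.rev h0) (γ' k) n
    simp only [rev_apply, neg_neg, neg_zero] at w2
    have w3 := h2 k
    have w4 := hγ1.T_add h0' (i := 0) (j := 1) (k := n) (by omega) (by omega)
    have w5 := hγ.T_add h0 (i := 0) (j := 1) (k := n) (by omega) (by omega)
    have w6 := T_mono h0' hle (γ 1) (γ n)
    have w7 := T_comm ω' (γ n) (γ 0)
    have w8 := T_comm ω (γ n) (γ 0)
    have w9 := T_comm ω (γ n) (γ 1)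
    have w10 := T_triangle h0 (γ' 0) (γ 0) (γ' k)
    have w11 := T_triangle h0 (γ 0) (γ 1) (γ' k)
    have w12 := T_comm ω (γ' 0) (γ 0)
    have w13 := le_abs_self S2
    have w14 := abs_nonneg S2
    have w15 := h0' s(γ 0, γ 1)
    have w16 := T_nonneg h0 (γ 0) (γ' 0)
    have w17 := h0 s(γ 0, γ 1)
    rcases min_le_iff.1 w1 with w | w
    · linarith
    · rcases min_le_iff.1 w with w | w <;> linarith
  have v4 := hc k
  linarith

end Vale.Agent.P158
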