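import Vale.Agent.P158.J1

/-!
TASK Key: the order of rays at infinity.
Plan: for a RayW ξ and n with ξ 0..i in box 0 n: exitIdx ξ n > i (the set is nonempty by escape_nat,
Nat.sInf_mem, Nat.notMem_of_lt_sInf), all ξ k with k ≤ exitIdx are in box 0 (n+1) and ξ (exitIdx) is OnB of the
square of radius n+1. key_ne: for large n the exit points differ (they are outside a box containing the
finite intersection), rpos_inj; Germ.coe_eq and the hyperfilter contains the cofinite sets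
(Filter.hyperfilter_le_cofinite, Nat.cofinite_eq_atTop). linked_of_lt: Germ.coe_lt (ultrafilter) gives the
three inequalities eventually; choose n also so large that box 0 n contains W, W' and all ξ_j k, k ≤ i_j;
build walks exit1 back to ξ1 i1, W, on to exit3 (seqWalk on shifted sequences, copy, reverse, append), same
for 2, 4; J1. Symmetries of Linked: reverse walks. AltK lemmas: unfold, rcases on lt_trichotomy / use the
order decision procedure (min_def, max_def, split_ifs, order).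
-/

namespace Vale.Agent.P158

open SimpleGraph

theorem key_big (N : ℕ) : ∀ᶠ n in (Filter.hyperfilter ℕ : Filter ℕ), N ≤ n :=
  Nat.hyperfilter_le_atTop (Filter.eventually_ge_atTop N)

theorem key_inR {n : ℕ} {z : V} (h : z ∈ box 0 (n + 1)) :
    InR (-((n : ℤ) + 1)) (n + 1) (-((n : ℤ) + 1)) (n + 1) z := by
  rw [mem_box] at h
  simp only [Prod.fst_zero, Prod.snd_zero] at h
  unfold InR
  omega

theorem key_exit {ξ : ℕ → V} (h : RayW ξ) (i n : ℕ) (hn : ∀ k ≤ i, ξ k ∈ box 0 n) :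
    i < exitIdx ξ n ∧ ξ (exitIdx ξ n) ∉ box 0 n ∧ (∀ k ≤ exitIdx ξ n, ξ k ∈ box 0 (n + 1)) ∧
      OnB (-((n : ℤ) + 1)) (n + 1) (-((n : ℤ) + 1)) (n + 1) (ξ (exitIdx ξ n)) := by
  obtain ⟨n0, h0⟩ := escape_nat h.2 (box 0 n).finite_toSet
  have h1 : ξ (exitIdx ξ n) ∉ box 0 n :=
    Nat.sInf_mem (s := {i | ξ i ∉ box 0 n}) ⟨n0, h0 n0 le_rfl⟩
  have h2 : ∀ k < exitIdx ξ n, ξ k ∈ box 0 n := fun k hk =>
    not_not.1 (Nat.notMem_of_lt_sInf (s := {i | ξ i ∉ box 0 n}) hk)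
  have h3 : i < exitIdx ξ n := not_le.1 fun h' => h1 (hn _ h')
  have h4 : ξ (exitIdx ξ n) ∈ box 0 (n + 1) := by
    obtain ⟨e, he⟩ : ∃ e, exitIdx ξ n = e + 1 := ⟨exitIdx ξ n - 1, by omega⟩
    rw [he]
    exact box_trans (h2 e (by omega)) (adj_mem_box (h.1 e))
  refine ⟨h3, h1, fun k hk => ?_, key_inR h4, ?_⟩
  · rcases hk.eq_or_lt with rfl | hk
    · exact h4
    · exact box_mono (h2 k hk) (Nat.le_succ n)
  · rw [mem_box] at h1 h4
    simp only [Prod.fst_zero, Prod.snd_zero] at h1 h4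
    omega

theorem key_init (ξ : ℕ → V) (i : ℕ) : ∃ r, ∀ k ≤ i, ξ k ∈ box 0 r := by
  obtain ⟨r, hr⟩ := finite_subset_box 0 ((Set.finite_Iic i).image ξ)
  exact ⟨r, fun k hk => hr _ ⟨k, hk, rfl⟩⟩

theorem key_seg {ξ : ℕ → V} (h : RayW ξ) {i e : ℕ} (hie : i ≤ e) :
    ∃ p : grid.Walk (ξ i) (ξ e), ∀ z ∈ p.support, ∃ k, i ≤ k ∧ k ≤ e ∧ ξ k = z := by
  induction e, hie using Nat.le_induction with
  | base => exact ⟨Walk.nil, fun z hz => ⟨i, le_rfl, le_rfl, (List.mem_singleton.1 hz).symm⟩⟩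
  | succ e he ih =>
    obtain ⟨p, hp⟩ := ih
    refine ⟨p.concat (h.1 e), fun z hz => ?_⟩
    rw [Walk.support_concat, List.mem_append, List.mem_singleton] at hz
    rcases hz with hz | rfl
    · obtain ⟨k, h1, h2, h3⟩ := hp z hz
      exact ⟨k, h1, by omega, h3⟩
    · exact ⟨e + 1, by omega, le_rfl, rfl⟩

theorem key_join {ξ ξ' : ℕ → V} (h : RayW ξ) (h' : RayW ξ') {i i' e e' r : ℕ}
    (W : grid.Walk (ξ i) (ξ' i')) (he : i ≤ e) (he' : i' ≤ e') (hb : ∀ k ≤ e, ξ k ∈ box 0 r)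
    (hb' : ∀ k ≤ e', ξ' k ∈ box 0 r) (hW : ∀ z ∈ W.support, z ∈ box 0 r) :
    ∃ P : grid.Walk (ξ e) (ξ' e'), ∀ z ∈ P.support,
      z ∈ box 0 r ∧ (z ∈ W.support ∨ Tail ξ i z ∨ Tail ξ' i' z) := by
  obtain ⟨p, hp⟩ := key_seg h he
  obtain ⟨p', hp'⟩ := key_seg h' he'
  refine ⟨p.reverse.append (W.append p'), fun z hz => ?_⟩
  rw [Walk.mem_support_append_iff, Walk.mem_support_append_iff, Walk.support_reverse,
    List.mem_reverse] at hz
  rcases hz with hz | hz | hz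
  · obtain ⟨k, h1, h2, rfl⟩ := hp z hz
    exact ⟨hb k h2, Or.inr (Or.inl ⟨k, h1, rfl⟩)⟩
  · exact ⟨hW z hz, Or.inl hz⟩
  · obtain ⟨k, h1, h2, rfl⟩ := hp' z hz
    exact ⟨hb' k h2, Or.inr (Or.inr ⟨k, h1, rfl⟩)⟩

theorem key_iff {α : Type*} [LinearOrder α] {a b c d : α} : AltK a b c d ↔
    (a < b ∧ b < c ∧ c < d) ∨ (d < a ∧ a < b ∧ b < c) ∨ (c < b ∧ b < a ∧ a < d) ∨
    (d < c ∧ c < b ∧ b < a) ∨ (a < d ∧ d < c ∧ c < b) ∨ (b < a ∧ a < d ∧ d < c) ∨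
    (c < d ∧ d < a ∧ a < b) ∨ (b < c ∧ c < d ∧ d < a) := by
  unfold AltK
  constructor
  · rcases le_total a c with h | h
    · rw [min_eq_left h, max_eq_right h]
      rintro (⟨h1, h2, h3 | h3⟩ | ⟨h1, h2, h3 | h3⟩) <;>
        simp only [h1, h2, h3, and_self, true_or, or_true]
    · rw [min_eq_right h, max_eq_left h]
      rintro (⟨h1, h2, h3 | h3⟩ | ⟨h1, h2, h3 | h3⟩) <;>
        simp only [h1, h2, h3, and_self, true_or, or_true]
  · rcases le_total a c with h | h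
    · rw [min_eq_left h, max_eq_right h]
      rintro (g | g | g | g | g | g | g | g) <;> obtain ⟨h1, h2, h3⟩ := g <;>
        first
          | exact absurd (h1.trans h2) h.not_gt
          | exact absurd (h2.trans h3) h.not_gt
          | simp only [h1, h2, h3, and_self, true_or, or_true]
    · rw [min_eq_right h, max_eq_left h]
      rintro (g | g | g | g | g | g | g | g) <;> obtain ⟨h1, h2, h3⟩ := g <;>
        first
          | exact absurd (h1.trans h2) h.not_gt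
          | exact absurd (h2.trans h3) h.not_gt
          | simp only [h1, h2, h3, and_self, true_or, or_true]

theorem key_cases {α : Type*} [LinearOrder α] {a b c d : α} (h : AltK a b c d) :
    (a < b ∧ b < c ∧ c < d) ∨ (d < a ∧ a < b ∧ b < c) ∨ (c < b ∧ b < a ∧ a < d) ∨
    (d < c ∧ c < b ∧ b < a) ∨ (a < d ∧ d < c ∧ c < b) ∨ (b < a ∧ a < d ∧ d < c) ∨
    (c < d ∧ d < a ∧ a < b) ∨ (b < c ∧ c < d ∧ d < a) := key_iff.1 h

theorem key_ne {ξ ξ' : ℕ → V} (h : RayW ξ) (h' : RayW ξ')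
    (hf : (Set.range ξ ∩ Set.range ξ').Finite) : key ξ ≠ key ξ' := by
  intro e
  obtain ⟨r, hr⟩ := finite_subset_box 0 ((hf.insert (ξ 0)).insert (ξ' 0))
  obtain ⟨n, hn, hrn⟩ := ((Filter.Germ.coe_eq.1 e).and (key_big r)).exists
  obtain ⟨-, a1, -, a2⟩ := key_exit h 0 n fun k hk => by
    rw [Nat.le_zero.1 hk]; exact box_mono (hr _ (by simp)) hrn
  obtain ⟨-, -, -, b2⟩ := key_exit h' 0 n fun k hk => by
    rw [Nat.le_zero.1 hk]; exact box_mono (hr _ (by simp)) hrn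
  have := rpos_inj (by omega) (by omega) a2 b2 hn
  exact a1 (box_mono (hr _ (Or.inr (Or.inr ⟨⟨_, rfl⟩, ⟨_, this.symm⟩⟩))) hrn)

theorem linked_of_lt {ξ1 ξ2 ξ3 ξ4 : ℕ → V} (h1 : RayW ξ1) (h2 : RayW ξ2) (h3 : RayW ξ3)
    (h4 : RayW ξ4) (h12 : key ξ1 < key ξ2) (h23 : key ξ2 < key ξ3) (h34 : key ξ3 < key ξ4) :
    Linked ξ1 ξ3 ξ2 ξ4 := by
  rintro i1 i3 i2 i4 _ _ _ _ W W' rfl rfl rfl rfl
  obtain ⟨r1, hr1⟩ := key_init ξ1 i1
  obtain ⟨r2, hr2⟩ := key_init ξ2 i2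
  obtain ⟨r3, hr3⟩ := key_init ξ3 i3
  obtain ⟨r4, hr4⟩ := key_init ξ4 i4
  obtain ⟨r, hr⟩ := finite_subset_box 0 (W.support.finite_toSet.union W'.support.finite_toSet)
  obtain ⟨n, ⟨⟨l12, l23⟩, l34⟩, hn⟩ := ((((Filter.Germ.coe_lt.1 h12).and
    (Filter.Germ.coe_lt.1 h23)).and (Filter.Germ.coe_lt.1 h34)).and
    (key_big (r1 + r2 + r3 + r4 + r))).exists
  have e1 := key_exit h1 i1 n fun k hk => box_mono (hr1 k hk) (by omega)
  have e2 := key_exit h2 i2 n fun k hk => box_mono (hr2 k hk) (by omega)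
  have e3 := key_exit h3 i3 n fun k hk => box_mono (hr3 k hk) (by omega)
  have e4 := key_exit h4 i4 n fun k hk => box_mono (hr4 k hk) (by omega)
  obtain ⟨P, hP⟩ := key_join h1 h3 W e1.1.le e3.1.le e1.2.2.1 e3.2.2.1
    fun z hz => box_mono (hr z (Or.inl hz)) (by omega)
  obtain ⟨P', hP'⟩ := key_join h2 h4 W' e2.1.le e4.1.le e2.2.2.1 e4.2.2.1
    fun z hz => box_mono (hr z (Or.inr hz)) (by omega)
  obtain ⟨z, hz, hz'⟩ := J1 (by omega) (by omega) e1.2.2.2 e2.2.2.2 e3.2.2.2 e4.2.2.2 l12 l23 l34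
    P P' (fun z hz => key_inR (hP z hz).1) fun z hz => key_inR (hP' z hz).1
  exact ⟨z, (hP z hz).2, (hP' z hz').2⟩

theorem Linked.swap1 {ξ1 ξ2 ξ3 ξ4 : ℕ → V} (h : Linked ξ1 ξ3 ξ2 ξ4) : Linked ξ3 ξ1 ξ2 ξ4 := by
  intro i3 i1 i2 i4 x3 x1 x2 x4 W W' e3 e1 e2 e4
  obtain ⟨z, hz, hz'⟩ := h i1 i3 i2 i4 x1 x3 x2 x4 W.reverse W' e1 e3 e2 e4
  rw [Walk.support_reverse, List.mem_reverse] at hz
  exact ⟨z, hz.imp_right Or.symm, hz'⟩

theorem Linked.swap2 {ξ1 ξ2 ξ3 ξ4 : ℕ → V} (h : Linked ξ1 ξ3 ξ2 ξ4) : Linked ξ1 ξ3 ξ4 ξ2 := by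
  intro i1 i3 i4 i2 x1 x3 x4 x2 W W' e1 e3 e4 e2
  obtain ⟨z, hz, hz'⟩ := h i1 i3 i2 i4 x1 x3 x2 x4 W W'.reverse e1 e3 e2 e4
  rw [Walk.support_reverse, List.mem_reverse] at hz'
  exact ⟨z, hz, hz'.imp_right Or.symm⟩

theorem Linked.symm {ξ1 ξ2 ξ3 ξ4 : ℕ → V} (h : Linked ξ1 ξ3 ξ2 ξ4) : Linked ξ2 ξ4 ξ1 ξ3 := by
  intro i2 i4 i1 i3 x2 x4 x1 x3 W' W e2 e4 e1 e3
  obtain ⟨z, hz, hz'⟩ := h i1 i3 i2 i4 x1 x3 x2 x4 W W' e1 e3 e2 e4
  exact ⟨z, hz', hz⟩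

theorem linked_of_alt {ξ1 ξ2 ξ3 ξ4 : ℕ → V} (h1 : RayW ξ1) (h2 : RayW ξ2) (h3 : RayW ξ3)
    (h4 : RayW ξ4) (h : AltK (key ξ1) (key ξ2) (key ξ3) (key ξ4)) : Linked ξ1 ξ3 ξ2 ξ4 := by
  rcases key_cases h with ⟨a, b, c⟩ | ⟨a, b, c⟩ | ⟨a, b, c⟩ | ⟨a, b, c⟩ | ⟨a, b, c⟩ | ⟨a, b, c⟩ |
    ⟨a, b, c⟩ | ⟨a, b, c⟩
  · exact linked_of_lt h1 h2 h3 h4 a b c
  · exact (linked_of_lt h4 h1 h2 h3 a b c).symm.swap2
  · exact (linked_of_lt h3 h2 h1 h4 a b c).swap1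
  · exact (linked_of_lt h4 h3 h2 h1 a b c).symm.swap1.swap2
  · exact (linked_of_lt h1 h4 h3 h2 a b c).swap2
  · exact (linked_of_lt h2 h1 h4 h3 a b c).symm
  · exact (linked_of_lt h3 h4 h1 h2 a b c).swap1.swap2
  · exact (linked_of_lt h2 h3 h4 h1 a b c).symm.swap1

section
variable {α : Type*} [LinearOrder α] {a b c d : α}

theorem AltK.swap13 (h : AltK a b c d) : AltK c b a d := by
  unfold AltK at *
  rwa [min_comm, max_comm]

theorem AltK.swap24 (h : AltK a b c d) : AltK a d c b := by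
  exact Or.symm h

theorem AltK.symm (h : AltK a b c d) : AltK b a d c := by
  rw [key_iff] at *
  rcases h with h | h | h | h | h | h | h | h <;> simp only [h, and_self, true_or, or_true]

theorem AltK.ne12 (h : AltK a b c d) : a ≠ b := by
  rw [key_iff] at h
  rcases h with h | h | h | h | h | h | h | h <;> obtain ⟨h1, h2, h3⟩ := h <;> order

theorem AltK.ne13 (h : AltK a b c d) : a ≠ c := by
  rw [key_iff] at h
  rcases h with h | h | h | h | h | h | h | h <;> obtain ⟨h1, h2, h3⟩ := h <;> order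

/-- if both pairs are increasing, they are ordered in the same way. -/
theorem AltK.lt_of_lt (h : AltK a b c d) (hac : a < c) (hbd : b < d) (hab : a < b) : c < d := by
  rw [key_iff] at h
  rcases h with h | h | h | h | h | h | h | h <;> obtain ⟨h1, h2, h3⟩ := h <;> order

theorem altK_tri (hab : a ≠ b) (hac : a ≠ c) (had : a ≠ d) (hbc : b ≠ c) (hbd : b ≠ d)
    (hcd : c ≠ d) : AltK a b c d ∨ AltK a c d b ∨ AltK a c b d := by
  simp only [key_iff]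
  rcases hab.lt_or_gt with h1 | h1 <;> rcases hac.lt_or_gt with h2 | h2 <;>
    rcases had.lt_or_gt with h3 | h3 <;> rcases hbc.lt_or_gt with h4 | h4 <;>
    rcases hbd.lt_or_gt with h5 | h5 <;> rcases hcd.lt_or_gt with h6 | h6 <;>
    first
      | exact (lt_asymm (h1.trans h4) h2).elim
      | exact (lt_asymm (h4.trans h1) h2).elim
      | exact (lt_asymm (h1.trans h5) h3).elim
      | exact (lt_asymm (h5.trans h1) h3).elim
      | exact (lt_asymm (h2.trans h6) h3).elim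
      | exact (lt_asymm (h6.trans h2) h3).elim
      | exact (lt_asymm (h4.trans h6) h5).elim
      | exact (lt_asymm (h6.trans h4) h5).elim
      | simp only [h1, h2, h3, h4, h5, h6, and_self, true_or, or_true]

end

theorem Cross.symm {γ γ' : ℤ → V} (h : Cross γ γ') : Cross γ' γ := AltK.symm h

theorem Cross.rev_left {γ γ' : ℤ → V} (h : Cross γ γ') : Cross (rev γ) γ' := by
  unfold Cross at *; rw [rev_rev]; exact h.swap13

theorem Cross.rev_right {γ γ' : ℤ → V} (h : Cross γ γ') : Cross γ (rev γ') := by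
  unfold Cross at *; rw [rev_rev]; exact h.swap24

/-- interlaced lines meet. -/
theorem Cross.meet {γ γ' : ℤ → V} (h1 : RayW (past γ)) (h2 : RayW (past γ'))
    (h3 : RayW (past (rev γ))) (h4 : RayW (past (rev γ'))) (h : Cross γ γ') :
    ∃ i j, γ i = γ' j := by
  obtain ⟨z, hz, hz'⟩ := linked_of_alt h1 h2 h3 h4 h 0 0 0 0 (γ 0) (γ 0) (γ' 0) (γ' 0) Walk.nil
    Walk.nil (by simp) (by simp) (by simp) (by simp)
  have k : ∀ δ : ℤ → V, z ∈ (Walk.nil : grid.Walk (δ 0) (δ 0)).support ∨ Tail (past δ) 0 z ∨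
      Tail (past (rev δ)) 0 z → ∃ i, δ i = z := by
    rintro δ (h | ⟨n, -, h⟩ | ⟨n, -, h⟩)
    · exact ⟨0, (List.mem_singleton.1 h).symm⟩
    · exact ⟨_, h⟩
    · exact ⟨_, h⟩
  obtain ⟨i, hi⟩ := k γ hz
  obtain ⟨j, hj⟩ := k γ' hz'
  exact ⟨i, j, hi.trans hj.symm⟩

end Vale.Agent.P158
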