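import Mathlib

/-!
TASK TV: a bounded sequence without alternating four-pattern has total variation at most 4 B.
Plan (layer cake): |d (i+1) - d i| is the Lebesgue measure of the interval I i between d i and d (i+1)
(Set.uIoc or Ioo min max), all inside [-B, B]. For c not equal to any d i, c lies in at most two of the I i:
three crossings i1 < i2 < i3 of the level c produce an alternating pattern (look at the signs of d - c at
i1, i1+1, i2, i2+1, i3, i3+1: the sign sequence changes at least three times; choose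
i1, i1+1, then whichever of i2, i2+1 has the sign of i1, and so on). Then sum of measures ≤ 2 * 2B by integrating
the sum of indicators (lintegral_finset_sum or integral_finset_sum). Any other proof is fine.
-/

namespace Vale.Agent.P158

open MeasureTheory

theorem tv_cross {a b c : ℝ} (h : c ∈ Set.Ioo (min a b) (max a b)) :
    (a < c ∧ c < b) ∨ (b < c ∧ c < a) := by
  obtain ⟨h1, h2⟩ := h
  rcases le_total a b with hab | hab
  · rw [min_eq_left hab] at h1; rw [max_eq_right hab] at h2; exact Or.inl ⟨h1, h2⟩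
  · rw [min_eq_right hab] at h1; rw [max_eq_left hab] at h2; exact Or.inr ⟨h1, h2⟩

theorem tv_three (n : ℕ) (d : ℕ → ℝ)
    (hp : ∀ (i j k l : ℕ) (c : ℝ), i < j → j < k → k < l → l ≤ n →
      ¬ (c < d i ∧ d j < c ∧ c < d k ∧ d l < c) ∧ ¬ (d i < c ∧ c < d j ∧ d k < c ∧ c < d l))
    (c : ℝ) {i1 i2 i3 : ℕ} (h12 : i1 < i2) (h23 : i2 < i3) (h3 : i3 < n)
    (a1 : c ∈ Set.Ioo (min (d i1) (d (i1 + 1))) (max (d i1) (d (i1 + 1))))
    (a2 : c ∈ Set.Ioo (min (d i2) (d (i2 + 1))) (max (d i2) (d (i2 + 1))))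
    (a3 : c ∈ Set.Ioo (min (d i3) (d (i3 + 1))) (max (d i3) (d (i3 + 1)))) : False := by
  rcases tv_cross a1 with b1 | b1 <;> rcases tv_cross a2 with b2 | b2
  · have hne : i2 ≠ i1 + 1 := by
      rintro rfl; linarith [b1.2, b2.1]
    exact (hp i1 (i1 + 1) i2 (i2 + 1) c (by omega) (by omega) (by omega) (by omega)).2
      ⟨b1.1, b1.2, b2.1, b2.2⟩
  · rcases tv_cross a3 with b3 | b3
    · exact (hp i1 (i1 + 1) (i2 + 1) (i3 + 1) c (by omega) (by omega) (by omega) (by omega)).2
        ⟨b1.1, b1.2, b2.1, b3.2⟩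
    · have hne : i3 ≠ i2 + 1 := by
        rintro rfl; linarith [b2.1, b3.2]
      exact (hp i1 (i1 + 1) (i2 + 1) i3 c (by omega) (by omega) (by omega) (by omega)).2
        ⟨b1.1, b1.2, b2.1, b3.2⟩
  · rcases tv_cross a3 with b3 | b3
    · have hne : i3 ≠ i2 + 1 := by
        rintro rfl; linarith [b2.2, b3.1]
      exact (hp i1 (i1 + 1) (i2 + 1) i3 c (by omega) (by omega) (by omega) (by omega)).1
        ⟨b1.2, b1.1, b2.2, b3.1⟩
    · exact (hp i1 (i1 + 1) (i2 + 1) (i3 + 1) c (by omega) (by omega) (by omega) (by omega)).1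
        ⟨b1.2, b1.1, b2.2, b3.1⟩
  · have hne : i2 ≠ i1 + 1 := by
      rintro rfl; linarith [b1.1, b2.2]
    exact (hp i1 (i1 + 1) i2 (i2 + 1) c (by omega) (by omega) (by omega) (by omega)).1
      ⟨b1.2, b1.1, b2.2, b2.1⟩

theorem tv_card (n : ℕ) (d : ℕ → ℝ)
    (hp : ∀ (i j k l : ℕ) (c : ℝ), i < j → j < k → k < l → l ≤ n →
      ¬ (c < d i ∧ d j < c ∧ c < d k ∧ d l < c) ∧ ¬ (d i < c ∧ c < d j ∧ d k < c ∧ c < d l))
    (c : ℝ) (S : Finset ℕ) (hS : ∀ i ∈ S, i < n ∧
      c ∈ Set.Ioo (min (d i) (d (i + 1))) (max (d i) (d (i + 1)))) : S.card ≤ 2 := by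
  by_contra hc
  have h3 : 2 < S.card := by omega
  obtain ⟨a, b, e, ha, hb, he, hab, hae, hbe⟩ := Finset.two_lt_card_iff.mp h3
  have key : ∀ x y z, x ∈ S → y ∈ S → z ∈ S → x < y → y < z → False := fun x y z hx hy hz h1 h2 =>
    tv_three n d hp c h1 h2 (hS z hz).1 (hS x hx).2 (hS y hy).2 (hS z hz).2
  rcases lt_or_gt_of_ne hab with h1 | h1 <;> rcases lt_or_gt_of_ne hae with h2 | h2 <;>
    rcases lt_or_gt_of_ne hbe with h4 | h4
  · exact key a b e ha hb he h1 h4
  · exact key a e b ha he hb h2 h4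
  · omega
  · exact key e a b he ha hb h2 h1
  · exact key b a e hb ha he h1 h2
  · omega
  · exact key b e a hb he ha h4 h2
  · exact key e b a he hb ha h4 h1

theorem tv_bound (n : ℕ) (d : ℕ → ℝ) (B : ℝ) (hB : ∀ i ≤ n, |d i| ≤ B)
    (hp : ∀ (i j k l : ℕ) (c : ℝ), i < j → j < k → k < l → l ≤ n →
      ¬ (c < d i ∧ d j < c ∧ c < d k ∧ d l < c) ∧ ¬ (d i < c ∧ c < d j ∧ d k < c ∧ c < d l)) :
    ∑ i ∈ Finset.range n, |d (i + 1) - d i| ≤ 4 * B := by
  classical
  have hB0 : 0 ≤ B := (abs_nonneg _).trans (hB 0 (Nat.zero_le _))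
  set I : ℕ → Set ℝ := fun i => Set.Ioo (min (d i) (d (i + 1))) (max (d i) (d (i + 1))) with hI
  have hvol : ∀ i, ENNReal.ofReal |d (i + 1) - d i| =
      ∫⁻ c, (I i).indicator (fun _ => (1 : ENNReal)) c := by
    intro i
    rw [lintegral_indicator_const measurableSet_Ioo, one_mul, Real.volume_Ioo, max_sub_min_eq_abs]
  have hpt : ∀ c : ℝ, ∑ i ∈ Finset.range n, (I i).indicator (fun _ => (1 : ENNReal)) c ≤
      (Set.Icc (-B) B).indicator (fun _ => (2 : ENNReal)) c := by
    intro c
    have e1 : ∑ i ∈ Finset.range n, (I i).indicator (fun _ => (1 : ENNReal)) c =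
        (((Finset.range n).filter fun i => c ∈ I i).card : ENNReal) := by
      simp only [Set.indicator_apply]
      rw [Finset.sum_boole]
    rw [e1]
    by_cases hc : c ∈ Set.Icc (-B) B
    · rw [Set.indicator_of_mem hc]
      have := tv_card n d hp c ((Finset.range n).filter fun i => c ∈ I i) (by
        intro i hi
        rw [Finset.mem_filter, Finset.mem_range] at hi
        exact hi)
      exact_mod_cast this
    · rw [Set.indicator_of_notMem hc]
      have : ((Finset.range n).filter fun i => c ∈ I i) = ∅ := by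
        rw [Finset.filter_eq_empty_iff]
        intro i hi hci
        rw [Finset.mem_range] at hi
        have h1 := abs_le.mp (hB i hi.le)
        have h2 := abs_le.mp (hB (i + 1) hi)
        apply hc
        rcases tv_cross hci with b | b
        · exact ⟨by linarith [b.1], by linarith [b.2]⟩
        · exact ⟨by linarith [b.1], by linarith [b.2]⟩
      rw [this]; simp
  have hmain : ENNReal.ofReal (∑ i ∈ Finset.range n, |d (i + 1) - d i|) ≤
      ENNReal.ofReal (4 * B) := by
    rw [ENNReal.ofReal_sum_of_nonneg (fun i _ => abs_nonneg _)]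
    simp_rw [hvol]
    rw [← lintegral_finsetSum _ (fun i _ => measurable_const.indicator measurableSet_Ioo)]
    refine (lintegral_mono hpt).trans (le_of_eq ?_)
    rw [lintegral_indicator_const measurableSet_Icc, Real.volume_Icc,
      show (4 : ℝ) * B = 2 * (B - -B) by ring, ENNReal.ofReal_mul (by norm_num)]
    simp
  exact (ENNReal.ofReal_le_ofReal_iff (by linarith)).mp hmain

end Vale.Agent.P158
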