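import Vale.Agent.P158.Bus
import Vale.Agent.P158.Key
import Vale.Agent.P158.TV

/-!
TASK BV: bounded variation of Busemann differences along the order at infinity.
Plan. no_alt: D γ = bus γ u - bus γ u' is the limit of T (γ (-n)) u - T (γ (-n)) u' (bus_diff_tendsto).
Let P = {y : T y u - T y u' > c}, N = {y : T y u - T y u' < c}. If y in P then every vertex z of a geodesic
walk from y to u' is in P (T y u' = T y z + T z u', T y u ≤ T y z + T z u); if y in N, every vertex of a geodesic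
walk from y to u is in N. Tails of γ1, γ3 lie in P eventually, tails of γ2, γ4 in N; join them through u'
resp. u (Reg.geo, append, reverse); Linked gives a common vertex, in P and N. (The mirrored pattern follows
from Linked.symm or by exchanging u, u' and c, -c.) bv_two: tv_bound with d i = bus (γ i) u - bus (γ i) u',
B = T u u' (bus_lip, T_comm), linked_of_lt. bv: let F i y = bus (γ i) y - bus (γ (i+1)) y. Induction on W:
for all u i, u' i in the support the sum of |F i (u i) - F i (u' i)| is at most the sum over darts (x,y) of W of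
sum over i of |F i x - F i y| ≤ 4 T x y ≤ 4 ω s(x,y). (First show for each i and u, u' in the support:
|F i u - F i u'| ≤ sum over darts of |F i fst - F i snd|.)
-/

namespace Vale.Agent.P158

variable {h : ℝ} {ω : Om}

theorem bv_ev_gt (hR : Reg h ω) {γ : ℤ → V} (hγ : IsLine ω γ) {u u' : V} {c : ℝ}
    (hc : c < bus ω γ u - bus ω γ u') :
    ∃ i : ℕ, ∀ n, i ≤ n → c < T ω (past γ n) u - T ω (past γ n) u' := by
  have := (bus_diff_tendsto hR.nn hγ u u').eventually (lt_mem_nhds hc)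
  rw [Filter.eventually_atTop] at this
  obtain ⟨i, hi⟩ := this
  exact ⟨i, fun n hn => hi n hn⟩

theorem bv_ev_lt (hR : Reg h ω) {γ : ℤ → V} (hγ : IsLine ω γ) {u u' : V} {c : ℝ}
    (hc : bus ω γ u - bus ω γ u' < c) :
    ∃ i : ℕ, ∀ n, i ≤ n → T ω (past γ n) u - T ω (past γ n) u' < c := by
  have := (bus_diff_tendsto hR.nn hγ u u').eventually (gt_mem_nhds hc)
  rw [Filter.eventually_atTop] at this
  obtain ⟨i, hi⟩ := this
  exact ⟨i, fun n hn => hi n hn⟩

theorem bv_walk_gt (hR : Reg h ω) {y y' u u' : V} {c : ℝ} (hy : c < T ω y u - T ω y u')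
    (hy' : c < T ω y' u - T ω y' u') :
    ∃ W : grid.Walk y y', ∀ z ∈ W.support, c < T ω z u - T ω z u' := by
  have key : ∀ x : V, c < T ω x u - T ω x u' →
      ∃ p : grid.Walk x u', ∀ z ∈ p.support, c < T ω z u - T ω z u' := by
    intro x hx
    obtain ⟨p, -, hp⟩ := hR.geo x u'
    refine ⟨p, fun z hz => ?_⟩
    have h1 := T_add_of_mem_geo hR.nn p hp hz
    have h2 := T_triangle hR.nn x z u
    linarith
  obtain ⟨p, hp⟩ := key y hy
  obtain ⟨q, hq⟩ := key y' hy'
  refine ⟨p.append q.reverse, fun z hz => ?_⟩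
  rw [SimpleGraph.Walk.mem_support_append_iff, SimpleGraph.Walk.support_reverse,
    List.mem_reverse] at hz
  exact hz.elim (hp z) (hq z)

theorem bv_walk_lt (hR : Reg h ω) {y y' u u' : V} {c : ℝ} (hy : T ω y u - T ω y u' < c)
    (hy' : T ω y' u - T ω y' u' < c) :
    ∃ W : grid.Walk y y', ∀ z ∈ W.support, T ω z u - T ω z u' < c := by
  obtain ⟨W, hW⟩ := bv_walk_gt hR (y := y) (y' := y') (u := u') (u' := u) (c := -c)
    (by linarith) (by linarith)
  exact ⟨W, fun z hz => by linarith [hW z hz]⟩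

theorem no_alt (hR : Reg h ω) {γ1 γ2 γ3 γ4 : ℤ → V} (h1 : IsLine ω γ1) (h2 : IsLine ω γ2)
    (h3 : IsLine ω γ3) (h4 : IsLine ω γ4)
    (hL : Linked (past γ1) (past γ3) (past γ2) (past γ4)) (u u' : V) (c : ℝ) :
    ¬ (c < bus ω γ1 u - bus ω γ1 u' ∧ bus ω γ2 u - bus ω γ2 u' < c ∧
      c < bus ω γ3 u - bus ω γ3 u' ∧ bus ω γ4 u - bus ω γ4 u' < c) := by
  rintro ⟨a1, a2, a3, a4⟩
  obtain ⟨i1, hi1⟩ := bv_ev_gt hR h1 a1
  obtain ⟨i2, hi2⟩ := bv_ev_lt hR h2 a2
  obtain ⟨i3, hi3⟩ := bv_ev_gt hR h3 a3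
  obtain ⟨i4, hi4⟩ := bv_ev_lt hR h4 a4
  obtain ⟨W, hW⟩ := bv_walk_gt hR (hi1 i1 le_rfl) (hi3 i3 le_rfl)
  obtain ⟨W', hW'⟩ := bv_walk_lt hR (hi2 i2 le_rfl) (hi4 i4 le_rfl)
  obtain ⟨z, hz, hz'⟩ := hL i1 i3 i2 i4 _ _ _ _ W W' rfl rfl rfl rfl
  have b1 : c < T ω z u - T ω z u' := by
    rcases hz with hz | ⟨n, hn, rfl⟩ | ⟨n, hn, rfl⟩
    · exact hW z hz
    · exact hi1 n hn
    · exact hi3 n hn
  have b2 : T ω z u - T ω z u' < c := by
    rcases hz' with hz | ⟨n, hn, rfl⟩ | ⟨n, hn, rfl⟩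
    · exact hW' z hz
    · exact hi2 n hn
    · exact hi4 n hn
  linarith

theorem bv_two (hR : Reg h ω) (n : ℕ) (γ : ℕ → ℤ → V) (hγ : ∀ i ≤ n, IsLine ω (γ i))
    (hk : ∀ i j, i < j → j ≤ n → key (past (γ i)) < key (past (γ j))) (u u' : V) :
    ∑ i ∈ Finset.range n, |(bus ω (γ i) u - bus ω (γ (i + 1)) u) -
      (bus ω (γ i) u' - bus ω (γ (i + 1)) u')| ≤ 4 * T ω u u' := by
  have := tv_bound n (fun i => bus ω (γ i) u - bus ω (γ i) u') (T ω u u') ?_ ?_
  · refine le_of_eq_of_le (Finset.sum_congr rfl fun i _ => ?_) this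
    rw [abs_sub_comm]
    congr 1
    ring
  · intro i hi
    have a1 := bus_lip hR.nn (hγ i hi) u u'
    have a2 := bus_lip hR.nn (hγ i hi) u' u
    rw [T_comm ω u' u] at a2
    exact abs_le.mpr ⟨by linarith, a1⟩
  · intro i j k l c hij hjk hkl hl
    have li := hγ i (by omega)
    have lj := hγ j (by omega)
    have lk := hγ k (by omega)
    have ll := hγ l hl
    have hL := linked_of_lt (li.rayW hR.pos) (lj.rayW hR.pos) (lk.rayW hR.pos) (ll.rayW hR.pos)
      (hk i j hij (by omega)) (hk j k hjk (by omega)) (hk k l hkl hl)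
    refine ⟨no_alt hR li lj lk ll hL u u' c, fun hh => ?_⟩
    exact no_alt hR lj li ll lk hL.symm u u' c ⟨hh.2.1, hh.1, hh.2.2.2, hh.2.2.1⟩

/-- edge weights given by the increments of a function. -/
noncomputable def bv_w (f : V → ℝ) : Om :=
  Sym2.lift ⟨fun x y => |f x - f y|, fun _ _ => abs_sub_comm _ _⟩

theorem bv_w_mk (f : V → ℝ) (x y : V) : bv_w f s(x, y) = |f x - f y| := rfl

theorem bv_w_nonneg (f : V → ℝ) : ∀ e, 0 ≤ bv_w f e := by
  intro e
  induction e using Sym2.ind with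
  | _ x y => rw [bv_w_mk]; exact abs_nonneg _

theorem bv_w_le (f : V → ℝ) {x y : V} (p : grid.Walk x y) : |f x - f y| ≤ cost (bv_w f) p := by
  induction p with
  | nil => simp
  | @cons a b c hab q ih =>
    rw [cost_cons, bv_w_mk]
    have := abs_sub_le (f a) (f b) (f c)
    linarith

theorem bv_w_supp (f : V → ℝ) {a b u u' : V} (W : grid.Walk a b) (hu : u ∈ W.support)
    (hu' : u' ∈ W.support) : |f u - f u'| ≤ cost (bv_w f) W :=
  (le_T fun p => bv_w_le f p).trans (T_le_of_mem_support (bv_w_nonneg f) W hu hu')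

theorem bv (hR : Reg h ω) (n : ℕ) (γ : ℕ → ℤ → V) (hγ : ∀ i ≤ n, IsLine ω (γ i))
    (hk : ∀ i j, i < j → j ≤ n → key (past (γ i)) < key (past (γ j))) {a b : V}
    (W : grid.Walk a b) (u u' : ℕ → V) (hu : ∀ i, u i ∈ W.support) (hu' : ∀ i, u' i ∈ W.support) :
    ∑ i ∈ Finset.range n, |(bus ω (γ i) (u i) - bus ω (γ (i + 1)) (u i)) -
      (bus ω (γ i) (u' i) - bus ω (γ (i + 1)) (u' i))| ≤ 4 * cost ω W := by
  have key : ∀ {x y : V} (p : grid.Walk x y), ∑ i ∈ Finset.range n,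
      cost (bv_w fun z => bus ω (γ i) z - bus ω (γ (i + 1)) z) p ≤ 4 * cost ω p := by
    intro x y p
    induction p with
    | nil => simp
    | @cons a b c hab q ih =>
      simp only [cost_cons, bv_w_mk, Finset.sum_add_distrib]
      have h1 := bv_two hR n γ hγ hk a b
      have h2 := T_le_edge hR.nn hab
      linarith
  refine le_trans (Finset.sum_le_sum fun i _ => ?_) (key W)
  exact bv_w_supp (fun z => bus ω (γ i) z - bus ω (γ (i + 1)) z) W (hu i) (hu' i)

end Vale.Agent.P158
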