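import Vale.Agent.P158.Meas1

/-!
TASK Meas2: measurability, part 2 (events about lines).
Plan: IsLine, Det, Wit, Big, FinL, Uses are countable Boolean combinations (Measurable.forall, .exists, .imp, .and,
.not; quantifiers over ℤ, ℕ, V and walks, all countable) of Step, T inequalities (measurableSet_le) and conditions on
finitely many γ i (any function on the countable discrete space V or V × V is measurable: measurable_of_countable,
Measurable.of_discrete). The events are projections: proj_null with X = ℤ → V, (ℤ → V) × (ℤ → V), Fin k → ℤ → V
(Polish and Borel instances are found by inferInstance; Om = Sym2 V → ℝ needs Countable (Sym2 V)).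
Injective f is: for all i j, (for all k, f i k = f j k) implies i = j.
-/

namespace Vale.Agent.P158

open MeasureTheory

theorem meas2_b1 : BorelSpace (ℤ → V) := inferInstance

theorem meas2_s1 : SecondCountableTopology (ℤ → V) := inferInstance

theorem meas2_b2 (k : ℕ) : BorelSpace (Fin k → ℤ → V) :=
  have := meas2_b1
  have := meas2_s1
  Pi.borelSpace

theorem meas2_b3 : BorelSpace ((ℤ → V) × (ℤ → V)) :=
  have := meas2_b1
  have := meas2_s1
  Prod.borelSpace

section
variable {Y : Type*} [MeasurableSpace Y] {g : Y → Om} {γ γ' : Y → ℤ → V}

theorem meas2_eq {a b : Y → V} (ha : Measurable a) (hb : Measurable b) :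
    Measurable fun y => a y = b y :=
  measurableSet_setOfPred.1 (measurableSet_eq_fun ha hb)

theorem meas2_at (hγ : Measurable γ) (i : ℤ) : Measurable fun y => γ y i :=
  (measurable_pi_apply i).comp hγ

theorem meas2_fun (φ : V → Prop) {a : Y → V} (ha : Measurable a) : Measurable fun y => φ (a y) :=
  (measurable_of_countable φ).comp ha

theorem meas2_le {u v : Y → ℝ} (hu : Measurable u) (hv : Measurable v) :
    Measurable fun y => u y ≤ v y :=
  measurableSet_setOfPred.1 (measurableSet_le hu hv)

theorem meas_isLine (hg : Measurable g) (hγ : Measurable γ) :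
    Measurable fun y => IsLine (g y) (γ y) :=
  Measurable.forall fun j => Measurable.forall fun i => measurable_const.imp
    (meas_step hg (meas2_at hγ i) (meas2_at hγ j) (meas2_at hγ (j + 1)))

theorem meas_det (hg : Measurable g) (hγ : Measurable γ) (r : ℕ) (w : ℝ) :
    Measurable fun y => Det (g y) (γ y) r w := by
  refine Measurable.forall fun i => Measurable.forall fun j => Measurable.forall fun a =>
    Measurable.forall fun b => ?_
  exact Measurable.forall fun p => measurable_const.imp (measurable_const.imp
    ((meas2_eq (meas2_at hγ i) measurable_const).imp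
      ((meas2_eq (meas2_at hγ j) measurable_const).imp
        ((meas2_fun (fun u => ∀ z ∈ p.support, z ∉ box u r) (meas2_at hγ 0)).imp
          (meas2_le ((meas_T hg measurable_const measurable_const).add_const w)
            ((meas_cost p).comp hg))))))

theorem meas_wit (hg : Measurable g) (hγ : Measurable γ) (hγ' : Measurable γ') (t : ℕ) (w : ℝ) :
    Measurable fun y => Wit (g y) t w (γ y) (γ' y) :=
  Measurable.exists fun i => Measurable.exists fun i' => Measurable.exists fun j =>
    Measurable.exists fun j' => measurable_const.and (measurable_const.and (measurable_const.and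
      (measurable_const.and (measurable_const.and (measurable_const.and
        ((meas2_eq (meas2_at hγ i) (meas2_at hγ' j)).and (meas2_le measurable_const
          (((meas_T hg (meas2_at hγ i') (meas2_at hγ i)).add
            (meas_T hg (meas2_at hγ' j) (meas2_at hγ' j'))).sub
            (meas_T hg (meas2_at hγ i') (meas2_at hγ' j'))))))))))

theorem meas_ml (hg : Measurable g) (hγ : Measurable γ) (η : ℝ) :
    Measurable fun y => ML (g y) η (γ y) :=
  (meas_isLine hg hγ).and ((meas2_eq (meas2_at hγ 0) measurable_const).and (meas_det hg hγ 0 η))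

theorem meas2_big (hg : Measurable g) (hγ : Measurable γ) (x : ℝ) :
    Measurable fun y => Big (g y) (γ y) x :=
  Measurable.exists fun r => Measurable.exists fun _ => meas_det hg hγ r _

theorem meas2_uses (hγ : Measurable γ) (e : E) : Measurable fun y => Uses (γ y) e :=
  Measurable.exists fun i => (measurable_of_countable fun p : V × V => e = s(p.1, p.2)).comp
    ((meas2_at hγ i).prodMk (meas2_at hγ (i + 1)))

theorem meas2_inj {k : ℕ} {f : Y → Fin k → ℤ → V} (hf : Measurable f) :
    Measurable fun y => Function.Injective (f y) := by
  have e : (fun y => Function.Injective (f y)) =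
      fun y => ∀ i j, (∀ a, f y i a = f y j a) → i = j := by
    funext y
    simp only [Function.Injective, funext_iff]
  rw [e]
  exact Measurable.forall fun i => Measurable.forall fun j => (Measurable.forall fun a =>
    meas2_eq (meas2_at ((measurable_pi_apply i).comp hf) a)
      (meas2_at ((measurable_pi_apply j).comp hf) a)).imp measurable_const

end

variable (G : Measure ℝ) [IsProbabilityMeasure G]

theorem null_fam (v : V) (k : ℕ) (η : ℝ) (r : ℕ) (w : ℝ) (t : ℕ) :
    NullMeasurableSet {ω | Fam ω v k η r w t} (mu G) := by
  have := meas2_b2 k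
  have hf : ∀ i, Measurable fun p : Om × (Fin k → ℤ → V) => p.2 i := fun i =>
    (measurable_pi_apply i).comp measurable_snd
  refine proj_null (mu G) (measurableSet_setOfPred.2 (Measurable.and ?_ ?_))
  · exact Measurable.forall fun i => (meas_isLine measurable_fst (hf i)).and
      ((meas2_eq (meas2_at (hf i) 0) measurable_const).and
        ((meas_det measurable_fst (hf i) 0 η).and (meas_det measurable_fst (hf i) r w)))
  · exact Measurable.forall fun i => Measurable.forall fun j => measurable_const.imp
      (Measurable.forall fun a => Measurable.forall fun b =>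
        (meas2_eq (meas2_at (hf i) a) (meas2_at (hf j) b)).imp
          (meas2_fun (fun u => u ∈ box v t) (meas2_at (hf i) a)))

theorem null_badNear (v : V) (η : ℝ) (r : ℕ) (w : ℝ) (t : ℕ) :
    NullMeasurableSet {ω | BadNear ω v η r w t} (mu G) := by
  have := meas2_b3
  have e : {ω | BadNear ω v η r w t} = {ω | ∃ q : (ℤ → V) × (ℤ → V), IsLine ω q.1 ∧
      IsLine ω q.2 ∧ q.1 0 = v ∧ Det ω q.1 0 η ∧ q.2 0 ∈ box v r ∧ (∀ k, q.2 k ≠ v) ∧
      ¬ Wit ω t w q.1 q.2} := by
    ext ω
    simp only [BadNear, Set.mem_ofPred_eq, Prod.exists]
  rw [e]
  have h1 : Measurable fun p : Om × ((ℤ → V) × (ℤ → V)) => p.2.1 := measurable_snd.fst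
  have h2 : Measurable fun p : Om × ((ℤ → V) × (ℤ → V)) => p.2.2 := measurable_snd.snd
  exact proj_null (mu G) (measurableSet_setOfPred.2 ((meas_isLine measurable_fst h1).and
    ((meas_isLine measurable_fst h2).and ((meas2_eq (meas2_at h1 0) measurable_const).and
      ((meas_det measurable_fst h1 0 η).and ((meas2_fun (fun u => u ∈ box v r) (meas2_at h2 0)).and
        ((Measurable.forall fun k => (meas2_eq (meas2_at h2 k) measurable_const).not).and
          (meas_wit measurable_fst h1 h2 t w).not)))))))

theorem null_goodAt (v : V) (k : ℕ) (η : ℝ) (r : ℕ) (w : ℝ) (t : ℕ) (M0 : ℝ) :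
    NullMeasurableSet {ω | GoodAt ω v k η r w t M0} (mu G) :=
  (null_fam G v k η r w t).inter ((null_badNear G v η r w t).compl.inter
    (meas_loc v r M0).nullMeasurableSet)

theorem null_pj (η x : ℝ) : NullMeasurableSet {ω | Pj ω η x} (mu G) :=
  proj_null (mu G) (measurableSet_setOfPred.2 ((meas_ml measurable_fst measurable_snd η).and
    ((Measurable.exists fun y : ℕ => (meas2_big measurable_fst measurable_snd y).not).and
      (meas2_big measurable_fst measurable_snd x))))

theorem null_many (η : ℝ) (M : ℕ) : NullMeasurableSet {ω | Many ω η M} (mu G) :=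
  have := meas2_b2 (M + 1)
  proj_null (mu G) (measurableSet_setOfPred.2 ((meas2_inj measurable_snd).and
    (Measurable.forall fun i =>
      meas_ml measurable_fst ((measurable_pi_apply i).comp measurable_snd) η)))

theorem null_piv (η : ℝ) (M : ℕ) (e : E) : NullMeasurableSet {ω | Piv ω η M e} (mu G) := by
  have := meas2_b2 (M + 1)
  have h1 : NullMeasurableSet {ω | ∃ γ, ML ω η γ ∧ Uses γ e} (mu G) :=
    proj_null (mu G) (measurableSet_setOfPred.2 ((meas_ml measurable_fst measurable_snd η).and
      (meas2_uses measurable_snd e)))
  have h2 : NullMeasurableSet {ω | ∃ f : Fin (M + 1) → ℤ → V, Function.Injective f ∧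
      ∀ i, ML ω η (f i) ∧ ¬ Uses (f i) e} (mu G) :=
    proj_null (mu G) (measurableSet_setOfPred.2 ((meas2_inj measurable_snd).and
      (Measurable.forall fun i =>
        (meas_ml measurable_fst ((measurable_pi_apply i).comp measurable_snd) η).and
          (meas2_uses ((measurable_pi_apply i).comp measurable_snd) e).not)))
  exact h1.inter h2.compl

end Vale.Agent.P158
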