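import Vale.Agent.P158.GoodAE
import Vale.Agent.P158.Meas2

/-!
TASK BadN: uniform finite witnesses, by compactness.
not_badNear: suppose BadNear at every t with lines γ t, γ' t. ulim (IsLine.mem_box: γ t i in box v |i|, γ' t i in
box v (r + |i|)) gives limits γ, γ'. Each condition of IsLine, Det, γ 0 = v, γ' k ≠ v involves finitely many values, so passes to the
limit (Eventually.and, Eventually.exists; the hyperfilter is NeBot). The ranges differ (v), PB and Cross.meet give a common vertex,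
dinf gives indices i, i', j, j'; eventually the lines at level t agree with the limits at these indices and t ≥ their absolute values
(Filter.hyperfilter_le_cofinite, Nat.cofinite_eq_atTop): Wit holds, contradiction. badNear_prob: antitone in t, null_badNear,
tendsto_measure_iInter_atTop, good_ae. ev_fam: finite_inter for the finitely many pairs, finite_subset_box.
-/

namespace Vale.Agent.P158

open MeasureTheory

theorem badn_line {ω : Om} {γ : ℕ → ℤ → V} {l : ℤ → V} (hγ : ∀ t, IsLine ω (γ t))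
    (hl : ∀ i, ∀ᶠ t in (Filter.hyperfilter ℕ : Filter ℕ), γ t i = l i) : IsLine ω l := by
  intro i j hij
  obtain ⟨t, h1, h2, h3⟩ := ((hl i).and ((hl j).and (hl (i + 1)))).exists
  rw [← h1, ← h2, ← h3]
  exact hγ t i j hij

theorem badn_wit_mono {ω : Om} {t t' : ℕ} {w : ℝ} {γ γ' : ℤ → V} (hW : Wit ω t w γ γ')
    (ht : t ≤ t') : Wit ω t' w γ γ' := by
  obtain ⟨i, i', j, j', h1, h2, h3, h4, h5⟩ := hW
  have : (t : ℤ) ≤ t' := by exact_mod_cast ht
  exact ⟨i, i', j, j', h1.trans this, h2.trans this, h3.trans this, h4.trans this, h5⟩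

theorem not_badNear {h : ℝ} {ω : Om} (hG : Good h ω) {η : ℝ} (hη : 0 < η) (v : V) (r : ℕ)
    (w : ℝ) : ∃ t, ¬ BadNear ω v η r w t := by
  by_contra hc
  have hall : ∀ t, BadNear ω v η r w t := fun t => by
    by_contra h1
    exact hc ⟨t, h1⟩
  choose γ γ' h1 h2 h3 h4 h5 h6 h7 using hall
  obtain ⟨l, hl⟩ := ulim γ fun i => ⟨box v i.natAbs, fun t => by
    have := (h1 t).mem_box 0 i
    rwa [h3 t, sub_zero] at this⟩
  obtain ⟨l', hl'⟩ := ulim γ' fun i => ⟨box v (r + i.natAbs), fun t => by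
    have := (h2 t).mem_box 0 i
    rw [sub_zero] at this
    exact box_trans (h5 t) this⟩
  have hL := badn_line h1 hl
  have hL' := badn_line h2 hl'
  have hl0 : l 0 = v := by
    obtain ⟨t, ht⟩ := (hl 0).exists
    rw [← ht, h3 t]
  have hD : Det ω l 0 η := by
    intro i j x y p hi hj hx hy hp
    obtain ⟨t, e1, e2⟩ := ((hl i).and (hl j)).exists
    refine h4 t i j x y p hi hj (e1.trans hx) (e2.trans hy) ?_
    rw [h3 t, ← hl0]
    exact hp
  have hne : Set.range l ≠ Set.range l' := by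
    intro he
    have : v ∈ Set.range l' := he ▸ ⟨0, hl0⟩
    obtain ⟨k, hk⟩ := this
    obtain ⟨t, ht⟩ := (hl' k).exists
    exact h6 t k (ht.trans hk)
  have hpos := hG.reg.pos
  have h0 := hG.reg.nn
  obtain ⟨i, j, hij⟩ := Cross.meet (hL.rayW hpos) (hL'.rayW hpos) ((hL.rev h0).rayW hpos)
    ((hL'.rev h0).rayW hpos) (hG.pb η l l' hη hL hL' hD hne)
  obtain ⟨i', j', hi', hj', hw⟩ := dinf hG.reg hG.noY hG.pe hL hL' hne hij w
  have hbig : ∀ᶠ t in (Filter.hyperfilter ℕ : Filter ℕ),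
      i.natAbs + i'.natAbs + j.natAbs + j'.natAbs ≤ t := by
    apply Filter.hyperfilter_le_cofinite
    rw [Nat.cofinite_eq_atTop]
    exact Filter.eventually_ge_atTop _
  obtain ⟨t, e0, e1, e2, e3, e4⟩ :=
    (hbig.and ((hl i).and ((hl i').and ((hl' j).and (hl' j'))))).exists
  apply h7 t
  refine ⟨i, i', j, j', ?_, ?_, ?_, ?_, hi', hj', ?_, ?_⟩
  · rw [← Int.natCast_natAbs]; omega
  · rw [← Int.natCast_natAbs]; omega
  · rw [← Int.natCast_natAbs]; omega
  · rw [← Int.natCast_natAbs]; omega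
  · rw [e1, e3, hij]
  · rw [e1, e2, e3, e4]; exact hw

theorem badNear_prob {G : Measure ℝ} [IsProbabilityMeasure G] {h g : ℝ} (hp : Par G h g) {η : ℝ}
    (hη : 0 < η) (r : ℕ) (w : ℝ) {ε : ℝ} (hε : 0 < ε) :
    ∃ t0 : ℕ, ∀ t, t0 ≤ t → (mu G).real {ω | BadNear ω 0 η r w t} ≤ ε := by
  have hanti : Antitone fun t : ℕ => {ω | BadNear ω 0 η r w t} := by
    intro t t' htt ω hω
    obtain ⟨γ, γ', h1, h2, h3, h4, h5, h6, h7⟩ := hω
    exact ⟨γ, γ', h1, h2, h3, h4, h5, h6, fun hc => h7 (badn_wit_mono hc htt)⟩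
  have hlim := tendsto_measure_iInter_atTop (μ := mu G)
    (fun t => null_badNear G 0 η r w t) hanti ⟨0, measure_ne_top _ _⟩
  have hnull : mu G (⋂ t : ℕ, {ω | BadNear ω 0 η r w t}) = 0 := by
    have hae : ∀ᵐ ω ∂mu G, ω ∉ ⋂ t : ℕ, {ω | BadNear ω 0 η r w t} := by
      filter_upwards [good_ae hp] with ω hω hc
      obtain ⟨t, ht⟩ := not_badNear hω hη 0 r w
      exact ht (Set.mem_iInter.1 hc t)
    exact measure_eq_zero_iff_ae_notMem.2 hae
  rw [hnull] at hlim
  have hev := hlim.eventually (gt_mem_nhds (ENNReal.ofReal_pos.2 hε))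
  obtain ⟨t0, ht0⟩ := Filter.eventually_atTop.1 hev
  refine ⟨t0, fun t ht => ?_⟩
  exact ENNReal.toReal_le_of_le_ofReal hε.le (ht0 t ht).le

theorem ev_fam {h : ℝ} {ω : Om} (hG : Good h ω) {v : V} {k r : ℕ} {η w : ℝ}
    (hE : Ev ω v k η r w) : ∃ t0 : ℕ, ∀ t, t0 ≤ t → Fam ω v k η r w t := by
  obtain ⟨f, h1, h2⟩ := hE
  have hfin : (⋃ i : Fin k, ⋃ j : Fin k, ⋃ (_ : i ≠ j),
      Set.range (f i) ∩ Set.range (f j)).Finite := by
    refine Set.finite_iUnion fun i => Set.finite_iUnion fun j => Set.finite_iUnion fun hij => ?_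
    exact finite_inter hG.reg hG.noY (h1 i).1 (h1 j).1 (h2 i j hij)
  obtain ⟨t0, ht0⟩ := finite_subset_box v hfin
  refine ⟨t0, fun t ht => ⟨f, h1, fun i j hij a b hab => box_mono (ht0 _ ?_) ht⟩⟩
  simp only [Set.mem_iUnion]
  exact ⟨i, j, hij, ⟨a, rfl⟩, ⟨b, hab.symm⟩⟩

end Vale.Agent.P158
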