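import Vale.Agent.P158.Core

/-!
TASK Basic: cost and passage time as a pseudo-metric (weights nonnegative).
Plan: cost lemmas by simp on Walk.edges. T is a conditionally complete infimum over the nonempty type
of walks (walk_nonempty: induct on the coordinate differences), bounded below by 0: use ciInf_le,
le_ciInf. Triangle inequality: for walks p q, T x z ≤ cost p + cost q, then le_ciInf twice
(le_sub_iff_add_le). bypass: edges of p.bypass form a sublist/subperm of p.edges
(Walk.edges_bypass_subset plus Nodup gives List.Subperm, or induct on p using dropUntil).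
Splitting at a vertex: takeUntil / dropUntil and Walk.take_spec.
-/

namespace Vale.Agent.P158

open SimpleGraph

theorem basic_step {x y : V} (h : x ≠ y) : ∃ z, grid.Adj x z ∧
    (z.1 - y.1).natAbs + (z.2 - y.2).natAbs + 1 = (x.1 - y.1).natAbs + (x.2 - y.2).natAbs ∧
    ∀ (v : V) (r : ℕ), x ∈ box v r → y ∈ box v r → z ∈ box v r := by
  have h' : x.1 ≠ y.1 ∨ x.2 ≠ y.2 := by
    by_contra hc
    exact h (Prod.ext (by omega) (by omega))
  simp only [adj_iff, mem_box]
  rcases lt_trichotomy x.1 y.1 with h1 | h1 | h1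
  · exact ⟨(x.1 + 1, x.2), by simp, by simp only; omega, fun v r => by simp only; omega⟩
  · rcases lt_or_gt_of_ne (h'.resolve_left (not_not.2 h1)) with h2 | h2
    · exact ⟨(x.1, x.2 + 1), by simp, by simp only; omega, fun v r => by simp only; omega⟩
    · exact ⟨(x.1, x.2 - 1), by simp, by simp only; omega, fun v r => by simp only; omega⟩
  · exact ⟨(x.1 - 1, x.2), by simp, by simp only; omega, fun v r => by simp only; omega⟩

theorem basic_walk (n : ℕ) : ∀ x y : V, (x.1 - y.1).natAbs + (x.2 - y.2).natAbs = n →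
    ∃ p : grid.Walk x y, p.length = n ∧
      ∀ (v : V) (r : ℕ), x ∈ box v r → y ∈ box v r → ∀ z ∈ p.support, z ∈ box v r := by
  induction n with
  | zero =>
    intro x y h
    obtain rfl : x = y := Prod.ext (by omega) (by omega)
    exact ⟨Walk.nil, rfl, fun v r hx _ z hz => by rwa [Walk.mem_support_nil_iff.1 hz]⟩
  | succ n ih =>
    intro x y h
    obtain ⟨z, h1, h2, h3⟩ := basic_step (x := x) (y := y) (by rintro rfl; simp at h)
    obtain ⟨p, hp1, hp2⟩ := ih z y (by omega)
    refine ⟨Walk.cons h1 p, by rw [Walk.length_cons, hp1], fun v r hx hy u hu => ?_⟩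
    rcases List.mem_cons.1 hu with rfl | hu
    exacts [hx, hp2 v r (h3 v r hx hy) hy u hu]

theorem walk_nonempty (x y : V) : Nonempty (grid.Walk x y) := by
  exact (basic_walk _ x y rfl).elim fun p _ => ⟨p⟩

instance walkCountable (x y : V) : Countable (grid.Walk x y) := by
  exact Function.Injective.countable (f := Walk.support) fun _ _ h => Walk.ext_support h

@[simp] theorem cost_nil (ω : Om) (x : V) : cost ω (Walk.nil : grid.Walk x x) = 0 := by
  rfl

@[simp] theorem cost_cons (ω : Om) {x y z : V} (h : grid.Adj x y) (p : grid.Walk y z) :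
    cost ω (Walk.cons h p) = ω s(x, y) + cost ω p := by
  simp [cost]

@[simp] theorem cost_append (ω : Om) {x y z : V} (p : grid.Walk x y) (q : grid.Walk y z) :
    cost ω (p.append q) = cost ω p + cost ω q := by
  simp [cost]

@[simp] theorem cost_reverse (ω : Om) {x y : V} (p : grid.Walk x y) :
    cost ω p.reverse = cost ω p := by
  simp [cost, List.sum_reverse]

@[simp] theorem cost_copy (ω : Om) {x y x' y' : V} (p : grid.Walk x y) (hx : x = x') (hy : y = y') :
    cost ω (p.copy hx hy) = cost ω p := by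
  subst hx hy
  rfl

theorem cost_nonneg {ω : Om} (h0 : ∀ e, 0 ≤ ω e) {x y : V} (p : grid.Walk x y) : 0 ≤ cost ω p := by
  refine List.sum_nonneg fun a ha => ?_
  obtain ⟨e, -, rfl⟩ := List.mem_map.1 ha
  exact h0 e

theorem cost_congr {ω ω' : Om} {x y : V} (p : grid.Walk x y) (h : ∀ e ∈ p.edges, ω e = ω' e) :
    cost ω p = cost ω' p := by
  unfold cost
  rw [List.map_congr_left h]

theorem cost_mono {ω ω' : Om} {x y : V} (p : grid.Walk x y) (h : ∀ e ∈ p.edges, ω e ≤ ω' e) :
    cost ω p ≤ cost ω' p := by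
  exact List.sum_le_sum h

theorem cost_le_length {ω : Om} {x y : V} (p : grid.Walk x y) {M : ℝ}
    (h : ∀ e ∈ p.edges, ω e ≤ M) : cost ω p ≤ p.length * M := by
  have h1 := cost_mono (ω' := fun _ => M) p h
  have h2 : cost (fun _ => M) p = p.length * M := by simp [cost]
  exact h1.trans h2.le

/-- for a path the cost is a finset sum. -/
theorem cost_eq_sum (ω : Om) {x y : V} (p : grid.Walk x y) (hp : p.IsPath) :
    cost ω p = ∑ e ∈ p.edges.toFinset, ω e := by
  exact (List.sum_toFinset ω hp.isTrail.edges_nodup).symm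

theorem hi_mul_le_cost {ω : Om} (h0 : ∀ e, 0 ≤ ω e) (h : ℝ) {x y : V} (p : grid.Walk x y) :
    h * hi ω h p ≤ cost ω p := by
  induction p with
  | nil => simp [hi]
  | @cons u v w ha p ih =>
    have h1 := h0 s(u, v)
    unfold hi at ih ⊢
    rw [cost_cons, Walk.edges_cons, List.countP_cons]
    split_ifs with hc
    · have h2 : h < ω s(u, v) := of_decide_eq_true hc
      push_cast
      linarith
    · push_cast
      linarith

theorem cost_bypass_le {ω : Om} (h0 : ∀ e, 0 ≤ ω e) {x y : V} (p : grid.Walk x y) :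
    cost ω p.bypass ≤ cost ω p := by
  refine (p.edges_bypass_sublist_edges.map ω).sum_le_sum fun a ha => ?_
  obtain ⟨e, -, rfl⟩ := List.mem_map.1 ha
  exact h0 e

theorem T_le_cost {ω : Om} (h0 : ∀ e, 0 ≤ ω e) {x y : V} (p : grid.Walk x y) :
    T ω x y ≤ cost ω p := by
  exact ciInf_le ⟨0, by rintro _ ⟨q, rfl⟩; exact cost_nonneg h0 q⟩ p

theorem le_T {ω : Om} {x y : V} {c : ℝ} (h : ∀ p : grid.Walk x y, c ≤ cost ω p) :
    c ≤ T ω x y := by
  have := walk_nonempty x y
  exact le_ciInf h

theorem le_T_path {ω : Om} (h0 : ∀ e, 0 ≤ ω e) {x y : V} {c : ℝ}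
    (h : ∀ p : grid.Walk x y, p.IsPath → c ≤ cost ω p) : c ≤ T ω x y := by
  exact le_T fun p => (h _ p.bypass_isPath).trans (cost_bypass_le h0 p)

theorem T_nonneg {ω : Om} (h0 : ∀ e, 0 ≤ ω e) (x y : V) : 0 ≤ T ω x y := by
  exact le_T (cost_nonneg h0)

theorem T_self {ω : Om} (h0 : ∀ e, 0 ≤ ω e) (x : V) : T ω x x = 0 := by
  exact le_antisymm (T_le_cost h0 Walk.nil) (T_nonneg h0 x x)

theorem T_comm (ω : Om) (x y : V) : T ω x y = T ω y x := by
  unfold T iInf
  congr 1
  ext c
  exact ⟨fun ⟨p, hp⟩ => ⟨p.reverse, (cost_reverse ω p).trans hp⟩,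
    fun ⟨p, hp⟩ => ⟨p.reverse, (cost_reverse ω p).trans hp⟩⟩

theorem T_triangle {ω : Om} (h0 : ∀ e, 0 ≤ ω e) (x y z : V) :
    T ω x z ≤ T ω x y + T ω y z := by
  have h1 : T ω x z - T ω y z ≤ T ω x y := le_T fun p => by
    have h2 : T ω x z - cost ω p ≤ T ω y z := le_T fun q => by
      have h3 := T_le_cost h0 (p.append q)
      rw [cost_append] at h3
      linarith
    linarith
  linarith

theorem T_le_edge {ω : Om} (h0 : ∀ e, 0 ≤ ω e) {x y : V} (h : grid.Adj x y) :
    T ω x y ≤ ω s(x, y) := by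
  simpa using T_le_cost h0 (Walk.cons h Walk.nil)

theorem T_mono {ω ω' : Om} (h0 : ∀ e, 0 ≤ ω' e) (h : ∀ e, ω' e ≤ ω e) (x y : V) :
    T ω' x y ≤ T ω x y := by
  exact le_T fun p => (T_le_cost h0 p).trans (cost_mono p fun e _ => h e)

/-- T only depends on the weights of lattice edges. -/
theorem T_congr {ω ω' : Om} (h : ∀ e ∈ grid.edgeSet, ω e = ω' e) (x y : V) :
    T ω x y = T ω' x y := by
  exact iInf_congr fun p => cost_congr p fun e he => h e (p.edges_subset_edgeSet he)

theorem T_split {ω : Om} (h0 : ∀ e, 0 ≤ ω e) {x y z : V} (p : grid.Walk x y)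
    (hz : z ∈ p.support) : T ω x z + T ω z y ≤ cost ω p := by
  obtain ⟨q, r, rfl⟩ := Walk.mem_support_iff_exists_append.1 hz
  rw [cost_append]
  exact add_le_add (T_le_cost h0 q) (T_le_cost h0 r)

theorem T_le_of_mem_support {ω : Om} (h0 : ∀ e, 0 ≤ ω e) {x y z z' : V} (p : grid.Walk x y)
    (hz : z ∈ p.support) (hz' : z' ∈ p.support) : T ω z z' ≤ cost ω p := by
  obtain ⟨q, r, rfl⟩ := Walk.mem_support_iff_exists_append.1 hz
  rw [cost_append]
  rcases (Walk.mem_support_append_iff q r).1 hz' with h1 | h1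
  · have h2 := T_split h0 q h1
    have h3 := T_nonneg h0 x z'
    have h4 := cost_nonneg h0 r
    rw [T_comm]
    linarith
  · have h2 := T_split h0 r h1
    have h3 := T_nonneg h0 z' y
    have h4 := cost_nonneg h0 q
    linarith

/-- a vertex of a geodesic walk lies between its ends. -/
theorem T_add_of_mem_geo {ω : Om} (h0 : ∀ e, 0 ≤ ω e) {x y z : V} (p : grid.Walk x y)
    (hp : cost ω p = T ω x y) (hz : z ∈ p.support) : T ω x y = T ω x z + T ω z y := by
  exact le_antisymm (T_triangle h0 x z y) (hp ▸ T_split h0 p hz)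

theorem Pei.peiT {ω : Om} {h : ℝ} {x : V} {n : ℕ} (h0 : ∀ e, 0 ≤ ω e) (hh : 0 ≤ h)
    (hp : Pei ω h x n) : PeiT ω (h / 2) x n := by
  intro y p h1 h2
  have h3 : (p.length : ℝ) ≤ 2 * hi ω h p := by exact_mod_cast hp y p h1 h2
  have h4 := hi_mul_le_cost h0 h p
  nlinarith

theorem basic_countP (P Q : E → Bool) (e : E) (h : ∀ a, a ≠ e → P a = Q a) (l : List E) :
    l.countP P ≤ l.countP Q + l.count e := by
  induction l with
  | nil => simp
  | cons a l ih =>
    rw [List.countP_cons, List.countP_cons, List.count_cons]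
    by_cases ha : a = e
    · subst ha
      simp only [beq_self_eq_true, if_true]
      split_ifs <;> omega
    · rw [h a ha]
      omega

/-- changing one weight destroys at most one high edge of a path. -/
theorem Pei.peiT_update {ω ω' : Om} {h : ℝ} {x : V} {n : ℕ} (h0 : ∀ e, 0 ≤ ω' e) (hh : 0 ≤ h)
    (e : E) (hω : ∀ e', e' ≠ e → ω' e' = ω e') (hn : 4 ≤ n) (hp : Pei ω h x n) :
    PeiT ω' (h / 4) x n := by
  intro y p h1 h2
  have h3 := hp y p h1 h2
  have h4 : hi ω h p ≤ hi ω' h p + p.edges.count e :=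
    basic_countP _ _ e (fun a ha => by rw [hω a ha]) _
  have h5 := List.nodup_iff_count_le_one.1 h1.isTrail.edges_nodup e
  have h6 : (p.length : ℝ) ≤ 4 * hi ω' h p := by
    exact_mod_cast (by omega : p.length ≤ 4 * hi ω' h p)
  have h7 := hi_mul_le_cost h0 h p
  nlinarith

theorem Pei.mono {ω : Om} {h : ℝ} {x : V} {n m : ℕ} (hp : Pei ω h x n) (hnm : n ≤ m) :
    Pei ω h x m := fun y p h1 h2 => hp y p h1 (hnm.trans h2)

end Vale.Agent.P158
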