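import Vale.Agent.P158.Core

/-!
TASK Count: counting lemmas.
Plan. cnt s (fun i => ω ∈ A i) as a real number is the sum of indicators. count_master: integrate; replace
B j by toMeasurable μ (B j) (the count only increases, same measure); A i null measurable so the indicator
is integrable with integral μ.real (A i) (integral_indicator_one₀ style, or pass to toMeasurable which is a.e. equal).
count_lower: with hulls B' j the set {ω : m ≤ count} is measurable and contains A up to a null set; Markov.
ind_set: take I maximal among subsets of X that are pairwise unrelated (Finset.exists_maximal or a subset of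
maximal card); every x in X is related to some y in I (refl if x in I); card_biUnion_le.
-/

namespace Vale.Agent.P158

open MeasureTheory

variable {Ω : Type*} [MeasurableSpace Ω] (μ : Measure Ω) [IsProbabilityMeasure μ]

omit [MeasurableSpace Ω] in
theorem count_ind {ι : Type*} (s : Finset ι) (A : ι → Set Ω) (ω : Ω) :
    (cnt s (fun i => ω ∈ A i) : ℝ) = ∑ i ∈ s, (A i).indicator (fun _ => (1 : ℝ)) ω := by
  classical
  rw [cnt_eq, Finset.card_filter, Nat.cast_sum]
  refine Finset.sum_congr rfl fun i _ => ?_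
  by_cases h : ω ∈ A i <;> simp [h]

theorem count_le_card {ι : Type*} (s : Finset ι) (P : ι → Prop) : cnt s P ≤ s.card := by
  classical
  rw [cnt_eq]
  exact Finset.card_filter_le _ _

theorem count_mono {ι : Type*} (s : Finset ι) {P Q : ι → Prop} (h : ∀ i ∈ s, P i → Q i) :
    cnt s P ≤ cnt s Q := by
  classical
  rw [cnt_eq, cnt_eq]
  refine Finset.card_le_card fun i hi => ?_
  rw [Finset.mem_filter] at hi ⊢
  exact ⟨hi.1, h i hi.1 hi.2⟩

theorem count_unit_pos {P : Prop} (h : P) : cnt (Finset.univ : Finset Unit) (fun _ => P) = 1 := by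
  classical
  rw [cnt_eq]; simp [h]

theorem count_unit_neg {P : Prop} (h : ¬ P) :
    cnt (Finset.univ : Finset Unit) (fun _ => P) = 0 := by
  classical
  rw [cnt_eq]; simp [h]

theorem count_int {ι : Type*} (s : Finset ι) (A : ι → Set Ω)
    (hA : ∀ i ∈ s, NullMeasurableSet (A i) μ) :
    Integrable (fun ω => (cnt s (fun i => ω ∈ A i) : ℝ)) μ ∧
      ∫ ω, (cnt s (fun i => ω ∈ A i) : ℝ) ∂μ = ∑ i ∈ s, μ.real (A i) := by
  have h1 : ∀ i ∈ s, Integrable ((A i).indicator fun _ => (1 : ℝ)) μ := fun i hi =>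
    (integrable_const (1 : ℝ)).indicator₀ (hA i hi)
  simp only [count_ind]
  refine ⟨integrable_finsetSum s h1, ?_⟩
  rw [integral_finsetSum s h1]
  refine Finset.sum_congr rfl fun i hi => ?_
  rw [integral_indicator₀ (hA i hi)]
  simp

theorem count_master {ι κ : Type*} (s : Finset ι) (t : Finset κ) (A : ι → Set Ω) (B : κ → Set Ω)
    (hA : ∀ i ∈ s, NullMeasurableSet (A i) μ) (a b c : ℝ) (hb : 0 ≤ b)
    (h : ∀ᵐ ω ∂μ, a * cnt s (fun i => ω ∈ A i) ≤ b * cnt t (fun j => ω ∈ B j) + c) :
    a * ∑ i ∈ s, μ.real (A i) ≤ b * ∑ j ∈ t, μ.real (B j) + c := by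
  obtain ⟨i1, e1⟩ := count_int μ s A hA
  obtain ⟨i2, e2⟩ := count_int μ t (fun j => toMeasurable μ (B j))
    fun j _ => (measurableSet_toMeasurable μ (B j)).nullMeasurableSet
  have e3 : ∑ j ∈ t, μ.real (toMeasurable μ (B j)) = ∑ j ∈ t, μ.real (B j) :=
    Finset.sum_congr rfl fun j _ => by simp only [Measure.real, measure_toMeasurable]
  have i3 : Integrable (fun ω => b * (cnt t (fun j => ω ∈ toMeasurable μ (B j)) : ℝ)) μ :=
    i2.const_mul b
  have k := integral_mono_ae (i1.const_mul a) (i3.add (integrable_const c)) (by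
    filter_upwards [h] with ω hω
    have h1 : (cnt t (fun j => ω ∈ B j) : ℝ) ≤ cnt t (fun j => ω ∈ toMeasurable μ (B j)) :=
      Nat.cast_le.2 (count_mono t fun j _ hj => subset_toMeasurable μ (B j) hj)
    have h2 := mul_le_mul_of_nonneg_left h1 hb
    simp only [Pi.add_apply]
    linarith)
  simp only [Pi.add_apply] at k
  rw [integral_add i3 (integrable_const c), integral_const_mul, integral_const_mul, e1, e2,
    e3] at k
  simpa using k

theorem count_off {ι : Type*} (s : Finset ι) (A : ι → Set Ω)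
    (hA : ∀ i ∈ s, NullMeasurableSet (A i) μ) (C : Set Ω) (m : ℝ) (hm : 0 ≤ m)
    (h : ∀ᵐ ω ∂μ, ω ∉ C → (cnt s (fun i => ω ∈ A i) : ℝ) ≤ m) :
    ∑ i ∈ s, μ.real (A i) ≤ m + s.card * μ.real C := by
  have k := count_master μ s (Finset.univ : Finset Unit) A (fun _ => C) hA 1 s.card m
    (Nat.cast_nonneg _) (by
      filter_upwards [h] with ω hω
      by_cases hc : ω ∈ C
      · have h1 : (cnt s (fun i => ω ∈ A i) : ℝ) ≤ s.card := Nat.cast_le.2 (count_le_card _ _)
        rw [count_unit_pos hc]
        push_cast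
        linarith
      · rw [count_unit_neg hc]
        simpa using hω hc)
  simp only [one_mul, Finset.univ_unique, Finset.sum_singleton] at k
  linarith

theorem count_in {ι : Type*} (s : Finset ι) (A : ι → Set Ω)
    (hA : ∀ i ∈ s, NullMeasurableSet (A i) μ) (C : Set Ω) (m : ℝ) (hm : 0 ≤ m)
    (hC : ∀ i ∈ s, A i ⊆ C) (h : ∀ᵐ ω ∂μ, (cnt s (fun i => ω ∈ A i) : ℝ) ≤ m) :
    ∑ i ∈ s, μ.real (A i) ≤ m * μ.real C := by
  have k := count_master μ s (Finset.univ : Finset Unit) A (fun _ => C) hA 1 m 0 hm (by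
    filter_upwards [h] with ω hω
    by_cases hc : ω ∈ C
    · rw [count_unit_pos hc]
      simpa using hω
    · rw [count_unit_neg hc, count_ind, Finset.sum_eq_zero fun i hi =>
        Set.indicator_of_notMem (fun h' => hc (hC i hi h')) _]
      simp)
  simpa using k

theorem count_lower {κ : Type*} (t : Finset κ) (B : κ → Set Ω) (A : Set Ω) (m : ℝ)
    (h : ∀ᵐ ω ∂μ, ω ∈ A → m ≤ cnt t (fun j => ω ∈ B j)) :
    m * μ.real A ≤ ∑ j ∈ t, μ.real (B j) := by
  rcases le_total m 0 with hm | hm
  · exact (mul_nonpos_of_nonpos_of_nonneg hm measureReal_nonneg).trans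
      (Finset.sum_nonneg fun _ _ => measureReal_nonneg)
  let S : Set Ω := {ω | m ≤ (cnt t (fun j => ω ∈ toMeasurable μ (B j)) : ℝ)}
  have hS : MeasurableSet S := by
    refine measurableSet_le measurable_const ?_
    simp only [count_ind]
    exact Finset.measurable_sum t fun j _ =>
      measurable_const.indicator (measurableSet_toMeasurable μ (B j))
  have h1 : μ A ≤ μ S := measure_mono_ae (by
    filter_upwards [h] with ω hω hA
    exact (hω hA).trans (Nat.cast_le.2
      (count_mono t fun j _ hj => subset_toMeasurable μ (B j) hj)))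
  have h2 : μ.real A ≤ μ.real S := ENNReal.toReal_mono (measure_ne_top _ _) h1
  have k := count_master μ (Finset.univ : Finset Unit) t (fun _ => S)
    (fun j => toMeasurable μ (B j)) (fun _ _ => hS.nullMeasurableSet) m 1 0 zero_le_one
    (ae_of_all _ fun ω => by
      by_cases hc : ω ∈ S
      · rw [count_unit_pos hc]
        simpa [S] using hc
      · rw [count_unit_neg hc]
        simp)
  have e3 : ∑ j ∈ t, μ.real (toMeasurable μ (B j)) = ∑ j ∈ t, μ.real (B j) :=
    Finset.sum_congr rfl fun j _ => by simp only [Measure.real, measure_toMeasurable]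
  simp only [one_mul, Finset.univ_unique, Finset.sum_singleton, add_zero, e3] at k
  exact (mul_le_mul_of_nonneg_left h2 hm).trans k

theorem ind_set {α : Type*} (X : Finset α) (R : α → α → Prop) (hrefl : ∀ x, R x x)
    (hsymm : ∀ x y, R x y → R y x) (Δ : ℕ) (hΔ : ∀ x ∈ X, cnt X (R x) ≤ Δ) :
    ∃ I ⊆ X, (∀ x ∈ I, ∀ y ∈ I, x ≠ y → ¬ R x y) ∧ X.card ≤ Δ * I.card := by
  classical
  obtain ⟨I, hI, hmax⟩ := Finset.exists_max_image
    (X.powerset.filter fun I => ∀ x ∈ I, ∀ y ∈ I, x ≠ y → ¬ R x y) Finset.card ⟨∅, by simp⟩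
  simp only [Finset.mem_filter, Finset.mem_powerset] at hI hmax
  refine ⟨I, hI.1, hI.2, ?_⟩
  have hc : X ⊆ I.biUnion fun y => X.filter (R y) := by
    intro x hx
    by_contra hn
    simp only [Finset.mem_biUnion, Finset.mem_filter, not_exists, not_and] at hn
    have hx' : x ∉ I := fun h => hn x h hx (hrefl x)
    have h1 := hmax (insert x I) (by
      refine ⟨Finset.insert_subset hx hI.1, fun y hy z hz hyz => ?_⟩
      rcases Finset.mem_insert.1 hy with rfl | hy' <;> rcases Finset.mem_insert.1 hz with rfl | hz'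
      · exact absurd rfl hyz
      · exact fun h => hn z hz' hx (hsymm _ _ h)
      · exact hn y hy' hx
      · exact hI.2 y hy' z hz' hyz)
    rw [Finset.card_insert_of_notMem hx'] at h1
    omega
  refine (Finset.card_le_card hc).trans (Finset.card_biUnion_le.trans ?_)
  rw [mul_comm, ← smul_eq_mul]
  refine Finset.sum_le_card_nsmul _ _ _ fun y hy => ?_
  rw [← cnt_eq]
  exact hΔ y (hI.1 hy)

end Vale.Agent.P158
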