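import Vale.Agent.P158.BV

/-!
TASK Sort: pairwise interlaced lines with oscillation w are few.
Plan: cases card I ≤ 1 trivial (cost ≥ 0). Otherwise orient: δ i = γ i if key (past (γ i)) < key (past (rev (γ i)))
else rev (γ i); then key (past δ i) < key (past (rev δ i)) (AltK.ne13 from Cross with another index), δ i are lines,
pairwise Cross (Cross.rev_left, rev_right) and for i ≠ j: Osc δ i δ j or Osc (rev δ i) (rev δ j) (four cases of
PairOK, rev_rev). The map i to key (past δ i) is injective on I (AltK.ne12); enumerate I increasingly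
(Finset.orderEmbOfFin on the image, or Tuple.sort, or induction on the max element) as σ 0..n, n+1 = card I.
AltK.lt_of_lt makes the keys of rev δ increasing as well. For each i < n pick the points from Osc
(in the other sequence take any point, e.g. a); bv twice gives n * w ≤ 8 cost W.
-/

namespace Vale.Agent.P158

theorem Osc.symm {ω : Om} {a b : V} {W : grid.Walk a b} {γ γ' : ℤ → V} {w : ℝ}
    (h : Osc ω W γ γ' w) : Osc ω W γ' γ w := by
  obtain ⟨u, hu, u', hu', h⟩ := h
  exact ⟨u', hu', u, hu, by linarith⟩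

theorem PairOK.symm {ω : Om} {a b : V} {W : grid.Walk a b} {γ γ' : ℤ → V} {w : ℝ}
    (h : PairOK ω W γ γ' w) : PairOK ω W γ' γ w :=
  ⟨h.1.imp Osc.symm Osc.symm, (h.2.imp Osc.symm Osc.symm).symm⟩

theorem sort_enum {ι α : Type*} [LinearOrder α] (I : Finset ι) (K : ι → α)
    (hK : ∀ i ∈ I, ∀ j ∈ I, i ≠ j → K i ≠ K j) (n : ℕ) (hn : I.card = n + 1) :
    ∃ σ : ℕ → ι, (∀ k, σ k ∈ I) ∧ ∀ k l, k < l → l ≤ n → K (σ k) < K (σ l) := by
  classical
  have hc : (I.image K).card = n + 1 := by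
    rw [Finset.card_image_of_injOn, hn]
    intro i hi j hj hij
    by_contra hne
    exact hK i hi j hj hne hij
  have hex : ∀ k : Fin (n + 1), ∃ i ∈ I, K i = (I.image K).orderEmbOfFin hc k := fun k =>
    Finset.mem_image.mp (Finset.orderEmbOfFin_mem _ hc k)
  choose τ hτ hτ' using hex
  refine ⟨fun k => τ ⟨min k n, by omega⟩, fun k => hτ _, fun k l hkl hl => ?_⟩
  rw [hτ', hτ']
  refine ((I.image K).orderEmbOfFin hc).strictMono ?_
  rw [Fin.mk_lt_mk]
  omega

theorem sort_main {h : ℝ} {ω : Om} (hR : Reg h ω) (n : ℕ) (δ : ℕ → ℤ → V)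
    (hδ : ∀ i, IsLine ω (δ i))
    (h1 : ∀ i j, i < j → j ≤ n → key (past (δ i)) < key (past (δ j)))
    (h2 : ∀ i j, i < j → j ≤ n → key (past (rev (δ i))) < key (past (rev (δ j))))
    {a b : V} (W : grid.Walk a b) {w : ℝ}
    (hO : ∀ i < n, Osc ω W (δ i) (δ (i + 1)) w ∨ Osc ω W (rev (δ i)) (rev (δ (i + 1))) w) :
    (n : ℝ) * w ≤ 8 * cost ω W := by
  have hex : ∀ i, ∃ u ∈ W.support, ∃ u' ∈ W.support, ∃ v ∈ W.support, ∃ v' ∈ W.support,
      i < n → w ≤ |(bus ω (δ i) u - bus ω (δ (i + 1)) u) -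
        (bus ω (δ i) u' - bus ω (δ (i + 1)) u')| +
        |(bus ω (rev (δ i)) v - bus ω (rev (δ (i + 1))) v) -
        (bus ω (rev (δ i)) v' - bus ω (rev (δ (i + 1))) v')| := by
    intro i
    by_cases hi : i < n
    · rcases hO i hi with ⟨u, hu, u', hu', hw⟩ | ⟨u, hu, u', hu', hw⟩
      · exact ⟨u, hu, u', hu', a, W.start_mem_support, a, W.start_mem_support, fun _ =>
          (hw.trans (le_abs_self _)).trans (le_add_of_nonneg_right (abs_nonneg _))⟩
      · exact ⟨a, W.start_mem_support, a, W.start_mem_support, u, hu, u', hu', fun _ =>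
          (hw.trans (le_abs_self _)).trans (le_add_of_nonneg_left (abs_nonneg _))⟩
    · exact ⟨a, W.start_mem_support, a, W.start_mem_support, a, W.start_mem_support, a,
        W.start_mem_support, fun h' => absurd h' hi⟩
  choose u hu u' hu' v hv v' hv' hw using hex
  have b1 := bv hR n δ (fun i _ => hδ i) h1 W u u' hu hu'
  have b2 := bv hR n (fun i => rev (δ i)) (fun i _ => (hδ i).rev hR.nn) h2 W v v' hv hv'
  have b3 := Finset.sum_le_sum (s := Finset.range n) fun i hi => hw i (Finset.mem_range.mp hi)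
  rw [Finset.sum_add_distrib, Finset.sum_const, Finset.card_range, nsmul_eq_mul] at b3
  linarith

theorem sort_bound {h : ℝ} {ω : Om} (hR : Reg h ω) {ι : Type*} (I : Finset ι) (γ : ι → ℤ → V)
    (hγ : ∀ i ∈ I, IsLine ω (γ i)) (hC : ∀ i ∈ I, ∀ j ∈ I, i ≠ j → Cross (γ i) (γ j))
    {a b : V} (W : grid.Walk a b) {w : ℝ} (hw : 0 ≤ w)
    (hP : ∀ i ∈ I, ∀ j ∈ I, i ≠ j → PairOK ω W (γ i) (γ j) w) :
    (I.card : ℝ) * w ≤ w + 8 * cost ω W := by
  classical
  have hc0 := cost_nonneg hR.nn W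
  by_cases hI : I.card ≤ 1
  · have : (I.card : ℝ) ≤ 1 := by exact_mod_cast hI
    nlinarith
  have hI2 : 1 < I.card := by omega
  obtain ⟨δ, hδ⟩ : ∃ δ : ι → ℤ → V, ∀ i ∈ I, (δ i = γ i ∨ δ i = rev (γ i)) ∧
      key (past (δ i)) < key (past (rev (δ i))) := by
    refine ⟨fun i => if key (past (γ i)) < key (past (rev (γ i))) then γ i else rev (γ i),
      fun i hi => ?_⟩
    obtain ⟨j, hj, hji⟩ := Finset.exists_mem_ne hI2 i
    have hne : key (past (γ i)) ≠ key (past (rev (γ i))) := AltK.ne13 (hC i hi j hj hji.symm)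
    by_cases hlt : key (past (γ i)) < key (past (rev (γ i)))
    · simp only [if_pos hlt]
      exact ⟨Or.inl trivial, hlt⟩
    · simp only [if_neg hlt, rev_rev]
      exact ⟨Or.inr trivial, lt_of_le_of_ne (not_lt.mp hlt) hne.symm⟩
  have hL : ∀ i ∈ I, IsLine ω (δ i) := by
    intro i hi
    rcases (hδ i hi).1 with e | e <;> rw [e]
    · exact hγ i hi
    · exact (hγ i hi).rev hR.nn
  have hX : ∀ i ∈ I, ∀ j ∈ I, i ≠ j → Cross (δ i) (δ j) := by
    intro i hi j hj hij
    have := hC i hi j hj hij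
    rcases (hδ i hi).1 with e | e <;> rcases (hδ j hj).1 with e' | e' <;> rw [e, e']
    · exact this
    · exact this.rev_right
    · exact this.rev_left
    · exact this.rev_left.rev_right
  have hO : ∀ i ∈ I, ∀ j ∈ I, i ≠ j →
      Osc ω W (δ i) (δ j) w ∨ Osc ω W (rev (δ i)) (rev (δ j)) w := by
    intro i hi j hj hij
    have := hP i hi j hj hij
    rcases (hδ i hi).1 with e | e <;> rcases (hδ j hj).1 with e' | e' <;> rw [e, e'] <;>
      try simp only [rev_rev]
    · exact this.1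
    · exact this.2
    · exact this.2.symm
    · exact this.1.symm
  obtain ⟨n, hn⟩ : ∃ n, I.card = n + 1 := ⟨I.card - 1, by omega⟩
  obtain ⟨σ, hσ, hσ'⟩ := sort_enum I (fun i => key (past (δ i)))
    (fun i hi j hj hij => AltK.ne12 (hX i hi j hj hij)) n hn
  have hne : ∀ k l, k < l → l ≤ n → σ k ≠ σ l := by
    intro k l hkl hl e
    have := hσ' k l hkl hl
    rw [e] at this
    exact lt_irrefl _ this
  have := sort_main hR n (fun k => δ (σ k)) (fun k => hL _ (hσ k)) hσ'
    (fun k l hkl hl => AltK.lt_of_lt (hX _ (hσ k) _ (hσ l) (hne k l hkl hl)) (hδ _ (hσ k)).2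
      (hδ _ (hσ l)).2 (hσ' k l hkl hl)) W
    (fun k hk => hO _ (hσ k) _ (hσ (k + 1)) (hne k (k + 1) (by omega) (by omega)))
  rw [hn]
  push_cast
  linarith

end Vale.Agent.P158
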