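import Vale.Agent.P158.PairOK
import Vale.Agent.P158.Sort
import Vale.Agent.P158.Count

/-!
TASK BudDet: deterministic budget bound.
Plan: let Z be the set of good v in box 0 H, choose F v : Fin k → ℤ → V from Fam, X = Z ×ˢ univ. If X is empty the left side is 0.
Otherwise a line through some v0 in Z gives o0 on W1 and y0 on W2 with T o0 y0 ≤ M + M2 (frame_T twice); join with a geodesic gives W with
cost ≤ 3 (M + M2) containing both supports. Relation R (v,i) (v',i') : v in range (F v' i') and v' in range (F v i)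
(reflexive as F v i 0 = v, symmetric). Degree ≤ L + k (2t+1)^2: pairs with v' in box v t are at most k (2t+1)^2; for the others
i' is determined by v' (two lines of F v' both containing v would put v in box v' t), and v' ranges over the at most L points of
the line F v i in the box (IsLine.cnt_le). ind_set gives I; for x ≠ y in I one of the two base points is off the other line,
so the ranges differ, PB gives Cross (Cross.symm), pairOK_of gives PairOK (PairOK.symm), with Loc.T_le for hM. sort_bound.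
-/

namespace Vale.Agent.P158

theorem bud_det {h : ℝ} {ω : Om} (hG : Good h ω) {H ρ2 k r t L : ℕ} {η w M M2 M0 : ℝ}
    (hη : 0 < η) (hw : 0 < w) (hwM : w ≤ M) (hM0 : 4 * r * M0 ≤ M) (hM2 : 0 ≤ M2)
    (hF1 : Fr ω 0 H M) (hF2 : Fr ω 0 ρ2 M2) (hL : Len ω 0 H L)
    (hfar : ∀ v ∈ box 0 H, ∀ y, y ∉ box 0 (ρ2 - 1) → 10 * M ≤ T ω v y) (hρ : H + r + t ≤ ρ2) :
    (k : ℝ) * w * cnt (box 0 H) (fun v => GoodAt ω v k η r w t M0) ≤
      (L + k * (2 * t + 1) ^ 2) * (w + 24 * (M + M2)) := by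
  classical
  have hR := hG.reg
  have h0 := hR.nn
  rw [cnt_eq]
  set Z := (box 0 H).filter fun v => GoodAt ω v k η r w t M0 with hZ
  have hZ1 : ∀ v ∈ Z, v ∈ box 0 H := fun v hv => (Finset.mem_filter.1 hv).1
  have hZ2 : ∀ v ∈ Z, GoodAt ω v k η r w t M0 := fun v hv => (Finset.mem_filter.1 hv).2
  choose! F hF hF' using fun v (hv : v ∈ Z) => (hZ2 v hv).1
  set X : Finset (V × Fin k) := Z ×ˢ Finset.univ with hX
  have hXZ : ∀ x ∈ X, x.1 ∈ Z := fun x hx => (Finset.mem_product.1 hx).1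
  have hcard : (X.card : ℝ) = k * Z.card := by
    rw [hX, Finset.card_product, Finset.card_univ, Fintype.card_fin, Nat.cast_mul, mul_comm]
  have hpos : 0 ≤ w + 24 * (M + M2) := by linarith
  have e0 : (k : ℝ) * w * Z.card = X.card * w := by rw [hcard]; ring
  rw [e0]
  rcases X.eq_empty_or_nonempty with hX0 | ⟨x0, hx0⟩
  · rw [hX0, Finset.card_empty, Nat.cast_zero, zero_mul]
    positivity
  obtain ⟨a1, b1, W1, hW1, hc1⟩ := hF1
  obtain ⟨a2, b2, W2, hW2, hc2⟩ := hF2
  have hm := fun x (hx : x ∈ X) => hF x.1 (hXZ x hx) x.2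
  have hb : ∀ x ∈ X, F x.1 x.2 0 ∈ box 0 H := fun x hx => by
    rw [(hm x hx).2.1]
    exact hZ1 _ (hXZ x hx)
  obtain ⟨⟨j1, -, s1, t1⟩, -⟩ := (hm x0 hx0).1.frame_T hR.pos hW1 (hb x0 hx0)
  obtain ⟨⟨j2, -, s2, t2⟩, -⟩ := (hm x0 hx0).1.frame_T hR.pos hW2
    (box_mono (hb x0 hx0) (by omega))
  obtain ⟨p, -, hp⟩ := hR.geo (F x0.1 x0.2 j1) (F x0.1 x0.2 j2)
  obtain ⟨W, hcW, hsW⟩ := join h0 W1 W2 s1 s2 p
  have hcW' : cost ω W ≤ 3 * (M + M2) := by
    have e1 := T_triangle h0 (F x0.1 x0.2 j1) (F x0.1 x0.2 0) (F x0.1 x0.2 j2)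
    have e2 := T_comm ω (F x0.1 x0.2 j1) (F x0.1 x0.2 0)
    linarith
  obtain ⟨I, hI, hI1, hI2⟩ := ind_set X
    (fun x y => x = y ∨ (x.1 ∈ Set.range (F y.1 y.2) ∧ y.1 ∈ Set.range (F x.1 x.2)))
    (fun x => Or.inl rfl) (fun x y hxy => hxy.imp Eq.symm And.symm)
    (L + k * (2 * t + 1) ^ 2) (fun x hx => by
      rw [cnt_eq]
      set B := X.filter fun y => (x.1 ∈ Set.range (F y.1 y.2) ∧ y.1 ∈ Set.range (F x.1 x.2)) ∧
        y.1 ∉ box x.1 t with hB
      have hBL : B.card ≤ L := by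
        refine le_trans ?_ ((hm x hx).1.cnt_le hR.pos hL)
        rw [cnt_eq]
        refine Finset.card_le_card_of_injOn Prod.fst (fun y hy => ?_) fun y hy y' hy' e => ?_
        · have hy := Finset.mem_filter.1 (Finset.mem_coe.1 hy)
          exact Finset.mem_coe.2 (Finset.mem_filter.2 ⟨hZ1 _ (hXZ y hy.1), hy.2.1.2⟩)
        · have hy := Finset.mem_filter.1 (Finset.mem_coe.1 hy)
          have hy' := Finset.mem_filter.1 (Finset.mem_coe.1 hy')
          refine Prod.ext e ?_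
          by_contra hne
          obtain ⟨a, ha⟩ := hy.2.1.1
          obtain ⟨b, hb⟩ := hy'.2.1.1
          rw [← e] at hb
          have := hF' y.1 (hXZ y hy.1) y.2 y'.2 hne a b (ha.trans hb.symm)
          rw [ha] at this
          exact hy.2.2 (box_symm this)
      calc _ ≤ (B ∪ box x.1 t ×ˢ (Finset.univ : Finset (Fin k))).card := by
            refine Finset.card_le_card fun y hy => ?_
            have hy := Finset.mem_filter.1 hy
            rw [Finset.mem_union]
            by_cases hyb : y.1 ∈ box x.1 t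
            · exact Or.inr (Finset.mem_product.2 ⟨hyb, Finset.mem_univ _⟩)
            · rcases hy.2 with e | e
              · exact absurd (e ▸ self_mem_box x.1 t) hyb
              · exact Or.inl (Finset.mem_filter.2 ⟨hy.1, e, hyb⟩)
        _ ≤ _ := by
            refine (Finset.card_union_le _ _).trans (Nat.add_le_add hBL ?_)
            rw [Finset.card_product, card_box, Finset.card_univ, Fintype.card_fin, mul_comm])
  have key : ∀ x ∈ X, ∀ y ∈ X, x.1 ∉ Set.range (F y.1 y.2) →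
      Cross (F x.1 x.2) (F y.1 y.2) ∧ PairOK ω W (F x.1 x.2) (F y.1 y.2) w := by
    intro x hx y hy hn
    have gx := hZ2 _ (hXZ x hx)
    refine ⟨hG.pb η _ _ hη (hm x hx).1 (hm y hy).1 (hm x hx).2.2.1 fun e => hn ?_,
      pairOK_of hG hη hwM hW1 hc1 hW2 (fun z hz => (hsW z).2 (Or.inl hz))
        (fun z hz => (hsW z).2 (Or.inr (Or.inl hz))) hfar hρ (hZ1 _ (hXZ x hx)) (hm x hx)
        (hm y hy).1 (hb y hy) (fun j e => hn ⟨j, e⟩) gx.2.1
        fun z hz => (gx.2.2.T_le h0 (self_mem_box _ _) hz).trans hM0⟩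
    rw [← e]
    exact ⟨0, (hm x hx).2.1⟩
  have key2 : ∀ x ∈ I, ∀ y ∈ I, x ≠ y →
      Cross (F x.1 x.2) (F y.1 y.2) ∧ PairOK ω W (F x.1 x.2) (F y.1 y.2) w := by
    intro x hx y hy hxy
    by_cases hn : x.1 ∈ Set.range (F y.1 y.2)
    · have := key y (hI hy) x (hI hx) fun e => hI1 x hx y hy hxy (Or.inr ⟨hn, e⟩)
      exact ⟨this.1.symm, this.2.symm⟩
    · exact key x (hI hx) y (hI hy) hn
  have hs := sort_bound hR I (fun x => F x.1 x.2) (fun x hx => (hm x (hI hx)).1)
    (fun x hx y hy hxy => (key2 x hx y hy hxy).1) W hw.le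
    fun x hx y hy hxy => (key2 x hx y hy hxy).2
  have hI3 : (X.card : ℝ) ≤ (L + k * (2 * t + 1) ^ 2) * I.card := by exact_mod_cast hI2
  calc (X.card : ℝ) * w ≤ (L + k * (2 * t + 1) ^ 2) * I.card * w :=
        mul_le_mul_of_nonneg_right hI3 hw.le
    _ = (L + k * (2 * t + 1) ^ 2) * (I.card * w) := by ring
    _ ≤ _ := mul_le_mul_of_nonneg_left (by linarith) (by positivity)

end Vale.Agent.P158
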