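import Vale.Agent.P158.BudDet
import Vale.Agent.P158.BadN

/-!
TASK BudProb: the budget theorem.
goodAt_prob: p = μ (Ev). Fam t is monotone in t and its union contains Ev a.e. (ev_fam), continuity from below
(tendsto_measure_iUnion_atTop, no measurability) gives t with μ (Fam t) ≥ 3p/4; enlarge t for badNear_prob (ε = p/8), loc_prob (p/8).
glob_prob: C from fr_prob, a = h/2, K ≥ 2 with a (K-1) ≥ 10 C, CL > 3C/a + 1. Off an event of probability ≤ ε: both frames, Pei at all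
points of box 0 H with threshold H, Reg. Then len_of and Reg.le_T_of_peiT (y outside box 0 (KH - 1) is outside box v ((K-1)H - 1)).
budget: (2H+1)^2 p/2 ≤ sum over v of μ (GoodAt v) (goodAt_act, mu_act) ≤ m + (2H+1)^2 p/8 (count_off, null_goodAt, bud_det), where
k w m = (CL H + k (2t+1)^2)(w + 24 (C H + C K H)). For H large (H ≥ r + t, w ≤ C H, 4 r M0 ≤ C H, k (2t+1)^2 ≤ H):
k w p (3/8) 4 H^2 ≤ (CL + 1) H * 25 C (1 + K) H. No limit is needed. C' = (CL+1) 25 C (1+K).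
-/

namespace Vale.Agent.P158

open MeasureTheory

variable {G : Measure ℝ} [IsProbabilityMeasure G] {h g : ℝ}

theorem goodAt_prob (hp : Par G h g) (k : ℕ) {η : ℝ} (hη : 0 < η) (r : ℕ) (w : ℝ)
    (hpos : 0 < (mu G).real {ω | Ev ω 0 k η r w}) :
    ∃ (t : ℕ) (M0 : ℝ), (mu G).real {ω | Ev ω 0 k η r w} / 2 ≤
      (mu G).real {ω | GoodAt ω 0 k η r w t M0} := by
  set p := (mu G).real {ω | Ev ω 0 k η r w} with hpdef
  have hmono : Monotone fun t : ℕ => {ω | Fam ω 0 k η r w t} := by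
    intro t t' htt ω hω
    obtain ⟨f, h1, h2⟩ := hω
    exact ⟨f, h1, fun i j hij a b hab => box_mono (h2 i j hij a b hab) htt⟩
  have hlim := tendsto_measure_iUnion_atTop (μ := mu G) hmono
  have hlim' := (ENNReal.tendsto_toReal (measure_ne_top _ _)).comp hlim
  have hle : p ≤ (mu G).real (⋃ t : ℕ, {ω | Fam ω 0 k η r w t}) := by
    refine ENNReal.toReal_mono (measure_ne_top _ _) (measure_mono_ae ?_)
    filter_upwards [good_ae hp] with ω hω hE
    obtain ⟨t0, ht0⟩ := ev_fam hω hE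
    exact Set.mem_iUnion.2 ⟨t0, ht0 t0 le_rfl⟩
  have hlt : 3 * p / 4 < (mu G (⋃ t : ℕ, {ω | Fam ω 0 k η r w t})).toReal := by
    have : (mu G).real (⋃ t : ℕ, {ω | Fam ω 0 k η r w t}) =
      (mu G (⋃ t : ℕ, {ω | Fam ω 0 k η r w t})).toReal := rfl
    linarith
  obtain ⟨t1, ht1⟩ := Filter.eventually_atTop.1 (hlim'.eventually (lt_mem_nhds hlt))
  obtain ⟨t0, ht0⟩ := badNear_prob hp hη r w (ε := p / 8) (by positivity)
  obtain ⟨M0, _, hM0⟩ := loc_prob G r (ε := p / 8) (by positivity)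
  refine ⟨max t0 t1, M0, ?_⟩
  have h1 : 3 * p / 4 < (mu G).real {ω | Fam ω 0 k η r w (max t0 t1)} := ht1 _ (le_max_right _ _)
  have h2 := ht0 _ (le_max_left t0 t1)
  have h3 := hM0 0
  have hsub : {ω | Fam ω 0 k η r w (max t0 t1)} ⊆ ({ω | GoodAt ω 0 k η r w (max t0 t1) M0} ∪
      {ω | BadNear ω 0 η r w (max t0 t1)}) ∪ {ω | ¬ Loc ω 0 r M0} := by
    intro ω hω
    by_cases hb : BadNear ω 0 η r w (max t0 t1)
    · exact Or.inl (Or.inr hb)
    · by_cases hl : Loc ω 0 r M0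
      · exact Or.inl (Or.inl ⟨hω, hb, hl⟩)
      · exact Or.inr hl
  have h4 := measureReal_mono (μ := mu G) hsub (measure_ne_top _ _)
  have h5 := measureReal_union_le (μ := mu G) ({ω | GoodAt ω 0 k η r w (max t0 t1) M0} ∪
      {ω | BadNear ω 0 η r w (max t0 t1)}) {ω | ¬ Loc ω 0 r M0}
  have h6 := measureReal_union_le (μ := mu G) {ω | GoodAt ω 0 k η r w (max t0 t1) M0}
      {ω | BadNear ω 0 η r w (max t0 t1)}
  linarith

theorem glob_prob (hp : Par G h g) : ∃ (C : ℝ) (K CL : ℕ), 0 < C ∧ 2 ≤ K ∧ ∀ ε : ℝ, 0 < ε →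
    ∀ H0 : ℕ, ∃ H : ℕ, H0 ≤ H ∧ (mu G).real {ω | ¬ (Fr ω 0 H (C * H) ∧
      Fr ω 0 (K * H) (C * (K * H)) ∧ Len ω 0 H (CL * H) ∧
      ∀ v ∈ box 0 H, ∀ y, y ∉ box 0 (K * H - 1) → 10 * (C * H) ≤ T ω v y)} ≤ ε := by
  obtain ⟨C, hC, hfr⟩ := fr_prob hp
  have ha : 0 < h / 2 := by have := hp.h_pos; positivity
  obtain ⟨K1, hK1⟩ := exists_nat_ge (10 * C / (h / 2))
  obtain ⟨C1, hC1⟩ := exists_nat_gt (3 * C / (h / 2))
  rw [div_le_iff₀ ha] at hK1
  rw [div_lt_iff₀ ha] at hC1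
  refine ⟨C, K1 + 2, C1 + 1, hC, by omega, fun ε hε H0 => ?_⟩
  obtain ⟨ρ0, hρ0⟩ := pei_box hp (ε := ε / 3) (by positivity)
  obtain ⟨H, hH, hH2⟩ := hfr (K1 + 2) (by omega) (ε / 3) (by positivity) (H0 + ρ0 + 1)
  refine ⟨H, by omega, ?_⟩
  obtain ⟨f1, f2⟩ := hH2 0
  have f3 := hρ0 H (by omega) 0
  have hHpos : (0 : ℝ) < H := by exact_mod_cast (by omega : 0 < H)
  have hsub : {ω | ¬ (Fr ω 0 H (C * H) ∧
      Fr ω 0 ((K1 + 2) * H) (C * (((K1 + 2 : ℕ) : ℝ) * H)) ∧ Len ω 0 H ((C1 + 1) * H) ∧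
      ∀ v ∈ box 0 H, ∀ y, y ∉ box 0 ((K1 + 2) * H - 1) → 10 * (C * H) ≤ T ω v y)} ≤ᵐ[mu G]
      (({ω | ¬ Fr ω 0 H (C * H)} ∪
        {ω | ¬ Fr ω 0 ((K1 + 2) * H) (C * (((K1 + 2 : ℕ) : ℝ) * H))}) ∪
        {ω | ∃ z ∈ box 0 H, ¬ Pei ω h z H} : Set Om) := by
    filter_upwards [reg_ae hp] with ω hR hω
    by_contra hc
    apply hω
    have c1 : Fr ω 0 H (C * H) := by
      by_contra h1
      exact hc (Or.inl (Or.inl h1))
    have c2 : Fr ω 0 ((K1 + 2) * H) (C * (((K1 + 2 : ℕ) : ℝ) * H)) := by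
      by_contra h1
      exact hc (Or.inl (Or.inr h1))
    have c3 : ∀ z ∈ box 0 H, PeiT ω (h / 2) z H := by
      intro z hz
      refine Pei.peiT hR.nn hR.h_pos.le ?_
      by_contra h1
      exact hc (Or.inr ⟨z, hz, h1⟩)
    refine ⟨c1, c2, len_of hR c1 ha c3 (by nlinarith) ?_, ?_⟩
    · push_cast
      nlinarith
    · intro v hv y hy
      have hm : (K1 + 1) * H - 1 + 1 = (K1 + 1) * H := by
        have : 0 < (K1 + 1) * H := Nat.mul_pos (by omega) (by omega)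
        omega
      have hy' : y ∉ box v ((K1 + 1) * H - 1) := by
        intro hc2
        apply hy
        refine box_mono (box_trans hv hc2) ?_
        have : (K1 + 2) * H = (K1 + 1) * H + H := by ring
        omega
      have h1 := hR.le_T_of_peiT ha.le (c3 v hv) hy' (by rw [hm]; nlinarith)
      have h2 : ((((K1 + 1) * H - 1 : ℕ) : ℝ) + 1) = (K1 + 1) * H := by
        exact_mod_cast hm
      rw [h2] at h1
      nlinarith
  have h4 := ENNReal.toReal_mono (measure_ne_top _ _) (measure_mono_ae hsub)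
  have h5 := measureReal_union_le (μ := mu G) ({ω | ¬ Fr ω 0 H (C * H)} ∪
        {ω | ¬ Fr ω 0 ((K1 + 2) * H) (C * (((K1 + 2 : ℕ) : ℝ) * H))})
        {ω | ∃ z ∈ box 0 H, ¬ Pei ω h z H}
  have h6 := measureReal_union_le (μ := mu G) {ω | ¬ Fr ω 0 H (C * H)}
        {ω | ¬ Fr ω 0 ((K1 + 2) * H) (C * (((K1 + 2 : ℕ) : ℝ) * H))}
  refine h4.trans ?_
  change (mu G).real _ ≤ ε
  linarith

theorem budprob_arith {C w p N m H K CL k D : ℝ} (hC : 0 < C) (hw : 0 < w) (hp : 0 < p)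
    (hk : 0 < k) (hH : 0 < H) (hK : 0 ≤ K) (hCL : 0 ≤ CL) (hw1 : w ≤ C * H) (hD : D ≤ H)
    (hN : 4 * H ^ 2 ≤ N) (h1 : N * (p / 2) ≤ m + N * (p / 8))
    (hm : m = (CL * H + D) * (w + 24 * (C * H + C * (K * H))) / (k * w)) :
    k * w * p ≤ (CL + 1) * (25 * C * (1 + K)) := by
  have hkw : 0 < k * w := by positivity
  have h2 : H ^ 2 * p ≤ m := by nlinarith [mul_pos (pow_pos hH 2) hp]
  rw [hm, le_div_iff₀ hkw] at h2
  have a1 : CL * H + D ≤ (CL + 1) * H := by linarith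
  have a0 : 0 ≤ C * (K * H) := by positivity
  have a2 : w + 24 * (C * H + C * (K * H)) ≤ 25 * C * (1 + K) * H := by nlinarith
  have h3 : (CL * H + D) * (w + 24 * (C * H + C * (K * H))) ≤
      ((CL + 1) * H) * (25 * C * (1 + K) * H) :=
    mul_le_mul a1 a2 (by positivity) (by positivity)
  have h4 : k * w * p * H ^ 2 ≤ (CL + 1) * (25 * C * (1 + K)) * H ^ 2 := by
    calc k * w * p * H ^ 2 = H ^ 2 * p * (k * w) := by ring
      _ ≤ _ := h2.trans h3
      _ = _ := by ring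
  exact le_of_mul_le_mul_right h4 (by positivity)

theorem budget (hp : Par G h g) : ∃ C' : ℝ, ∀ (k : ℕ) (η : ℝ) (r : ℕ) (w : ℝ), 0 < η → 0 < w →
    k * w * (mu G).real {ω | Ev ω 0 k η r w} ≤ C' := by
  obtain ⟨C, K, CL, hC, hK, hglob⟩ := glob_prob hp
  refine ⟨(CL + 1) * (25 * C * (1 + K)), fun k η r w hη hw => ?_⟩
  have hC' : (0 : ℝ) ≤ (CL + 1) * (25 * C * (1 + K)) := by positivity
  rcases Nat.eq_zero_or_pos k with rfl | hk
  · simpa using hC'
  rcases (measureReal_nonneg (μ := mu G) (s := {ω | Ev ω 0 k η r w})).eq_or_lt with h0 | hpos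
  · rw [← h0]; simpa using hC'
  obtain ⟨t, M0, hgood⟩ := goodAt_prob hp k hη r w hpos
  set p := (mu G).real {ω | Ev ω 0 k η r w} with hpdef
  obtain ⟨n1, hn1⟩ := exists_nat_ge (w / C)
  obtain ⟨n2, hn2⟩ := exists_nat_ge (4 * r * M0 / C)
  rw [div_le_iff₀ hC] at hn1 hn2
  obtain ⟨H, hH, hbad⟩ := hglob (p / 8) (by positivity) (r + t + n1 + n2 + k * (2 * t + 1) ^ 2 + 1)
  have hHpos : (0 : ℝ) < H := by exact_mod_cast (by omega : 0 < H)
  have hkpos : (0 : ℝ) < k := by exact_mod_cast hk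
  have hw1 : w ≤ C * H := by
    have : (n1 : ℝ) ≤ H := by exact_mod_cast (by omega : n1 ≤ H)
    nlinarith
  have hw2 : 4 * r * M0 ≤ C * H := by
    have : (n2 : ℝ) ≤ H := by exact_mod_cast (by omega : n2 ≤ H)
    nlinarith
  have hw3 : (k : ℝ) * (2 * t + 1) ^ 2 ≤ H := by
    exact_mod_cast (by omega : k * (2 * t + 1) ^ 2 ≤ H)
  set Q : ℝ := (((CL * H : ℕ) : ℝ) + k * (2 * t + 1) ^ 2) * (w + 24 * (C * H + C * (K * H)))
    with hQ
  have hQ0 : 0 ≤ Q := by positivity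
  have hkw : 0 < (k : ℝ) * w := by positivity
  have hcount := count_off (mu G) (box 0 H) (fun v => {ω | GoodAt ω v k η r w t M0})
    (fun v _ => null_goodAt G v k η r w t M0) {ω | ¬ (Fr ω 0 H (C * H) ∧
      Fr ω 0 (K * H) (C * (K * H)) ∧ Len ω 0 H (CL * H) ∧
      ∀ v ∈ box 0 H, ∀ y, y ∉ box 0 (K * H - 1) → 10 * (C * H) ≤ T ω v y)} (Q / (k * w))
    (by positivity) (by
      filter_upwards [good_ae hp] with ω hG hω
      have hω' := not_not.1 hω
      obtain ⟨c1, c2, c3, c4⟩ := hω'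
      have := bud_det hG (k := k) (r := r) (t := t) (M0 := M0) hη hw hw1 hw2 (by positivity)
        c1 c2 c3 c4 (by nlinarith)
      rw [le_div_iff₀ hkw, mul_comm]
      exact this)
  have hlow : ∑ _v ∈ box (0 : V) H, p / 2 ≤
      ∑ v ∈ box 0 H, (mu G).real {ω | GoodAt ω v k η r w t M0} := by
    refine Finset.sum_le_sum fun v _ => hgood.trans ?_
    have h1 : (mu G).real {ω | GoodAt ω 0 k η r w t M0} =
        (mu G).real (act (tr v) ⁻¹' {ω | GoodAt ω 0 k η r w t M0}) := by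
      unfold Measure.real
      rw [mu_act]
    rw [h1]
    exact measureReal_mono (fun ω hω => goodAt_act hω) (measure_ne_top _ _)
  rw [Finset.sum_const, nsmul_eq_mul] at hlow
  rw [card_box] at hlow hcount
  set N : ℝ := (((2 * H + 1) ^ 2 : ℕ) : ℝ) with hN
  have hN1 : 4 * (H : ℝ) ^ 2 ≤ N := by
    rw [hN]; push_cast; nlinarith
  have hN0 : 0 ≤ N := by positivity
  have h1 : N * (p / 2) ≤ Q / (k * w) + N * (p / 8) :=
    hlow.trans (hcount.trans (add_le_add le_rfl (mul_le_mul_of_nonneg_left hbad hN0)))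
  refine budprob_arith hC hw hpos hkpos hHpos (Nat.cast_nonneg K) (Nat.cast_nonneg CL) hw1 hw3
    hN1 h1 ?_
  rw [hQ, Nat.cast_mul]

end Vale.Agent.P158
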