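import Vale.Agent.P158.Line

/-!
TASK Bus: Busemann functions of the past end of a line.
Plan: a n = T (γ (-n)) y - T (γ (-n)) (γ 0) is antitone (triangle inequality and T_add) and bounded below
by - T (γ 0) y; tendsto_atTop_ciInf. Everything else by le_of_tendsto / tendsto_nhds_unique, using that
on the line the sequence is eventually constant.
-/

namespace Vale.Agent.P158

open Filter Topology

variable {ω : Om} {γ l : ℤ → V}

theorem bus_anti (h0 : ∀ e, 0 ≤ ω e) (hγ : IsLine ω γ) (y : V) :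
    Antitone fun n : ℕ => T ω (γ (-(n : ℤ))) y - T ω (γ (-(n : ℤ))) (γ 0) := by
  intro n m hnm
  have h1 := hγ.T_add h0 (i := -(m : ℤ)) (j := -(n : ℤ)) (k := 0) (by omega) (by omega)
  have h2 := T_triangle h0 (γ (-(m : ℤ))) (γ (-(n : ℤ))) y
  simp only
  linarith

theorem bus_bdd (h0 : ∀ e, 0 ≤ ω e) (y : V) : BddBelow (Set.range
    fun n : ℕ => T ω (γ (-(n : ℤ))) y - T ω (γ (-(n : ℤ))) (γ 0)) := by
  refine ⟨-T ω y (γ 0), ?_⟩
  rintro _ ⟨n, rfl⟩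
  have h2 := T_triangle h0 (γ (-(n : ℤ))) y (γ 0)
  simp only
  linarith

theorem bus_tendsto (h0 : ∀ e, 0 ≤ ω e) (hγ : IsLine ω γ) (y : V) :
    Tendsto (fun n : ℕ => T ω (γ (-(n : ℤ))) y - T ω (γ (-(n : ℤ))) (γ 0)) atTop
      (𝓝 (bus ω γ y)) :=
  tendsto_atTop_ciInf (bus_anti h0 hγ y) (bus_bdd h0 y)

theorem bus_le (h0 : ∀ e, 0 ≤ ω e) (hγ : IsLine ω γ) (y : V) (n : ℕ) :
    bus ω γ y ≤ T ω (γ (-(n : ℤ))) y - T ω (γ (-(n : ℤ))) (γ 0) :=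
  (bus_anti h0 hγ y).le_of_tendsto (bus_tendsto h0 hγ y) n

theorem le_bus (h0 : ∀ e, 0 ≤ ω e) (hγ : IsLine ω γ) {y : V} {c : ℝ} (n0 : ℕ)
    (hc : ∀ n : ℕ, n0 ≤ n → c ≤ T ω (γ (-(n : ℤ))) y - T ω (γ (-(n : ℤ))) (γ 0)) :
    c ≤ bus ω γ y :=
  ge_of_tendsto (bus_tendsto h0 hγ y) (eventually_atTop.2 ⟨n0, hc⟩)

theorem exists_lt_bus_add (h0 : ∀ e, 0 ≤ ω e) (hγ : IsLine ω γ) (y : V) {θ : ℝ} (hθ : 0 < θ) :
    ∃ n0 : ℕ, ∀ n : ℕ, n0 ≤ n →
      T ω (γ (-(n : ℤ))) y - T ω (γ (-(n : ℤ))) (γ 0) < bus ω γ y + θ :=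
  eventually_atTop.1 ((bus_tendsto h0 hγ y).eventually (gt_mem_nhds (by linarith)))

theorem bus_diff_tendsto (h0 : ∀ e, 0 ≤ ω e) (hγ : IsLine ω γ) (u u' : V) :
    Tendsto (fun n : ℕ => T ω (γ (-(n : ℤ))) u - T ω (γ (-(n : ℤ))) u') atTop
      (𝓝 (bus ω γ u - bus ω γ u')) :=
  ((bus_tendsto h0 hγ u).sub (bus_tendsto h0 hγ u')).congr fun n => by ring

theorem bus_lip (h0 : ∀ e, 0 ≤ ω e) (hγ : IsLine ω γ) (y y' : V) :
    bus ω γ y - bus ω γ y' ≤ T ω y y' := by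
  refine le_of_tendsto' (bus_diff_tendsto h0 hγ y y') fun n => ?_
  have h1 := T_triangle h0 (γ (-(n : ℤ))) y' y
  rw [T_comm ω y' y] at h1
  linarith

theorem bus_zero (h0 : ∀ e, 0 ≤ ω e) (hγ : IsLine ω γ) : bus ω γ (γ 0) = 0 :=
  tendsto_nhds_unique (bus_tendsto h0 hγ _) (by simpa using tendsto_const_nhds)

theorem bus_line (h0 : ∀ e, 0 ≤ ω e) (hγ : IsLine ω γ) {i j : ℤ} (hij : i ≤ j) :
    bus ω γ (γ j) - bus ω γ (γ i) = T ω (γ i) (γ j) := by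
  refine tendsto_nhds_unique (bus_diff_tendsto h0 hγ _ _) (tendsto_const_nhds.congr' ?_)
  filter_upwards [eventually_ge_atTop i.natAbs] with n hn
  rw [hγ.T_add h0 (i := -(n : ℤ)) (j := i) (by omega) hij]
  ring

theorem bus_rev (h0 : ∀ e, 0 ≤ ω e) (hγ : IsLine ω γ) (k : ℤ) :
    bus ω (rev γ) (γ k) = - bus ω γ (γ k) := by
  have h1 := bus_zero h0 hγ
  have h2 : bus ω (rev γ) (γ 0) = 0 := bus_zero h0 (hγ.rev h0)
  rcases le_total 0 k with h | h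
  · have h3 := bus_line h0 hγ h
    have h4 := bus_line h0 (hγ.rev h0) (i := -k) (j := 0) (by omega)
    simp only [rev_apply, neg_neg, neg_zero] at h4
    rw [T_comm] at h4
    linarith
  · have h3 := bus_line h0 hγ h
    have h4 := bus_line h0 (hγ.rev h0) (i := 0) (j := -k) (by omega)
    simp only [rev_apply, neg_neg, neg_zero] at h4
    rw [T_comm] at h4
    linarith

/-- the function e of Lemma E is nonincreasing. -/
theorem e_anti (h0 : ∀ e, 0 ≤ ω e) (hγ : IsLine ω γ) (hl : IsLine ω l) {k k' : ℤ} (hk : k ≤ k') :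
    bus ω γ (l k') - bus ω l (l k') ≤ bus ω γ (l k) - bus ω l (l k) := by
  have h1 := bus_line h0 hl hk
  have h2 := bus_lip h0 hγ (l k') (l k)
  rw [T_comm] at h2
  linarith

end Vale.Agent.P158
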