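import Vale.Agent.P158.Defs

/-!
P158 internal definitions. See notes/P158.md for the proof. Do not edit without asking helper43.
-/

namespace Vale.Agent.P158

open MeasureTheory

abbrev V : Type := ℤ × ℤ
abbrev E : Type := Sym2 (ℤ × ℤ)
abbrev Om : Type := Sym2 (ℤ × ℤ) → ℝ

/-- iid weights on all unordered pairs (non-edges are never used). -/
noncomputable def mu (G : Measure ℝ) : Measure Om := Measure.infinitePi fun _ => G

instance muProb (G : Measure ℝ) [IsProbabilityMeasure G] : IsProbabilityMeasure (mu G) := by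
  unfold mu; infer_instance

/-- Standing data: atomless law on the half line, threshold h for high edges, gain g. -/
structure Par (G : Measure ℝ) (h g : ℝ) : Prop where
  atom : ∀ t, G {t} = 0
  neg : G (Set.Iio 0) = 0
  g_pos : 0 < g
  low : G (Set.Iic h) ≤ 1 / 256
  tgt : 0 < G (Set.Ioo 0 (h - g))

theorem Par.g_lt_h {G : Measure ℝ} {h g : ℝ} (hp : Par G h g) : g < h := by
  by_contra hc
  have : Set.Ioo (0 : ℝ) (h - g) = ∅ := Set.Ioo_eq_empty (by linarith)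
  have h2 := hp.tgt
  rw [this] at h2
  simp at h2

theorem Par.h_pos {G : Measure ℝ} {h g : ℝ} (hp : Par G h g) : 0 < h :=
  hp.g_pos.trans hp.g_lt_h

/-- number of elements of a finset with a property (classical decidability). -/
noncomputable def cnt {α : Type*} (s : Finset α) (P : α → Prop) : ℕ :=
  (@Finset.filter α P (Classical.decPred P) s).card

theorem cnt_eq {α : Type*} (s : Finset α) (P : α → Prop) [DecidablePred P] :
    cnt s P = (s.filter P).card := by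
  unfold cnt; congr

/-! ### lattice geometry -/

theorem adj_iff {x y : V} : grid.Adj x y ↔
    (y.1 = x.1 + 1 ∧ y.2 = x.2) ∨ (y.1 = x.1 - 1 ∧ y.2 = x.2) ∨
    (y.1 = x.1 ∧ y.2 = x.2 + 1) ∨ (y.1 = x.1 ∧ y.2 = x.2 - 1) := by
  show |x.1 - y.1| + |x.2 - y.2| = 1 ↔ _
  rcases abs_cases (x.1 - y.1) with h1 | h1 <;> rcases abs_cases (x.2 - y.2) with h2 | h2 <;>
    omega

/-- sup-norm ball. -/
noncomputable def box (v : V) (r : ℕ) : Finset V :=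
  Finset.Icc (v.1 - r) (v.1 + r) ×ˢ Finset.Icc (v.2 - r) (v.2 + r)

theorem mem_box {v y : V} {r : ℕ} : y ∈ box v r ↔
    v.1 - r ≤ y.1 ∧ y.1 ≤ v.1 + r ∧ v.2 - r ≤ y.2 ∧ y.2 ≤ v.2 + r := by
  simp [box, and_assoc]

theorem card_box (v : V) (r : ℕ) : (box v r).card = (2 * r + 1) ^ 2 := by
  have h : ∀ a : ℤ, (Finset.Icc (a - r) (a + r)).card = 2 * r + 1 := by
    intro a; rw [Int.card_Icc]; omega
  simp only [box, Finset.card_product, h]; ring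

/-- unordered pairs with both members in a box. -/
noncomputable def ebox (v : V) (r : ℕ) : Finset E := (box v r).sym2

theorem mk_mem_ebox {v x y : V} {r : ℕ} : s(x, y) ∈ ebox v r ↔ x ∈ box v r ∧ y ∈ box v r :=
  Finset.mk_mem_sym2_iff

/-- all weights in the box are at most M. -/
def Loc (ω : Om) (v : V) (r : ℕ) (M : ℝ) : Prop := ∀ e ∈ ebox v r, ω e ≤ M

/-! ### geodesics -/

/-- y to z is the first step of a geodesic from y to x. -/
def Step (ω : Om) (x y z : V) : Prop := grid.Adj y z ∧ T ω y x = ω s(y, z) + T ω z x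

/-- number of high edges of a walk. -/
noncomputable def hi (ω : Om) (h : ℝ) {x y : V} (p : grid.Walk x y) : ℕ :=
  p.edges.countP fun e => decide (h < ω e)

/-- every path from x with at least n edges has at least half of its edges high. -/
def Pei (ω : Om) (h : ℝ) (x : V) (n : ℕ) : Prop :=
  ∀ (y : V) (p : grid.Walk x y), p.IsPath → n ≤ p.length → p.length ≤ 2 * hi ω h p

/-- every path from x with at least n edges costs at least a per edge. -/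
def PeiT (ω : Om) (a : ℝ) (x : V) (n : ℕ) : Prop :=
  ∀ (y : V) (p : grid.Walk x y), p.IsPath → n ≤ p.length → a * p.length ≤ cost ω p

/-- regular configurations. -/
structure Reg (h : ℝ) (ω : Om) : Prop where
  h_pos : 0 < h
  pos : ∀ e, 0 < ω e
  geo : ∀ x y, ∃ p : grid.Walk x y, p.IsPath ∧ cost ω p = T ω x y
  uniq : ∀ x y z z', Step ω x y z → Step ω x y z' → z = z'
  pei : ∀ x, ∃ n, Pei ω h x n

theorem Reg.nn {h : ℝ} {ω : Om} (hR : Reg h ω) : ∀ e, 0 ≤ ω e := fun e => (hR.pos e).le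

/-- every weight is a left accumulation point of the support of the law. -/
def Acc (G : Measure ℝ) (ω : Om) : Prop :=
  ∀ (e : E) (κ : ℝ), 0 < κ → 0 < G (Set.Ioo (ω e - κ) (ω e))

open Classical in
/-- next vertex on the geodesic from y to x. -/
noncomputable def fwd (ω : Om) (x y : V) : V :=
  if Step ω x y (y.1 + 1, y.2) then (y.1 + 1, y.2)
  else if Step ω x y (y.1 - 1, y.2) then (y.1 - 1, y.2)
  else if Step ω x y (y.1, y.2 + 1) then (y.1, y.2 + 1)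
  else if Step ω x y (y.1, y.2 - 1) then (y.1, y.2 - 1)
  else y

/-- u lies on a geodesic ray starting from x. -/
def Back (ω : Om) (x u : V) : Prop :=
  ∃ γ : ℕ → V, γ 0 = u ∧ ∀ n, Step ω x (γ (n + 1)) (γ n)

/-- geodesic rays and lines. -/
def IsRay (ω : Om) (α : ℕ → V) : Prop :=
  ∀ a b : ℕ, a < b → Step ω (α b) (α a) (α (a + 1))

def IsLine (ω : Om) (γ : ℤ → V) : Prop :=
  ∀ i j : ℤ, i < j → Step ω (γ j) (γ i) (γ (i + 1))

def rev (γ : ℤ → V) : ℤ → V := fun i => γ (-i)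
def sh (k : ℤ) (γ : ℤ → V) : ℤ → V := fun i => γ (k + i)
def past (γ : ℤ → V) : ℕ → V := fun n => γ (-(n : ℤ))

@[simp] theorem rev_apply (γ : ℤ → V) (i : ℤ) : rev γ i = γ (-i) := rfl
@[simp] theorem sh_apply (k : ℤ) (γ : ℤ → V) (i : ℤ) : sh k γ i = γ (k + i) := rfl
@[simp] theorem past_apply (γ : ℤ → V) (n : ℕ) : past γ n = γ (-(n : ℤ)) := rfl
@[simp] theorem rev_rev (γ : ℤ → V) : rev (rev γ) = γ := by funext i; simp

/-- Busemann function of the past end of a line, vanishing at γ 0. -/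
noncomputable def bus (ω : Om) (γ : ℤ → V) (y : V) : ℝ :=
  ⨅ n : ℕ, (T ω (γ (-(n : ℤ))) y - T ω (γ (-(n : ℤ))) (γ 0))

/-- detours of the line around the box of radius r at γ 0 cost at least w extra. -/
def Det (ω : Om) (γ : ℤ → V) (r : ℕ) (w : ℝ) : Prop :=
  ∀ (i j : ℤ) (x y : V) (p : grid.Walk x y), i < 0 → 0 < j → γ i = x → γ j = y →
    (∀ z ∈ p.support, z ∉ box (γ 0) r) → T ω x y + w ≤ cost ω p

/-- the line goes through the edge e. -/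
def Uses (γ : ℤ → V) (e : E) : Prop := ∃ i, e = s(γ i, γ (i + 1))

/-- two lines with the same past are equal. -/
def NoY (ω : Om) : Prop :=
  ∀ γ γ' : ℤ → V, IsLine ω γ → IsLine ω γ' → (∀ i ≤ 0, γ i = γ' i) → γ = γ'

def Yev (ω : Om) (z : V) : Prop :=
  ∃ γ γ' : ℤ → V, IsLine ω γ ∧ IsLine ω γ' ∧ γ 0 = z ∧ (∀ i ≤ 0, γ i = γ' i) ∧ γ 1 ≠ γ' 1

/-- Lemma E property. -/
def PE (ω : Om) : Prop :=
  ∀ γ l : ℤ → V, IsLine ω γ → IsLine ω l →
    (∃ c : ℝ, ∀ k, c ≤ bus ω γ (l k) - bus ω l (l k)) →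
    ∀ k, bus ω γ (l k) - bus ω l (l k) = bus ω γ (l 0)

/-! ### planarity -/

def InR (a b c d : ℤ) (x : V) : Prop := a ≤ x.1 ∧ x.1 ≤ b ∧ c ≤ x.2 ∧ x.2 ≤ d

def OnB (a b c d : ℤ) (x : V) : Prop :=
  InR a b c d x ∧ (x.1 = a ∨ x.1 = b ∨ x.2 = c ∨ x.2 = d)

/-- clockwise position on the boundary of the rectangle, from the lower left corner. -/
def rpos (a b c d : ℤ) (x : V) : ℤ :=
  if x.1 = a then x.2 - c
  else if x.2 = d then (d - c) + (x.1 - a)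
  else if x.1 = b then (d - c) + (b - a) + (d - x.2)
  else 2 * (d - c) + (b - a) + (b - x.1)

/-- horizontal and vertical crossings of a rectangle with cost at most M. -/
def HC (ω : Om) (a b c d : ℤ) (M : ℝ) : Prop :=
  ∃ (p q : V) (W : grid.Walk p q), p.1 = a ∧ q.1 = b ∧ (∀ z ∈ W.support, InR a b c d z) ∧
    cost ω W ≤ M

def VC (ω : Om) (a b c d : ℤ) (M : ℝ) : Prop :=
  ∃ (p q : V) (W : grid.Walk p q), p.2 = c ∧ q.2 = d ∧ (∀ z ∈ W.support, InR a b c d z) ∧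
    cost ω W ≤ M

/-- W is a frame at scale ρ around v. -/
def IsFr (v : V) (ρ : ℕ) {a b : V} (W : grid.Walk a b) : Prop :=
  (∀ z ∈ W.support, z ∉ box v (ρ - 1)) ∧
    ∀ (x y : V) (p : grid.Walk x y), x ∈ box v ρ → y ∉ box v (2 * ρ) →
      ∃ z ∈ p.support, z ∈ W.support

def Fr (ω : Om) (v : V) (ρ : ℕ) (M : ℝ) : Prop :=
  ∃ (a b : V) (W : grid.Walk a b), IsFr v ρ W ∧ cost ω W ≤ M

/-- geodesics with far end points have at most L vertices in the box. -/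
def Len (ω : Om) (v : V) (ρ L : ℕ) : Prop :=
  ∀ x y : V, x ∉ box v (2 * ρ) → y ∉ box v (2 * ρ) →
    cnt (box v ρ) (fun z => T ω y x = T ω y z + T ω z x) ≤ L

def RayW (ξ : ℕ → V) : Prop := (∀ n, grid.Adj (ξ n) (ξ (n + 1))) ∧ Function.Injective ξ

noncomputable def exitIdx (ξ : ℕ → V) (n : ℕ) : ℕ := sInf {i | ξ i ∉ box 0 n}

abbrev KK : Type := Filter.Germ (Filter.hyperfilter ℕ : Filter ℕ) ℤ

/-- position at infinity of a ray, in a linear order. -/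
noncomputable def key (ξ : ℕ → V) : KK :=
  ((fun n : ℕ => rpos (-((n : ℤ) + 1)) (n + 1) (-((n : ℤ) + 1)) (n + 1) (ξ (exitIdx ξ n))) :
    ℕ → ℤ)

def Tail (ξ : ℕ → V) (i : ℕ) (z : V) : Prop := ∃ n, i ≤ n ∧ ξ n = z

/-- every biinfinite walk joining the tails of ξ1, ξ3 meets every one joining ξ2, ξ4. -/
def Linked (ξ1 ξ3 ξ2 ξ4 : ℕ → V) : Prop :=
  ∀ (i1 i3 i2 i4 : ℕ) (x1 x3 x2 x4 : V) (W : grid.Walk x1 x3) (W' : grid.Walk x2 x4),
    ξ1 i1 = x1 → ξ3 i3 = x3 → ξ2 i2 = x2 → ξ4 i4 = x4 →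
    ∃ z, (z ∈ W.support ∨ Tail ξ1 i1 z ∨ Tail ξ3 i3 z) ∧
      (z ∈ W'.support ∨ Tail ξ2 i2 z ∨ Tail ξ4 i4 z)

/-- the pair p1, p3 separates the pair p2, p4. -/
def AltK {α : Type*} [LinearOrder α] (p1 p2 p3 p4 : α) : Prop :=
  (min p1 p3 < p2 ∧ p2 < max p1 p3 ∧ (p4 < min p1 p3 ∨ max p1 p3 < p4)) ∨
  (min p1 p3 < p4 ∧ p4 < max p1 p3 ∧ (p2 < min p1 p3 ∨ max p1 p3 < p2))

/-- interlaced lines. -/
def Cross (γ γ' : ℤ → V) : Prop :=
  AltK (key (past γ)) (key (past γ')) (key (past (rev γ))) (key (past (rev γ')))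

/-- property B*: a line with a margin is interlaced with every other line. -/
def PB (ω : Om) : Prop :=
  ∀ (η : ℝ) (γ γ' : ℤ → V), 0 < η → IsLine ω γ → IsLine ω γ' → Det ω γ 0 η →
    Set.range γ ≠ Set.range γ' → Cross γ γ'

structure Good (h : ℝ) (ω : Om) : Prop where
  reg : Reg h ω
  noY : NoY ω
  pe : PE ω
  pb : PB ω

/-! ### lattice symmetries -/

def act (φ : grid ≃g grid) (ω : Om) : Om := fun e => ω (e.map φ)

/-- translation by a. -/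
def tr (a : V) : grid ≃g grid where
  toEquiv := Equiv.addRight a
  map_rel_iff' := by
    intro x y
    simp only [Equiv.coe_addRight, adj_iff, Prod.fst_add, Prod.snd_add]
    omega

/-- reflection in the diagonal. -/
def sw : grid ≃g grid where
  toEquiv := Equiv.prodComm ℤ ℤ
  map_rel_iff' := by
    intro x y
    simp only [Equiv.prodComm_apply, adj_iff, Prod.fst_swap, Prod.snd_swap]
    omega

@[simp] theorem tr_apply (a x : V) : tr a x = x + a := rfl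
@[simp] theorem sw_apply (x : V) : sw x = x.swap := rfl

/-! ### abstract forests (Lemma F) -/

structure Forest (f : V → V) (B : V → Prop) : Prop where
  near : ∀ y, f y ∈ box y 1
  pred : ∀ y, B y → ∃ y', B y' ∧ y' ≠ y ∧ f y' = y
  clos : ∀ y, B y → B (f y)

def Merge (f : V → V) (B : V → Prop) (y : V) : Prop :=
  ∃ y1 y2, B y1 ∧ B y2 ∧ y1 ≠ y2 ∧ y1 ≠ y ∧ y2 ≠ y ∧ f y1 = y ∧ f y2 = y

def Clean (f : V → V) (B : V → Prop) (R : ℕ) (u : V) : Prop :=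
  ∀ n, 1 ≤ n → n ≤ R → ¬ Merge f B (f^[n] u)

def Inj (f : V → V) (R : ℕ) (u : V) : Prop :=
  ∀ i j, i ≤ R → j ≤ R → f^[i] u = f^[j] u → i = j

def Root (f : V → V) (K R : ℕ) (w : V) : Prop :=
  Inj f R w ∧ ∀ (i : ℕ) (y : V) (d : ℕ), i ≤ R → 1 ≤ d → f^[d] y = f^[i] w →
    (i = 0 ∨ f^[d - 1] y ≠ f^[i - 1] w) → 2 * d ≤ 2 * K + i

def Spoil (f : V → V) (B : V → Prop) (K R : ℕ) (u : V) : Prop :=
  B u ∧ Clean f B R u ∧ Inj f R u ∧ ∃ (n : ℕ) (y : V) (d : ℕ), n ≤ R ∧ 1 ≤ d ∧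
    f^[d] y = f^[n] u ∧ ¬ B (f^[d - 1] y) ∧ 2 * K + n < 2 * d

def Cmp (f : V → V) (u u' : V) : Prop := ∃ n, f^[n] u = u' ∨ f^[n] u' = u

def Lone (f : V → V) (B : V → Prop) (D : ℕ) (u : V) : Prop :=
  B u ∧ ∀ u2 ∈ box u D, B u2 → Cmp f u u2

/-- the good event of Lemma F at the vertex u'. -/
def GoodF (ω : Om) (h : ℝ) (x u' : V) (D s J K R : ℕ) (M1 M2 : ℝ) : Prop :=
  Back ω x u' ∧ (∃ u ∈ box u' D, Back ω x u ∧ ¬ Cmp (fwd ω x) u' u ∧ Pei ω h u s) ∧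
    Clean (fwd ω x) (Back ω x) (R + J) u' ∧ ¬ Spoil (fwd ω x) (Back ω x) K (R + J) u' ∧
    x ∉ box u' (D + s + R + J) ∧ Loc ω u' D M1 ∧ Loc ω u' (D + s) M2 ∧ Pei ω h u' J

/-- asymptotic density bound, uniform in the root x. -/
def Dens (G : Measure ℝ) (A : V → V → Om → Prop) (ε : ℝ) : Prop :=
  ∃ l0 : ℕ, ∀ l : ℕ, l0 ≤ l → ∀ x : V,
    ∑ u ∈ box 0 l, (mu G).real {ω | A x u ω} ≤ ε * (l : ℝ) ^ 2

/-! ### budget theorem -/

def Osc (ω : Om) {a b : V} (W : grid.Walk a b) (γ γ' : ℤ → V) (w : ℝ) : Prop :=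
  ∃ u ∈ W.support, ∃ u' ∈ W.support,
    w ≤ (bus ω γ u - bus ω γ' u) - (bus ω γ u' - bus ω γ' u')

def PairOK (ω : Om) {a b : V} (W : grid.Walk a b) (γ γ' : ℤ → V) (w : ℝ) : Prop :=
  (Osc ω W γ γ' w ∨ Osc ω W (rev γ) (rev γ') w) ∧
    (Osc ω W γ (rev γ') w ∨ Osc ω W (rev γ) γ' w)

/-- line through v at time 0 with margin η at v and detour cost w around the r-box. -/
def MLine (ω : Om) (v : V) (η : ℝ) (r : ℕ) (w : ℝ) (γ : ℤ → V) : Prop :=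
  IsLine ω γ ∧ γ 0 = v ∧ Det ω γ 0 η ∧ Det ω γ r w

def Ev (ω : Om) (v : V) (k : ℕ) (η : ℝ) (r : ℕ) (w : ℝ) : Prop :=
  ∃ f : Fin k → ℤ → V, (∀ i, MLine ω v η r w (f i)) ∧
    ∀ i j, i ≠ j → Set.range (f i) ≠ Set.range (f j)

def Fam (ω : Om) (v : V) (k : ℕ) (η : ℝ) (r : ℕ) (w : ℝ) (t : ℕ) : Prop :=
  ∃ f : Fin k → ℤ → V, (∀ i, MLine ω v η r w (f i)) ∧
    ∀ i j, i ≠ j → ∀ a b, f i a = f j b → f i a ∈ box v t

def Wit (ω : Om) (t : ℕ) (w : ℝ) (γ γ' : ℤ → V) : Prop :=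
  ∃ i i' j j' : ℤ, |i| ≤ t ∧ |i'| ≤ t ∧ |j| ≤ t ∧ |j'| ≤ t ∧ i' ≤ i ∧ j ≤ j' ∧ γ i = γ' j ∧
    w ≤ T ω (γ i') (γ i) + T ω (γ' j) (γ' j') - T ω (γ i') (γ' j')

def BadNear (ω : Om) (v : V) (η : ℝ) (r : ℕ) (w : ℝ) (t : ℕ) : Prop :=
  ∃ γ γ' : ℤ → V, IsLine ω γ ∧ IsLine ω γ' ∧ γ 0 = v ∧ Det ω γ 0 η ∧ γ' 0 ∈ box v r ∧
    (∀ k, γ' k ≠ v) ∧ ¬ Wit ω t w γ γ'

def GoodAt (ω : Om) (v : V) (k : ℕ) (η : ℝ) (r : ℕ) (w : ℝ) (t : ℕ) (M0 : ℝ) : Prop :=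
  Fam ω v k η r w t ∧ ¬ BadNear ω v η r w t ∧ Loc ω v r M0

/-! ### locality lemma -/

def ML (ω : Om) (η : ℝ) (γ : ℤ → V) : Prop := IsLine ω γ ∧ γ 0 = 0 ∧ Det ω γ 0 η

def Big (ω : Om) (γ : ℤ → V) (x : ℝ) : Prop := ∃ r n : ℕ, Det ω γ r (x + 1 / ((n : ℝ) + 1))

def FinL (ω : Om) (γ : ℤ → V) : Prop := ∃ y : ℕ, ¬ Big ω γ y

def Pj (ω : Om) (η x : ℝ) : Prop := ∃ γ, ML ω η γ ∧ FinL ω γ ∧ Big ω γ x

def Many (ω : Om) (η : ℝ) (M : ℕ) : Prop :=
  ∃ f : Fin (M + 1) → ℤ → V, Function.Injective f ∧ ∀ i, ML ω η (f i)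

def Piv (ω : Om) (η : ℝ) (M : ℕ) (e : E) : Prop :=
  (∃ γ, ML ω η γ ∧ Uses γ e) ∧
    ¬ ∃ f : Fin (M + 1) → ℤ → V, Function.Injective f ∧ ∀ i, ML ω η (f i) ∧ ¬ Uses (f i) e

end Vale.Agent.P158
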