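import Mathlib

namespace Vale.Agent.P158

open scoped NNReal

/-- The nearest-neighbour graph of the square lattice. -/
def grid : SimpleGraph (ℤ × ℤ) where
  Adj x y := |x.1 - y.1| + |x.2 - y.2| = 1
  symm := ⟨fun x y h => by rw [abs_sub_comm y.1, abs_sub_comm y.2]; exact h⟩
  loopless := ⟨fun x h => by simp at h⟩

open Classical in
/-- The weight of an unordered pair of vertices: the given edge weight if the pair is an edge
of the lattice (only such pairs are ever evaluated below). -/
noncomputable def wt (t : grid.edgeSet → ℝ≥0) (e : Sym2 (ℤ × ℤ)) : ℝ :=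
  if h : e ∈ grid.edgeSet then (t ⟨e, h⟩ : ℝ) else 0

/-- The sum of the weights of the edges traversed by a finite nearest-neighbour path. -/
def cost (w : Sym2 (ℤ × ℤ) → ℝ) {x y : ℤ × ℤ} (p : grid.Walk x y) : ℝ :=
  (p.edges.map w).sum

/-- The passage time: infimum of the cost over finite nearest-neighbour paths from x to y. -/
noncomputable def T (w : Sym2 (ℤ × ℤ) → ℝ) (x y : ℤ × ℤ) : ℝ :=
  ⨅ p : grid.Walk x y, cost w p

/-- A bigeodesic: pairwise distinct vertices, consecutive ones adjacent, every finite stretch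
realising the passage time between its end points. -/
def IsBigeodesic (w : Sym2 (ℤ × ℤ) → ℝ) (v : ℤ → ℤ × ℤ) : Prop :=
  Function.Injective v ∧ (∀ i, grid.Adj (v i) (v (i + 1))) ∧
    ∀ i j : ℤ, i < j → ∑ k ∈ Finset.Ico i j, w s(v k, v (k + 1)) = T w (v i) (v j)

end Vale.Agent.P158
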