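import Vale.Agent.P158.Line

/-!
TASK Same: when two lines coincide.
Plan: seg_agree: both segments are chains of Steps towards the common end point x = γ (i+n);
induct on s using Reg.uniq; lengths agree because γ (i+s) = x only for s = n (injective).
NoY.past_eq: apply NoY to sh i γ and sh j γ'; fut_eq: apply past_eq to the reversed lines.
finite_inter: if infinitely many common vertices, fix one γ i0 = γ' j0; infinitely many others lie
in one of the four quadrants (index of γ above/below i0, index of γ' above/below j0), reduce to one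
quadrant by rev; seg_agree gives agreement on a half line, fut_eq gives equal ranges.
A convenient core: half_agree below. eq_or_rev: γ' 1 = γ i for some i; the edge γ 0 to γ' 1 is a
Step towards γ i, so is γ 0 to γ 1 (i>0) or γ (-1) (i<0); simplest is again the quadrant argument:
range infinite, so agreement on half lines from index 0, then NoY.
-/

namespace Vale.Agent.P158

variable {h : ℝ} {ω : Om} {γ γ' : ℤ → V}

theorem seg_agree (hR : Reg h ω) (hγ : IsLine ω γ) (hγ' : IsLine ω γ') {i j : ℤ} {n m : ℕ}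
    (h1 : γ i = γ' j) (h2 : γ (i + n) = γ' (j + m)) :
    n = m ∧ ∀ s : ℕ, s ≤ n → γ (i + s) = γ' (j + s) := by
  have key : ∀ s : ℕ, s ≤ n → s ≤ m → γ (i + s) = γ' (j + s) := by
    intro s
    induction s with
    | zero => intro _ _; simpa using h1
    | succ s ih =>
      intro hn hm
      have h3 := ih (by omega) (by omega)
      have h4 := hγ (i + s) (i + n) (by omega)
      have h5 := hγ' (j + s) (j + m) (by omega)
      rw [h2, h3] at h4
      have h6 := hR.uniq _ _ _ _ h4 h5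
      push_cast
      rw [← add_assoc, ← add_assoc]
      exact h6
  have hnm : n = m := by
    rcases le_total n m with hle | hle
    · have h3 := key n le_rfl hle
      have h4 := hγ'.inj hR.pos (h3.symm.trans h2)
      omega
    · have h3 := key m hle le_rfl
      have h4 := hγ.inj hR.pos (h3.trans h2.symm)
      omega
  exact ⟨hnm, fun s hs => key s hs (hnm ▸ hs)⟩

theorem half_agree (hR : Reg h ω) (hγ : IsLine ω γ) (hγ' : IsLine ω γ') {i j : ℤ}
    (h1 : γ i = γ' j) (h2 : ∀ N : ℕ, ∃ n m : ℕ, N ≤ n ∧ γ (i + n) = γ' (j + m)) :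
    ∀ s : ℕ, γ (i + s) = γ' (j + s) := by
  intro s
  obtain ⟨n, m, hn, h3⟩ := h2 s
  exact (seg_agree hR hγ hγ' h1 h3).2 s hn

theorem NoY.past_eq (hY : NoY ω) (hγ : IsLine ω γ) (hγ' : IsLine ω γ') {i j : ℤ}
    (hp : ∀ n : ℕ, γ (i - n) = γ' (j - n)) : ∀ k : ℤ, γ (i + k) = γ' (j + k) := by
  have h1 := hY (sh i γ) (sh j γ') (hγ.sh i) (hγ'.sh j) fun k hk => by
    have h2 := hp k.natAbs
    have e1 : i - (k.natAbs : ℤ) = i + k := by omega
    have e2 : j - (k.natAbs : ℤ) = j + k := by omega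
    rw [e1, e2] at h2
    exact h2
  intro k
  exact congrFun h1 k

theorem NoY.fut_eq (h0 : ∀ e, 0 ≤ ω e) (hY : NoY ω) (hγ : IsLine ω γ) (hγ' : IsLine ω γ')
    {i j : ℤ} (hp : ∀ n : ℕ, γ (i + n) = γ' (j + n)) : ∀ k : ℤ, γ (i + k) = γ' (j + k) := by
  have h1 := hY.past_eq (hγ.rev h0) (hγ'.rev h0) (i := -i) (j := -j) fun n => by
    have e1 : -(-i - (n : ℤ)) = i + n := by ring
    have e2 : -(-j - (n : ℤ)) = j + n := by ring
    rw [rev_apply, rev_apply, e1, e2]
    exact hp n
  intro k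
  have h2 := h1 (-k)
  have e1 : -(-i + -k) = i + k := by ring
  have e2 : -(-j + -k) = j + k := by ring
  rwa [rev_apply, rev_apply, e1, e2] at h2

theorem same_up (hR : Reg h ω) (hY : NoY ω) (hγ : IsLine ω γ) (hγ' : IsLine ω γ') {i j : ℤ}
    (h1 : γ i = γ' j) (h2 : ∀ N : ℕ, ∃ n : ℕ, N ≤ n ∧ γ (i + n) ∈ Set.range γ') :
    (∀ k : ℤ, γ (i + k) = γ' (j + k)) ∨ ∀ k : ℤ, γ (i + k) = γ' (j - k) := by
  by_cases h3 : ∀ N : ℕ, ∃ n m : ℕ, N ≤ n ∧ γ (i + n) = γ' (j + m)
  · exact Or.inl (hY.fut_eq hR.nn hγ hγ' (half_agree hR hγ hγ' h1 h3))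
  · right
    obtain ⟨N0, hN0⟩ := not_forall.1 h3
    have h4 : ∀ N : ℕ, ∃ n m : ℕ, N ≤ n ∧ γ (i + n) = rev γ' (-j + m) := by
      intro N
      obtain ⟨n, hn, k, hk⟩ := h2 (max N N0)
      rcases le_total j k with hjk | hjk
      · exfalso
        refine hN0 ⟨n, (k - j).natAbs, (le_max_right _ _).trans hn, ?_⟩
        have e1 : j + ((k - j).natAbs : ℤ) = k := by omega
        rw [e1, hk]
      · refine ⟨n, (k - j).natAbs, (le_max_left _ _).trans hn, ?_⟩
        have e1 : -(-j + ((k - j).natAbs : ℤ)) = k := by omega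
        rw [rev_apply, e1, hk]
    have h5 : γ i = rev γ' (-j) := by rw [rev_apply, neg_neg, h1]
    have h6 := hY.fut_eq hR.nn hγ (hγ'.rev hR.nn) (half_agree hR hγ (hγ'.rev hR.nn) h5 h4)
    intro k
    have e1 : -(-j + k) = j - k := by ring
    rw [h6 k, rev_apply, e1]

theorem same_range {i j : ℤ}
    (h1 : (∀ k : ℤ, γ (i + k) = γ' (j + k)) ∨ ∀ k : ℤ, γ (i + k) = γ' (j - k)) :
    Set.range γ = Set.range γ' := by
  ext z
  rcases h1 with h1 | h1
  · constructor
    · rintro ⟨k, rfl⟩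
      refine ⟨j + (k - i), ?_⟩
      rw [← h1]; congr 1; ring
    · rintro ⟨k, rfl⟩
      refine ⟨i + (k - j), ?_⟩
      rw [h1]; congr 1; ring
  · constructor
    · rintro ⟨k, rfl⟩
      refine ⟨j - (k - i), ?_⟩
      rw [← h1]; congr 1; ring
    · rintro ⟨k, rfl⟩
      refine ⟨i + (j - k), ?_⟩
      rw [h1]; congr 1; ring

theorem finite_inter (hR : Reg h ω) (hY : NoY ω) (hγ : IsLine ω γ) (hγ' : IsLine ω γ')
    (hne : Set.range γ ≠ Set.range γ') : (Set.range γ ∩ Set.range γ').Finite := by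
  rcases (Set.range γ ∩ Set.range γ').eq_empty_or_nonempty with he | ⟨z, ⟨i, hi⟩, ⟨j, hj⟩⟩
  · rw [he]; exact Set.finite_empty
  have h1 : γ i = γ' j := hi.trans hj.symm
  have hup : ∃ N : ℕ, ∀ n : ℕ, N ≤ n → γ (i + n) ∉ Set.range γ' := by
    by_contra hc
    push Not at hc
    exact hne (same_range (same_up hR hY hγ hγ' h1 hc))
  have hdown : ∃ N : ℕ, ∀ n : ℕ, N ≤ n → rev γ (-i + n) ∉ Set.range γ' := by
    by_contra hc
    push Not at hc
    have h2 : rev γ (-i) = γ' j := by rw [rev_apply, neg_neg, h1]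
    have h3 := same_range (same_up hR hY (hγ.rev hR.nn) hγ' h2 hc)
    rw [range_rev] at h3
    exact hne h3
  obtain ⟨N1, hN1⟩ := hup
  obtain ⟨N2, hN2⟩ := hdown
  refine ((Set.finite_Icc (i - N2) (i + N1)).image γ).subset ?_
  rintro _ ⟨⟨k, rfl⟩, hk⟩
  refine ⟨k, ⟨?_, ?_⟩, rfl⟩
  · by_contra hc
    refine hN2 (i - k).natAbs (by omega) ?_
    have e1 : -(-i + ((i - k).natAbs : ℤ)) = k := by omega
    rwa [rev_apply, e1]
  · by_contra hc
    refine hN1 (k - i).natAbs (by omega) ?_
    have e1 : i + ((k - i).natAbs : ℤ) = k := by omega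
    rwa [e1]

theorem eq_or_rev (hR : Reg h ω) (hY : NoY ω) (hγ : IsLine ω γ) (hγ' : IsLine ω γ')
    (h00 : γ 0 = γ' 0) (hr : Set.range γ = Set.range γ') : γ' = γ ∨ γ' = rev γ := by
  rcases same_up hR hY hγ hγ' h00 (fun N => ⟨N, le_rfl, hr ▸ Set.mem_range_self _⟩) with h1 | h1
  · left
    funext k
    simpa using (h1 k).symm
  · right
    funext k
    simpa using (h1 (-k)).symm

theorem noY_of_not_yev (hY : ∀ z, ¬ Yev ω z) : NoY ω := by
  intro α β hα hβ hp
  have key : ∀ n : ℕ, ∀ i : ℤ, i ≤ n → α i = β i := by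
    intro n
    induction n with
    | zero => intro i hi; exact hp i (by simpa using hi)
    | succ n ih =>
      intro i hi
      rcases le_or_gt i n with h1 | h1
      · exact ih i h1
      · have e1 : i = (n : ℤ) + 1 := by push_cast at hi; omega
        by_contra hc
        refine hY (sh n α 0) ⟨sh n α, sh n β, hα.sh n, hβ.sh n, rfl, fun k hk => ?_, ?_⟩
        · exact ih (n + k) (by omega)
        · rw [sh_apply, sh_apply, ← e1]
          exact hc
  funext i
  exact key i.natAbs i (by omega)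

end Vale.Agent.P158
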