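import Vale.Agent.P158.Bus
import Vale.Agent.P158.Same
import Vale.Agent.P158.Key

/-!
TASK Dinf: consequences of Lemma E; the cut property.
not_bdd: if e is bounded below, PE makes it constant, so for a, b ≥ 0:
T (γ (i-a)) (γ' (j+b)) ≥ bus γ (γ' (j+b)) - bus γ (γ (i-a)) = T (γ (i-a)) c + T c (γ' (j+b)) (bus_lip, bus_line), with
equality by the triangle inequality. concat_line (isRay_past, isRay_fut) gives κ; NoY.past_eq says κ = γ shifted, so
γ (i+n) = γ' (j+n); NoY.fut_eq gives equal ranges. dinf: if all defects are < w then for k ≥ j, le_bus gives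
bus γ (γ' k) ≥ bus γ c + T c (γ' k) - w, so e k ≥ e j - w; for k ≤ j use e_anti.
b1: W any walk from γ 0 to γ' 0 (walk_nonempty). Apply Linked with i1 = n, i3 = m, a geodesic p from γ (-n) to γ' m, i2 = i4 = 0 and W.
For n, m ≥ n0 the tails of past γ after n and of the future of γ' after m avoid W, the future of γ and the past of γ'
(injectivity, escape_int for the finite sets), so p contains a point z of W, or γ j (j ≥ 0), or γ' (-j). In each case
T (γ (-n)) (γ' m) ≥ T (γ (-n)) (γ 0) + T (γ' 0) (γ' m) - 2 cost W. le_bus, bus_line, and e_anti for the indices below n0.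
-/

namespace Vale.Agent.P158

variable {h : ℝ} {ω : Om} {γ γ' : ℤ → V}

theorem not_bdd (hR : Reg h ω) (hY : NoY ω) (hE : PE ω) (hγ : IsLine ω γ) (hγ' : IsLine ω γ')
    (hne : Set.range γ ≠ Set.range γ') {i j : ℤ} (hc : γ i = γ' j) :
    ¬ ∃ c : ℝ, ∀ k, c ≤ bus ω γ (γ' k) - bus ω γ' (γ' k) := by
  intro hb
  have h0 := hR.nn
  have he := hE γ γ' hγ hγ' hb
  obtain ⟨κ, hκ, h1, h2⟩ := concat_line h0 (hγ.isRay_past h0 i) (hγ'.isRay_fut j)
    (by simpa using hc) (by
      intro a b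
      simp only [Nat.cast_zero, sub_zero, add_zero]
      have e1 := he j
      have e2 := he (j + b)
      have e3 := bus_line h0 hγ' (i := j) (j := j + b) (by omega)
      have e4 := bus_line h0 hγ (i := i - a) (j := i) (by omega)
      have e5 := bus_lip h0 hγ (γ' (j + b)) (γ (i - a))
      have e6 := T_triangle h0 (γ (i - a)) (γ i) (γ' (j + b))
      rw [T_comm] at e5
      rw [hc] at e4 e6 ⊢
      linarith)
  have h3 := NoY.past_eq hY hγ hκ (i := i) (j := 0) (fun n => by rw [zero_sub, h1 n])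
  have h4 := NoY.fut_eq h0 hY hγ hγ' (i := i) (j := j) (fun n => by rw [h3, zero_add, h2 n])
  apply hne
  ext z
  constructor
  · rintro ⟨k, rfl⟩
    exact ⟨j + (k - i), by rw [← h4]; congr 1; ring⟩
  · rintro ⟨k, rfl⟩
    exact ⟨i + (k - j), by rw [h4]; congr 1; ring⟩

theorem dinf (hR : Reg h ω) (hY : NoY ω) (hE : PE ω) (hγ : IsLine ω γ) (hγ' : IsLine ω γ')
    (hne : Set.range γ ≠ Set.range γ') {i j : ℤ} (hc : γ i = γ' j) (w : ℝ) :
    ∃ i' j', i' ≤ i ∧ j ≤ j' ∧
      w ≤ T ω (γ i') (γ i) + T ω (γ' j) (γ' j') - T ω (γ i') (γ' j') := by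
  by_contra hn
  push Not at hn
  have h0 := hR.nn
  refine not_bdd hR hY hE hγ hγ' hne hc ⟨bus ω γ (γ' j) - bus ω γ' (γ' j) - |w|, fun k => ?_⟩
  rcases le_total k j with hk | hk
  · have := e_anti h0 hγ hγ' hk
    linarith [abs_nonneg w]
  · have e1 : bus ω γ (γ i) + T ω (γ' j) (γ' k) - w ≤ bus ω γ (γ' k) := by
      refine le_bus h0 hγ (-i).toNat fun n hn' => ?_
      have e2 := hn (-(n : ℤ)) k (by omega) hk
      have e3 := bus_line h0 hγ (i := -(n : ℤ)) (j := i) (by omega)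
      have e4 := bus_line h0 hγ (i := -(n : ℤ)) (j := 0) (by omega)
      have e5 := bus_zero h0 hγ
      linarith
    have e3 := bus_line h0 hγ' hk
    rw [hc] at e1
    linarith [le_abs_self w]

theorem b1 (hR : Reg h ω) (hγ : IsLine ω γ) (hγ' : IsLine ω γ')
    (hf : (Set.range γ ∩ Set.range γ').Finite)
    (hL : Linked (past γ) (past (rev γ')) (past (rev γ)) (past γ')) :
    ∃ c : ℝ, ∀ k, c ≤ bus ω γ (γ' k) - bus ω γ' (γ' k) := by
  have h0 := hR.nn
  obtain ⟨W⟩ := walk_nonempty (γ 0) (γ' 0)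
  have hS : ({z | z ∈ W.support} ∪ (Set.range γ ∩ Set.range γ')).Finite :=
    (List.finite_toSet _).union hf
  have hi := hγ.inj hR.pos
  have hi' := hγ'.inj hR.pos
  obtain ⟨n0, hn0⟩ := escape_int hi hS
  obtain ⟨m0, hm0⟩ := escape_int hi' hS
  have c1 : T ω (γ 0) (γ' 0) ≤ cost ω W := T_le_cost h0 W
  have c2 : T ω (γ' 0) (γ 0) ≤ cost ω W := by rwa [T_comm]
  have c0 := cost_nonneg h0 W
  have key : ∀ n m : ℕ, n0 ≤ n → m0 ≤ m →
      T ω (γ (-(n : ℤ))) (γ 0) + T ω (γ' 0) (γ' m) - 2 * cost ω W ≤ T ω (γ (-(n : ℤ))) (γ' m) := by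
    intro n m hn hm
    obtain ⟨p, -, hp⟩ := hR.geo (γ (-(n : ℤ))) (γ' m)
    obtain ⟨z, hz1, hz2⟩ := hL n m 0 0 _ _ _ _ p W rfl (by simp) (by simp) (by simp)
    simp only [Tail, past_apply, rev_apply, neg_neg] at hz1 hz2
    rcases hz1 with hz1 | ⟨a, ha, rfl⟩ | ⟨a, ha, rfl⟩
    · have e := T_add_of_mem_geo h0 p hp hz1
      rcases hz2 with hz2 | ⟨a, -, rfl⟩ | ⟨a, -, rfl⟩
      · have e1 := T_triangle h0 (γ (-(n : ℤ))) z (γ 0)
        have e2 := T_triangle h0 (γ' 0) z (γ' m)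
        have e3 := T_le_of_mem_support h0 W hz2 W.start_mem_support
        have e4 := T_le_of_mem_support h0 W W.end_mem_support hz2
        linarith
      · have e1 := hγ.T_add h0 (i := -(n : ℤ)) (j := 0) (k := a) (by omega) (by omega)
        have e2 := T_triangle h0 (γ' 0) (γ 0) (γ' m)
        have e3 := T_triangle h0 (γ 0) (γ a) (γ' m)
        linarith
      · have e1 := hγ'.T_add h0 (i := -(a : ℤ)) (j := 0) (k := m) (by omega) (by omega)
        have e2 := T_triangle h0 (γ (-(n : ℤ))) (γ' 0) (γ 0)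
        have e3 := T_triangle h0 (γ (-(n : ℤ))) (γ' (-(a : ℤ))) (γ' 0)
        linarith
    · exfalso
      have e := hn0 (-(a : ℤ)) (by rw [abs_neg, Nat.abs_cast]; omega)
      rcases hz2 with hz2 | ⟨b, -, hb⟩ | ⟨b, -, hb⟩
      · exact e (Or.inl hz2)
      · have e1 := hi hb
        have e2 : -(a : ℤ) = 0 := by omega
        rw [e2] at e
        exact e (Or.inl W.start_mem_support)
      · exact e (Or.inr ⟨⟨_, rfl⟩, ⟨_, hb⟩⟩)
    · exfalso
      have e := hm0 (a : ℤ) (by rw [Nat.abs_cast]; omega)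
      rcases hz2 with hz2 | ⟨b, -, hb⟩ | ⟨b, -, hb⟩
      · exact e (Or.inl hz2)
      · exact e (Or.inr ⟨⟨_, hb⟩, ⟨_, rfl⟩⟩)
      · have e1 := hi' hb
        have e2 : (a : ℤ) = 0 := by omega
        rw [e2] at e
        exact e (Or.inl W.end_mem_support)
  have key2 : ∀ m : ℕ, m0 ≤ m → -(2 * cost ω W) ≤ bus ω γ (γ' m) - bus ω γ' (γ' m) := by
    intro m hm
    have e1 : T ω (γ' 0) (γ' m) - 2 * cost ω W ≤ bus ω γ (γ' m) :=
      le_bus h0 hγ n0 fun n hn => by linarith [key n m hn hm]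
    have e2 := bus_line h0 hγ' (i := 0) (j := m) (by omega)
    have e3 := bus_zero h0 hγ'
    linarith
  refine ⟨-(2 * cost ω W), fun k => ?_⟩
  rcases le_total k m0 with hk | hk
  · exact (key2 m0 le_rfl).trans (e_anti h0 hγ hγ' hk)
  · have e := key2 k.toNat (by omega)
    rwa [Int.toNat_of_nonneg (by omega)] at e

end Vale.Agent.P158
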