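import Vale.Agent.P158.Glue

/-!
TASK FrDet: four long crossings form a frame.
Plan: walks Wt, Wb (top, bottom strips), Wl, Wr. In each corner square, subH of the horizontal one and
subV of the vertical one meet (J0). Use join three times (nil connections): ((Wt + Wr) + Wl via Wt) + Wb
via Wr; costs 4M, 10M, 22M. All supports avoid the box of radius ρ-1. Blocking: a walk p from the
ρ-box to outside the 2ρ-box: cut it at its first vertex z with sup norm distance exactly 2ρ (all earlier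
vertices in the 2ρ-box; induction on p), z is on one of four sides, say z.2 = v.2 + 2ρ; subV of this initial
piece between heights v.2+ρ and v.2+2ρ is a vertical crossing of the top strip, meets Wt by J0.
For the bottom and left sides reverse the piece first.
-/

namespace Vale.Agent.P158

open SimpleGraph

/-- a horizontal and a vertical crossing meet if their strips overlap in a rectangle. -/
theorem frdet_meet {ω : Om} (h0 : ∀ e, 0 ≤ ω e) {a b c d : ℤ} (hab : a < b) (hcd : c < d)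
    {p q p' q' : V} (W : grid.Walk p q) (W' : grid.Walk p' q') (hp : p.1 ≤ a) (hq : b ≤ q.1)
    (hp' : p'.2 ≤ c) (hq' : d ≤ q'.2) (hW : ∀ z ∈ W.support, c ≤ z.2 ∧ z.2 ≤ d)
    (hW' : ∀ z ∈ W'.support, a ≤ z.1 ∧ z.1 ≤ b) : ∃ z ∈ W.support, z ∈ W'.support := by
  obtain ⟨r, s, X, k1, k2, k3, -⟩ := subH h0 W hab.le hp hq
  obtain ⟨r', s', X', l1, l2, l3, -⟩ := subV h0 W' hcd.le hp' hq'
  obtain ⟨z, hz, hz'⟩ := J0 hab hcd X X' k1 k2 l1 l2
    (fun z hz => by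
      obtain ⟨m1, m2, m3⟩ := k3 z hz
      exact ⟨m2, m3, (hW z m1).1, (hW z m1).2⟩)
    (fun z hz => by
      obtain ⟨m1, m2, m3⟩ := l3 z hz
      exact ⟨(hW' z m1).1, (hW' z m1).2, m2, m3⟩)
  exact ⟨z, (k3 z hz).1, (l3 z hz').1⟩

/-- the initial piece of a walk up to its first visit of the boundary of the 2ρ-box. -/
theorem frdet_cut {ω : Om} (h0 : ∀ e, 0 ≤ ω e) (v : V) (ρ : ℕ) {x y : V} (p : grid.Walk x y)
    (hx : x ∈ box v ρ) (hy : y ∉ box v (2 * ρ)) :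
    ∃ (q : V) (P : grid.Walk x q), (∀ z ∈ P.support, z ∈ p.support) ∧
      (∀ z ∈ P.support, v.1 - 2 * ρ ≤ z.1 ∧ z.1 ≤ v.1 + 2 * ρ ∧
        v.2 - 2 * ρ ≤ z.2 ∧ z.2 ≤ v.2 + 2 * ρ) ∧
      (q.1 = v.1 + 2 * ρ ∨ q.1 = v.1 - 2 * ρ ∨ q.2 = v.2 + 2 * ρ ∨ q.2 = v.2 - 2 * ρ) := by
  rw [mem_box] at hx hy
  push_cast at hy
  obtain ⟨q, P, k1, k2, -⟩ := glue_cut h0
    (fun z : V => max (max (z.1 - v.1) (v.1 - z.1)) (max (z.2 - v.2) (v.2 - z.2)))
    (fun x y h => by rw [adj_iff] at h; omega) (2 * ρ) p (by omega) (by omega)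
  refine ⟨q, P, fun z hz => (k2 z hz).1, fun z hz => ?_, by omega⟩
  have := (k2 z hz).2
  clear k1 hx hy
  omega

theorem fr_of_cross {ω : Om} (h0 : ∀ e, 0 ≤ ω e) (v : V) {ρ : ℕ} (hρ : 1 ≤ ρ) {M : ℝ}
    (ht : HC ω (v.1 - 2 * ρ) (v.1 + 2 * ρ) (v.2 + ρ) (v.2 + 2 * ρ) M)
    (hb : HC ω (v.1 - 2 * ρ) (v.1 + 2 * ρ) (v.2 - 2 * ρ) (v.2 - ρ) M)
    (hl : VC ω (v.1 - 2 * ρ) (v.1 - ρ) (v.2 - 2 * ρ) (v.2 + 2 * ρ) M)
    (hr : VC ω (v.1 + ρ) (v.1 + 2 * ρ) (v.2 - 2 * ρ) (v.2 + 2 * ρ) M) :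
    Fr ω v ρ (22 * M) := by
  obtain ⟨pt, qt, Wt, t1, t2, t3, t4⟩ := ht
  obtain ⟨pb, qb, Wb, b1, b2, b3, b4⟩ := hb
  obtain ⟨pl, ql, Wl, l1, l2, l3, l4⟩ := hl
  obtain ⟨pr, qr, Wr, r1, r2, r3, r4⟩ := hr
  have hρ' : (1 : ℤ) ≤ ρ := by exact_mod_cast hρ
  obtain ⟨z1, hz1, hz1'⟩ := frdet_meet h0 (a := v.1 + ρ) (b := v.1 + 2 * ρ) (c := v.2 + ρ)
    (d := v.2 + 2 * ρ) (by omega) (by omega) Wt Wr (by omega) (by omega) (by omega) (by omega)
    (fun z hz => (t3 z hz).2.2) (fun z hz => ⟨(r3 z hz).1, (r3 z hz).2.1⟩)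
  obtain ⟨z2, hz2, hz2'⟩ := frdet_meet h0 (a := v.1 - 2 * ρ) (b := v.1 - ρ) (c := v.2 + ρ)
    (d := v.2 + 2 * ρ) (by omega) (by omega) Wt Wl (by omega) (by omega) (by omega) (by omega)
    (fun z hz => (t3 z hz).2.2) (fun z hz => ⟨(l3 z hz).1, (l3 z hz).2.1⟩)
  obtain ⟨z3, hz3, hz3'⟩ := frdet_meet h0 (a := v.1 + ρ) (b := v.1 + 2 * ρ) (c := v.2 - 2 * ρ)
    (d := v.2 - ρ) (by omega) (by omega) Wb Wr (by omega) (by omega) (by omega) (by omega)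
    (fun z hz => (b3 z hz).2.2) (fun z hz => ⟨(r3 z hz).1, (r3 z hz).2.1⟩)
  obtain ⟨W1, c1, s1⟩ := join h0 Wt Wr hz1 hz1' Walk.nil
  obtain ⟨W2, c2, s2⟩ := join h0 W1 Wl ((s1 z2).2 (Or.inl hz2)) hz2' Walk.nil
  obtain ⟨W3, c3, s3⟩ := join h0 W2 Wb ((s2 z3).2 (Or.inl ((s1 z3).2 (Or.inr (Or.inl hz3'))))) hz3
    Walk.nil
  have mt : ∀ z ∈ Wt.support, z ∈ W3.support := fun z hz =>
    (s3 z).2 (Or.inl ((s2 z).2 (Or.inl ((s1 z).2 (Or.inl hz)))))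
  have mr : ∀ z ∈ Wr.support, z ∈ W3.support := fun z hz =>
    (s3 z).2 (Or.inl ((s2 z).2 (Or.inl ((s1 z).2 (Or.inr (Or.inl hz))))))
  have ml : ∀ z ∈ Wl.support, z ∈ W3.support := fun z hz =>
    (s3 z).2 (Or.inl ((s2 z).2 (Or.inr (Or.inl hz))))
  have mb : ∀ z ∈ Wb.support, z ∈ W3.support := fun z hz => (s3 z).2 (Or.inr (Or.inl hz))
  have e1 : ((ρ - 1 : ℕ) : ℤ) = ρ - 1 := by omega
  have at' : ∀ z ∈ Wt.support, z ∉ box v (ρ - 1) := fun z hz hb => by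
    obtain ⟨n1, n2, n3, n4⟩ := t3 z hz
    rw [mem_box, e1] at hb; omega
  have ab : ∀ z ∈ Wb.support, z ∉ box v (ρ - 1) := fun z hz hb => by
    obtain ⟨n1, n2, n3, n4⟩ := b3 z hz
    rw [mem_box, e1] at hb; omega
  have al : ∀ z ∈ Wl.support, z ∉ box v (ρ - 1) := fun z hz hb => by
    obtain ⟨n1, n2, n3, n4⟩ := l3 z hz
    rw [mem_box, e1] at hb; omega
  have ar : ∀ z ∈ Wr.support, z ∉ box v (ρ - 1) := fun z hz hb => by
    obtain ⟨n1, n2, n3, n4⟩ := r3 z hz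
    rw [mem_box, e1] at hb; omega
  refine ⟨_, _, W3, ⟨?_, ?_⟩, ?_⟩
  · intro z hz
    rcases (s3 z).1 hz with hz | hz | hz
    · rcases (s2 z).1 hz with hz | hz | hz
      · rcases (s1 z).1 hz with hz | hz | hz
        · exact at' z hz
        · exact ar z hz
        · rw [Walk.support_nil, List.mem_singleton] at hz
          rw [hz]; exact at' _ hz1
      · exact al z hz
      · rw [Walk.support_nil, List.mem_singleton] at hz
        rw [hz]; exact at' _ hz2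
    · exact ab z hz
    · rw [Walk.support_nil, List.mem_singleton] at hz
      rw [hz]; exact ab _ hz3
  · intro x y p hx hy
    obtain ⟨q, P, k2, k3, hq⟩ := frdet_cut h0 v ρ p hx hy
    rw [mem_box] at hx
    clear hy
    have k4 : ∀ z ∈ P.reverse.support, z ∈ P.support := fun z hz => by
      rwa [Walk.support_reverse, List.mem_reverse] at hz
    rcases hq with hq | hq | hq | hq
    · obtain ⟨z, hz, hz'⟩ := frdet_meet h0 (a := v.1 + ρ) (b := v.1 + 2 * ρ) (c := v.2 - 2 * ρ)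
        (d := v.2 + 2 * ρ) (by omega) (by omega) P Wr (by omega) (by omega) (by omega) (by omega)
        (fun z hz => (k3 z hz).2.2) (fun z hz => ⟨(r3 z hz).1, (r3 z hz).2.1⟩)
      exact ⟨z, k2 z hz, mr z hz'⟩
    · obtain ⟨z, hz, hz'⟩ := frdet_meet h0 (a := v.1 - 2 * ρ) (b := v.1 - ρ) (c := v.2 - 2 * ρ)
        (d := v.2 + 2 * ρ) (by omega) (by omega) P.reverse Wl (by omega) (by omega) (by omega)
        (by omega) (fun z hz => (k3 z (k4 z hz)).2.2) (fun z hz => ⟨(l3 z hz).1, (l3 z hz).2.1⟩)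
      exact ⟨z, k2 z (k4 z hz), ml z hz'⟩
    · obtain ⟨z, hz, hz'⟩ := frdet_meet h0 (a := v.1 - 2 * ρ) (b := v.1 + 2 * ρ) (c := v.2 + ρ)
        (d := v.2 + 2 * ρ) (by omega) (by omega) Wt P (by omega) (by omega) (by omega) (by omega)
        (fun z hz => (t3 z hz).2.2) (fun z hz => ⟨(k3 z hz).1, (k3 z hz).2.1⟩)
      exact ⟨z, k2 z hz', mt z hz⟩
    · obtain ⟨z, hz, hz'⟩ := frdet_meet h0 (a := v.1 - 2 * ρ) (b := v.1 + 2 * ρ)
        (c := v.2 - 2 * ρ) (d := v.2 - ρ) (by omega) (by omega) Wb P.reverse (by omega) (by omega)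
        (by omega) (by omega) (fun z hz => (b3 z hz).2.2)
        (fun z hz => ⟨(k3 z (k4 z hz)).1, (k3 z (k4 z hz)).2.1⟩)
      exact ⟨z, k2 z (k4 z hz'), mb z hz⟩
  · rw [cost_nil] at c1 c2 c3
    linarith

theorem Fr.mono {ω ω' : Om} {v : V} {ρ : ℕ} {M M' : ℝ} (hF : Fr ω v ρ M)
    (hle : ∀ e, ω' e ≤ ω e) (hM : M ≤ M') : Fr ω' v ρ M' := by
  obtain ⟨a, b, W, h1, h2⟩ := hF
  exact ⟨a, b, W, h1, (cost_mono W fun e _ => hle e).trans (h2.trans hM)⟩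

end Vale.Agent.P158
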