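import Vale.Agent.P158.HCProb
import Vale.Agent.P158.FrDet

/-!
TASK FrProb: frames of linear cost exist with probability tending to one.
Plan: ρ = N (k+2). strip_prob with N0 = N k, N1 = N (k+1), N2 = N (k+2), m = 8K: width ≥ 4 K ρ (as N2 - N1 ≥ N2/2),
height N1 ≤ ρ ≤ K ρ, cost ≤ (m+1) C ρ + m C ρ ≤ 17 K C ρ, failure ≤ (m+1) p (k+1) + m p k. HC.mono turns it into each of the
two horizontal crossings needed by fr_of_cross at scale K ρ; vc_prob gives the vertical ones. Union bound over the four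
(on pos_ae). First prove the statement for one general K ≥ 1 and all large k, then use it for K and for 1.
-/

namespace Vale.Agent.P158

open MeasureTheory Filter Topology

variable {G : Measure ℝ} [IsProbabilityMeasure G] {h g : ℝ}

theorem frprob_wide (hp : Par G h g) {C : ℝ} (hC : 0 < C) {n0 n1 n2 : ℕ} (h01 : 2 * n0 + 1 ≤ n1)
    (h12 : 2 * n1 + 1 ≤ n2) {p0 p1 : ℝ}
    (hP0 : ∀ a c : ℤ, (mu G).real {ω | ¬ HC ω a (a + n1) c (c + n0) (C * n1)} ≤ p0)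
    (hP1 : ∀ a c : ℤ, (mu G).real {ω | ¬ HC ω a (a + n2) c (c + n1) (C * n2)} ≤ p1)
    {K : ℕ} (hK : 1 ≤ K) (a c : ℤ) :
    (mu G).real {ω | ¬ HC ω a (a + 4 * ((K * n2 : ℕ) : ℤ)) c (c + ((K * n2 : ℕ) : ℤ))
      (17 * C * ((K : ℝ) * n2))} ≤ ((8 * K : ℕ) + 1) * p1 + (8 * K : ℕ) * p0 := by
  have hs := strip_prob hp (N0 := n0) (N1 := n1) (N2 := n2) (by positivity) (by omega) (by omega)
    (by omega) hP0 hP1 (8 * K) a c
  refine le_trans (hcprob_ae ?_) hs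
  filter_upwards [pos_ae hp] with ω hω hA
  intro hB
  apply hA
  have hK' : (1 : ℤ) ≤ K := by exact_mod_cast hK
  have h12' : 2 * (n1 : ℤ) + 1 ≤ n2 := by exact_mod_cast h12
  have hn1 : (0 : ℤ) ≤ n1 := by positivity
  refine HC.mono (fun e => (hω e).le) hB le_rfl ?_ ?_ le_rfl ?_ ?_
  · have : (0 : ℤ) ≤ ((K * n2 : ℕ) : ℤ) := by positivity
    linarith
  · push_cast
    nlinarith
  · push_cast
    nlinarith
  · have hKr : (1 : ℝ) ≤ K := by exact_mod_cast hK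
    have h12r : 2 * (n1 : ℝ) + 1 ≤ n2 := by exact_mod_cast h12
    have hn1r : (0 : ℝ) ≤ n1 := by positivity
    push_cast
    have e1 : (8 * (K : ℝ) + 1) * n2 + 8 * K * n1 ≤ 17 * (K * n2) := by nlinarith
    calc (8 * (K : ℝ) + 1) * (C * n2) + 8 * K * (C * n1)
        = C * ((8 * (K : ℝ) + 1) * n2 + 8 * K * n1) := by ring
      _ ≤ C * (17 * (K * n2)) := by gcongr
      _ = 17 * C * ((K : ℝ) * n2) := by ring

theorem frprob_four (hp : Par G h g) {R : ℕ} (hR : 1 ≤ R) {M q : ℝ}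
    (hH : ∀ a c : ℤ, (mu G).real {ω | ¬ HC ω a (a + 4 * (R : ℤ)) c (c + (R : ℤ)) M} ≤ q) (v : V) :
    (mu G).real {ω | ¬ Fr ω v R (22 * M)} ≤ 4 * q := by
  have hV := vc_prob hH
  have hsub : (mu G).real {ω | ¬ Fr ω v R (22 * M)} ≤ (mu G).real
      (({ω | ¬ HC ω (v.1 - 2 * R) (v.1 - 2 * R + 4 * (R : ℤ)) (v.2 + R) (v.2 + R + (R : ℤ)) M} ∪
        {ω | ¬ HC ω (v.1 - 2 * R) (v.1 - 2 * R + 4 * (R : ℤ)) (v.2 - 2 * R)
          (v.2 - 2 * R + (R : ℤ)) M}) ∪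
       ({ω | ¬ VC ω (v.1 - 2 * R) (v.1 - 2 * R + (R : ℤ)) (v.2 - 2 * R)
          (v.2 - 2 * R + 4 * (R : ℤ)) M} ∪
        {ω | ¬ VC ω (v.1 + R) (v.1 + R + (R : ℤ)) (v.2 - 2 * R)
          (v.2 - 2 * R + 4 * (R : ℤ)) M})) := by
    refine hcprob_ae ?_
    filter_upwards [pos_ae hp] with ω hω hA
    by_contra hB
    simp only [Set.mem_union, Set.mem_ofPred_eq, not_or, not_not] at hB
    obtain ⟨⟨h1, h2⟩, h3, h4⟩ := hB
    apply hA
    have e1 : v.1 - 2 * (R : ℤ) + 4 * R = v.1 + 2 * R := by ring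
    have e2 : v.2 + (R : ℤ) + R = v.2 + 2 * R := by ring
    have e3 : v.2 - 2 * (R : ℤ) + R = v.2 - R := by ring
    have e4 : v.1 - 2 * (R : ℤ) + R = v.1 - R := by ring
    have e5 : v.2 - 2 * (R : ℤ) + 4 * R = v.2 + 2 * R := by ring
    have e6 : v.1 + (R : ℤ) + R = v.1 + 2 * R := by ring
    rw [e1, e2] at h1
    rw [e1, e3] at h2
    rw [e4, e5] at h3
    rw [e6, e5] at h4
    exact fr_of_cross (fun e => (hω e).le) v hR h1 h2 h3 h4
  refine hsub.trans ((measureReal_union_le _ _).trans ?_)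
  have a1 := (measureReal_union_le (μ := mu G) _ _).trans (add_le_add
    (hH (v.1 - 2 * R) (v.2 + R)) (hH (v.1 - 2 * R) (v.2 - 2 * R)))
  have a2 := (measureReal_union_le (μ := mu G) _ _).trans (add_le_add
    (hV (v.1 - 2 * R) (v.2 - 2 * R)) (hV (v.1 + R) (v.2 - 2 * R)))
  linarith

theorem fr_prob (hp : Par G h g) : ∃ C : ℝ, 0 < C ∧ ∀ K : ℕ, 1 ≤ K → ∀ ε : ℝ, 0 < ε →
    ∀ ρ0 : ℕ, ∃ ρ : ℕ, ρ0 ≤ ρ ∧ ∀ v : V, (mu G).real {ω | ¬ Fr ω v ρ (C * ρ)} ≤ ε ∧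
      (mu G).real {ω | ¬ Fr ω v (K * ρ) (C * (K * ρ))} ≤ ε := by
  obtain ⟨C, hC, N, hN0, hN, p, hp0, hP⟩ := hc_prob hp
  refine ⟨22 * (17 * C), by positivity, fun K hK ε hε ρ0 => ?_⟩
  have hgrow : ∀ k, k ≤ N k := by
    intro k
    induction k with
    | zero => omega
    | succ k ih => have := hN k; omega
  have key : ∀ L : ℕ, 1 ≤ L → ∀ k : ℕ, ∀ v : V, (mu G).real
      {ω | ¬ Fr ω v (L * N (k + 2)) (22 * (17 * C) * ((L : ℝ) * N (k + 2)))} ≤
      4 * (((8 * L : ℕ) + 1) * p (k + 1) + (8 * L : ℕ) * p k) := by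
    intro L hL k v
    have hw := frprob_wide hp hC (hN k) (hN (k + 1)) (hP k) (hP (k + 1)) hL
    have hR : 1 ≤ L * N (k + 2) := by
      have := hgrow (k + 2)
      exact Nat.mul_pos hL (by omega)
    have := frprob_four hp hR hw v
    rwa [← mul_assoc 22 (17 * C)] at this
  have hlim : ∀ L : ℕ, Tendsto (fun k => 4 * (((8 * L : ℕ) + 1) * p (k + 1) + (8 * L : ℕ) * p k))
      atTop (𝓝 (0 : ℝ)) := by
    intro L
    have h1 : Tendsto (fun k => p (k + 1)) atTop (𝓝 0) := hp0.comp (tendsto_add_atTop_nat 1)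
    have := ((h1.const_mul (((8 * L : ℕ) : ℝ) + 1)).add (hp0.const_mul ((8 * L : ℕ) : ℝ))).const_mul 4
    simpa using this
  have e1 := (hlim 1).eventually (ge_mem_nhds hε)
  have e2 := (hlim K).eventually (ge_mem_nhds hε)
  obtain ⟨k, hk1, hk2, hk3⟩ := (e1.and (e2.and (eventually_ge_atTop ρ0))).exists
  refine ⟨N (k + 2), by have := hgrow (k + 2); omega, fun v => ⟨?_, (key K hK k v).trans hk2⟩⟩
  have := (key 1 le_rfl k v).trans hk1
  simpa only [one_mul, Nat.cast_one] using this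

end Vale.Agent.P158
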