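import Vale.Agent.P158.Fwd
import Vale.Agent.P158.FrProb

/-!
TASK LenL: long geodesics have linearly many vertices in a box; chains of lonely vertices.
Plan. len_of: let Z be the set of z in the box between y and x. For z in Z, geodesic walks from z to x and from z to y meet
the frame W at f2, f1 (IsFr, T_add_of_mem_geo), and T y x ≤ T y f1 + T f1 f2 + T f2 x gives T z f1 + T z f2 ≤ M.
So T z z' ≤ 3M on Z. All z in Z are iterates of y under fwd ω x (Reg.between); take the one z1 with the smallest index,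
every z is fwd^[n] z1 with no earlier visit to x; fwd_walk is a path of length n and cost T z1 z ≤ 3M, so n < ρ or
a n ≤ 3M < a L. Hence Z is inside the image of range L.
lone_cnt: among the lonely u in the box take u0 maximising T u x; any other u is in box u0 (2ρ), comparable, hence
u = fwd^[n] u0 (T_iter, T_pos); back_far gives y outside the doubled box with u0 between y and x; then u is between too.
len_prob: fr_prob (K = 1), pei_box, Pei.peiT (a = h/2), reg_ae; CL > 6C/h + 1.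
-/

namespace Vale.Agent.P158

open MeasureTheory

theorem lenl_hit {h : ℝ} {ω : Om} (hR : Reg h ω) {v a b x z : V} {ρ : ℕ} {W : grid.Walk a b}
    (hW : IsFr v ρ W) (hz : z ∈ box v ρ) (hx : x ∉ box v (2 * ρ)) :
    ∃ f ∈ W.support, T ω z x = T ω z f + T ω f x := by
  obtain ⟨p, -, hp⟩ := hR.geo z x
  obtain ⟨f, h1, h2⟩ := hW.2 z x p hz hx
  exact ⟨f, h2, T_add_of_mem_geo hR.nn p hp h1⟩

theorem lenl_near {h : ℝ} {ω : Om} (hR : Reg h ω) {v a b x y z : V} {ρ : ℕ} {W : grid.Walk a b}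
    (hW : IsFr v ρ W) (hz : z ∈ box v ρ) (hx : x ∉ box v (2 * ρ)) (hy : y ∉ box v (2 * ρ))
    (hT : T ω y x = T ω y z + T ω z x) : ∃ f ∈ W.support, T ω z f ≤ cost ω W := by
  obtain ⟨f1, a1, b1⟩ := lenl_hit hR hW hz hy
  obtain ⟨f2, a2, b2⟩ := lenl_hit hR hW hz hx
  refine ⟨f1, a1, ?_⟩
  have h1 := T_triangle hR.nn y f1 x
  have h2 := T_triangle hR.nn f1 f2 x
  have h3 := T_le_of_mem_support hR.nn W a1 a2
  have h4 := T_comm ω y z
  have h5 := T_comm ω y f1
  have h6 := T_nonneg hR.nn z f2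
  linarith

theorem len_of {h : ℝ} {ω : Om} (hR : Reg h ω) {v : V} {ρ L : ℕ} {M a : ℝ} (hF : Fr ω v ρ M)
    (ha : 0 < a) (hP : ∀ z ∈ box v ρ, PeiT ω a z ρ) (h1 : ρ ≤ L) (h2 : 3 * M < a * L) :
    Len ω v ρ L := by
  classical
  obtain ⟨a0, b0, W, hW, hM⟩ := hF
  intro x y hx hy
  rw [cnt_eq]
  by_cases hne : ∃ n : ℕ, (fwd ω x)^[n] y ∈ box v ρ ∧
      T ω y x = T ω y ((fwd ω x)^[n] y) + T ω ((fwd ω x)^[n] y) x
  swap
  · have : (box v ρ).filter (fun z => T ω y x = T ω y z + T ω z x) = ∅ := by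
      refine Finset.filter_eq_empty_iff.2 fun z hz hT => hne ?_
      obtain ⟨n, rfl⟩ := hR.between hT
      exact ⟨n, hz, hT⟩
    rw [this]
    exact Nat.zero_le _
  obtain ⟨hz1, hT1⟩ := Nat.find_spec hne
  set z1 := (fwd ω x)^[Nat.find hne] y with hz1d
  have hsub : (box v ρ).filter (fun z => T ω y x = T ω y z + T ω z x) ⊆
      (Finset.range L).image fun k => (fwd ω x)^[k] z1 := by
    intro z hz
    obtain ⟨hz, hT⟩ := Finset.mem_filter.1 hz
    obtain ⟨n, hn⟩ := hR.between hT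
    have hle : Nat.find hne ≤ n := Nat.find_min' hne (by rw [hn]; exact ⟨hz, hT⟩)
    obtain ⟨m, rfl⟩ := Nat.exists_eq_add_of_le' hle
    rw [Function.iterate_add_apply, ← hz1d] at hn
    refine Finset.mem_image.2 ⟨m, Finset.mem_range.2 ?_, hn⟩
    have hnx : ∀ k < m, (fwd ω x)^[k] z1 ≠ x := by
      intro k hk he
      obtain ⟨d, rfl⟩ := Nat.exists_eq_add_of_le' hk.le
      rw [Function.iterate_add_apply, he, Function.iterate_fixed (hR.fwd_self x)] at hn
      exact hx (hn ▸ box_mono hz (by omega))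
    obtain ⟨p, hp1, hp2, hp3, -⟩ := hR.fwd_walk hnx
    rcases lt_or_ge m ρ with h3 | h3
    · omega
    have h4 := hP z1 hz1 _ p hp1 (by rw [hp2]; exact h3)
    rw [hp2, hp3, hn] at h4
    obtain ⟨f1, a1, b1⟩ := lenl_near hR hW hz1 hx hy hT1
    obtain ⟨f2, a2, b2⟩ := lenl_near hR hW hz hx hy hT
    have h5 := T_triangle hR.nn z1 f1 z
    have h6 := T_triangle hR.nn f1 f2 z
    have h7 := T_le_of_mem_support hR.nn W a1 a2
    have h8 := T_comm ω f2 z
    have h9 : a * m < a * L := by linarith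
    exact_mod_cast lt_of_mul_lt_mul_left h9 ha.le
  refine (Finset.card_le_card hsub).trans (Finset.card_image_le.trans ?_)
  rw [Finset.card_range]

theorem lone_cnt {h : ℝ} {ω : Om} (hR : Reg h ω) {v x : V} {ρ L : ℕ} (hL : Len ω v ρ L)
    (hx : x ∉ box v (2 * ρ)) :
    cnt (box v ρ) (Lone (fwd ω x) (Back ω x) (2 * ρ)) ≤ L := by
  classical
  rw [cnt_eq]
  rcases ((box v ρ).filter (Lone (fwd ω x) (Back ω x) (2 * ρ))).eq_empty_or_nonempty with he | hne
  · rw [he]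
    exact Nat.zero_le _
  obtain ⟨u0, hu0, hmax⟩ := Finset.exists_max_image _ (fun u => T ω u x) hne
  obtain ⟨hb0, hl0⟩ := Finset.mem_filter.1 hu0
  obtain ⟨y, hy, hT⟩ := hR.back_far hl0.1 (box v (2 * ρ))
  have h1 := hL x y hx hy
  rw [cnt_eq] at h1
  refine (Finset.card_le_card fun u hu => ?_).trans h1
  obtain ⟨hb, hl⟩ := Finset.mem_filter.1 hu
  refine Finset.mem_filter.2 ⟨hb, ?_⟩
  have h2 : T ω u0 x = T ω u0 u + T ω u x := by
    obtain ⟨n, hn | hn⟩ := hl0.2 u (box_mono (box_trans (box_symm hb0) hb) (by omega)) hl.1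
    · have h3 := hR.T_iter x u0 n
      rwa [hn] at h3
    · have h3 := hR.T_iter x u n
      rw [hn] at h3
      have h4 : T ω u x ≤ T ω u0 x := hmax u hu
      obtain rfl : u = u0 := by
        by_contra hc
        linarith [hR.T_pos hc]
      rw [T_self hR.nn, zero_add]
  have h3 := T_triangle hR.nn y u0 u
  have h4 := T_triangle hR.nn y u x
  linarith

theorem len_prob {G : Measure ℝ} [IsProbabilityMeasure G] {h g : ℝ} (hp : Par G h g) :
    ∃ CL : ℕ, ∀ ε : ℝ, 0 < ε → ∀ ρ0 : ℕ, ∃ ρ : ℕ, ρ0 ≤ ρ ∧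
      ∀ v : V, (mu G).real {ω | ¬ Len ω v ρ (CL * ρ)} ≤ ε := by
  obtain ⟨C, hC, hF⟩ := fr_prob hp
  have hh := hp.h_pos
  obtain ⟨N, hN⟩ := exists_nat_gt (6 * C / h)
  refine ⟨N + 1, fun ε hε ρ0 => ?_⟩
  obtain ⟨ρ1, hρ1⟩ := pei_box hp (half_pos hε)
  obtain ⟨ρ, hρ, hfr⟩ := hF 1 le_rfl (ε / 2) (half_pos hε) (max (max ρ0 ρ1) 1)
  refine ⟨ρ, by omega, fun v => ?_⟩
  have h1 : (mu G).real {ω | ¬ Len ω v ρ ((N + 1) * ρ)} ≤
      (mu G).real ({ω | ¬ Fr ω v ρ (C * ρ)} ∪ {ω | ∃ z ∈ box v ρ, ¬ Pei ω h z ρ}) := by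
    refine hcprob_ae ?_
    filter_upwards [reg_ae hp] with ω hR hω
    by_contra hc
    simp only [Set.mem_union, Set.mem_ofPred_eq, not_or, not_not, not_exists, not_and] at hc
    refine hω (len_of hR hc.1 (half_pos hh) (fun z hz => (hc.2 z hz).peiT hR.nn hh.le)
      (Nat.le_mul_of_pos_left _ (Nat.succ_pos _)) ?_)
    have h2 : (0 : ℝ) < ρ := by exact_mod_cast (by omega : 0 < ρ)
    have h3 : 6 * C < N * h := (div_lt_iff₀ hh).1 hN
    push_cast
    nlinarith [mul_pos hh h2, mul_lt_mul_of_pos_right h3 h2]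
  refine h1.trans ((measureReal_union_le _ _).trans ?_)
  linarith [(hfr v).1, hρ1 ρ (by omega) v]

end Vale.Agent.P158
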