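import Vale.Agent.P158.Forest
import Vale.Agent.P158.LenL
import Vale.Agent.P158.Count

/-!
TASK FDens: density bounds for the exceptional vertices of Lemma F.
(2 l + 1)^2 ≤ 9 l^2 for l ≥ 1. dens_pt: sum of a constant. dens_near: the event is empty unless u is in box x r, at most
(2r+1)^2 terms each ≤ 1. dens_uncl: count_off with C = ∅ (or count_master), uncl_cnt, Reg.forest, null_clean.compl; the bound is
linear in l. dens_root: root_cnt, meas_root; for l ≥ R + J + 1 the bound is ≤ 25 l^2. For the neighbourhood version: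
measure of a union ≤ sum over w in box u J, exchange the sums (each w in box 0 (l+J) occurs for at most (2J+1)^2 vertices u).
dens_lone: (2ρ+1)^2 * sum over u in box 0 l ≤ sum over v in box 0 (l+ρ) of sum over u in box v ρ; for x outside
box v (2ρ) the inner sum is ≤ CL ρ + (2ρ+1)^2 ε1 (count_off with C = not Len, lone_cnt, null_lone); at most (4ρ+1)^2
vertices v are near x, there the inner sum is ≤ (2ρ+1)^2. Choose ρ large (len_prob) so that CL ρ / (2ρ+1)^2 ≤ ε / 100.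
-/

namespace Vale.Agent.P158

open MeasureTheory

variable {G : Measure ℝ} [IsProbabilityMeasure G] {h g : ℝ}

theorem fdens_lin (a b : ℝ) {ε : ℝ} (hε : 0 < ε) :
    ∃ l0 : ℕ, ∀ l : ℕ, l0 ≤ l → a * l + b ≤ ε * (l : ℝ) ^ 2 := by
  obtain ⟨n, hn⟩ := exists_nat_ge ((|a| + |b|) / ε)
  refine ⟨n + 1, fun l hl => ?_⟩
  have h1 : (n : ℝ) + 1 ≤ l := by exact_mod_cast hl
  have h0 : (0 : ℝ) ≤ n := Nat.cast_nonneg n
  have h2 : |a| + |b| ≤ ε * l := by
    rw [div_le_iff₀ hε] at hn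
    nlinarith
  have h3 : a * l ≤ |a| * l := mul_le_mul_of_nonneg_right (le_abs_self a) (by linarith)
  have h4 : b ≤ |b| * l := by
    have := le_abs_self b
    have := abs_nonneg b
    nlinarith
  have h5 : (|a| + |b|) * l ≤ ε * l * l := mul_le_mul_of_nonneg_right h2 (by linarith)
  nlinarith

theorem fdens_swap (l r : ℕ) (F : V → V → ℝ) :
    ∑ u ∈ box 0 l, ∑ w ∈ box u r, F u w =
      ∑ w ∈ box 0 (l + r), ∑ u ∈ box 0 l ∩ box w r, F u w := by
  refine Finset.sum_comm' fun u w => ?_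
  rw [Finset.mem_inter]
  constructor
  · rintro ⟨h1, h2⟩
    exact ⟨⟨h1, box_symm h2⟩, box_trans h1 h2⟩
  · rintro ⟨⟨h1, h2⟩, _⟩
    exact ⟨h1, box_symm h2⟩

theorem fdens_up (l r : ℕ) (f : V → ℝ) (hf : ∀ w, 0 ≤ f w) :
    ∑ u ∈ box 0 l, ∑ w ∈ box u r, f w ≤ (2 * r + 1) ^ 2 * ∑ w ∈ box 0 (l + r), f w := by
  rw [fdens_swap l r fun _ w => f w, Finset.mul_sum]
  refine Finset.sum_le_sum fun w _ => ?_
  rw [Finset.sum_const, nsmul_eq_mul]
  refine mul_le_mul_of_nonneg_right ?_ (hf w)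
  have h1 : (box 0 l ∩ box w r).card ≤ (2 * r + 1) ^ 2 := by
    rw [← card_box w r]
    exact Finset.card_le_card Finset.inter_subset_right
  exact_mod_cast h1

theorem fdens_avg (l r : ℕ) (f : V → ℝ) (hf : ∀ w, 0 ≤ f w) :
    (2 * r + 1) ^ 2 * ∑ u ∈ box 0 l, f u ≤ ∑ v ∈ box 0 (l + r), ∑ u ∈ box v r, f u := by
  have h1 : (2 * r + 1) ^ 2 * ∑ u ∈ box 0 l, f u = ∑ u ∈ box 0 l, ∑ _w ∈ box u r, f u := by
    rw [Finset.mul_sum]
    refine Finset.sum_congr rfl fun u _ => ?_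
    rw [Finset.sum_const, nsmul_eq_mul, card_box]
    push_cast
    ring
  rw [h1, fdens_swap l r fun u _ => f u]
  refine Finset.sum_le_sum fun v _ => ?_
  exact Finset.sum_le_sum_of_subset_of_nonneg Finset.inter_subset_right fun u _ _ => hf u

theorem fdens_near (s : Finset V) (x : V) (r : ℕ) {c : ℝ} (hc : 0 ≤ c) :
    ∑ u ∈ s, (if x ∈ box u r then c else 0) ≤ (2 * r + 1) ^ 2 * c := by
  rw [← Finset.sum_filter, Finset.sum_const, nsmul_eq_mul]
  refine mul_le_mul_of_nonneg_right ?_ hc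
  have h1 : (s.filter fun u => x ∈ box u r).card ≤ (2 * r + 1) ^ 2 := by
    rw [← card_box x r]
    refine Finset.card_le_card fun u hu => ?_
    exact box_symm (Finset.mem_filter.1 hu).2
  exact_mod_cast h1

theorem dens_pt {A : V → V → Om → Prop} {ε : ℝ}
    (hA : ∀ x u, (mu G).real {ω | A x u ω} ≤ ε) : Dens G A (9 * ε) := by
  have hε : 0 ≤ ε := measureReal_nonneg.trans (hA 0 0)
  refine ⟨1, fun l hl x => ?_⟩
  have h1 : (1 : ℝ) ≤ l := by exact_mod_cast hl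
  calc ∑ u ∈ box 0 l, (mu G).real {ω | A x u ω} ≤ ∑ _u ∈ box 0 l, ε :=
        Finset.sum_le_sum fun u _ => hA x u
    _ = (2 * l + 1) ^ 2 * ε := by
        rw [Finset.sum_const, nsmul_eq_mul, card_box]; push_cast; ring
    _ ≤ (3 * l) ^ 2 * ε := by
        refine mul_le_mul_of_nonneg_right ?_ hε
        exact pow_le_pow_left₀ (by linarith) (by linarith) 2
    _ = 9 * ε * (l : ℝ) ^ 2 := by ring

theorem dens_near (G : Measure ℝ) [IsProbabilityMeasure G] (r : ℕ) {ε : ℝ} (hε : 0 < ε) :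
    Dens G (fun x u _ => x ∈ box u r) ε := by
  obtain ⟨l0, hl0⟩ := fdens_lin 0 ((2 * r + 1) ^ 2 * 1) hε
  refine ⟨l0, fun l hl x => ?_⟩
  have h1 := hl0 l hl
  have h2 := fdens_near (box 0 l) x r zero_le_one
  have h3 : ∑ u ∈ box 0 l, (mu G).real {_ω | x ∈ box u r} ≤
      ∑ u ∈ box 0 l, (if x ∈ box u r then (1 : ℝ) else 0) := by
    refine Finset.sum_le_sum fun u _ => ?_
    split_ifs with hx
    · exact measureReal_le_one
    · simp [hx]
  linarith

theorem dens_uncl (hp : Par G h g) (R : ℕ) {ε : ℝ} (hε : 0 < ε) :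
    Dens G (fun x u ω => ¬ Clean (fwd ω x) (Back ω x) R u) ε := by
  obtain ⟨l0, hl0⟩ := fdens_lin ((2 * R + 1) ^ 2 * 8) ((2 * R + 1) ^ 2 * (8 * (R + 1))) hε
  refine ⟨l0, fun l hl x => ?_⟩
  have h1 := hl0 l hl
  have h2 := count_off (μ := mu G) (box 0 l)
    (fun u => {ω | ¬ Clean (fwd ω x) (Back ω x) R u}) (fun u _ => (null_clean G x u R).compl) ∅
    ((2 * R + 1) ^ 2 * (8 * (l + R + 1))) (by positivity) (by
      filter_upwards [reg_ae hp] with ω hR _
      have := uncl_cnt (hR.forest x) l R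
      exact_mod_cast this)
  rw [measureReal_empty, mul_zero, add_zero] at h2
  refine h2.trans (le_trans (le_of_eq ?_) h1)
  ring

theorem dens_root (G : Measure ℝ) [IsProbabilityMeasure G] (K R J : ℕ) :
    Dens G (fun x u ω => ∃ w ∈ box u J, Root (fwd ω x) K R w)
      ((2 * J + 1) ^ 2 * (25 * (8 * K + 1) ^ 2 / (R + 1))) := by
  refine ⟨R + J + 1, fun l hl x => ?_⟩
  have hl' : (R : ℝ) + J + 1 ≤ l := by exact_mod_cast hl
  have hR0 : (0 : ℝ) ≤ R := Nat.cast_nonneg R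
  have hJ0 : (0 : ℝ) ≤ J := Nat.cast_nonneg J
  have hR1 : (0 : ℝ) < R + 1 := by linarith
  have h1 : ∑ u ∈ box 0 l, (mu G).real {ω | ∃ w ∈ box u J, Root (fwd ω x) K R w} ≤
      ∑ u ∈ box 0 l, ∑ w ∈ box u J, (mu G).real {ω | Root (fwd ω x) K R w} := by
    refine Finset.sum_le_sum fun u _ => ?_
    have e : {ω | ∃ w ∈ box u J, Root (fwd ω x) K R w} =
        ⋃ w ∈ box u J, {ω | Root (fwd ω x) K R w} := by
      ext ω; simp
    rw [e]
    exact measureReal_biUnion_finset_le _ _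
  have h2 := fdens_up l J (fun w => (mu G).real {ω | Root (fwd ω x) K R w})
    fun _ => measureReal_nonneg
  have h3 := count_off (μ := mu G) (box 0 (l + J))
    (fun w => {ω | Root (fwd ω x) K R w}) (fun w _ => (meas_root x w K R).nullMeasurableSet) ∅
    ((8 * K + 1) ^ 2 * (2 * ((l + J : ℕ) + R) + 1) ^ 2 / (R + 1)) (by positivity) (by
      refine Filter.Eventually.of_forall fun ω _ => ?_
      have := root_cnt (fwd_mem_box ω x) K R (l + J)
      rw [le_div_iff₀ hR1, mul_comm]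
      exact_mod_cast this)
  rw [measureReal_empty, mul_zero, add_zero] at h3
  have h4 : ((8 * K + 1) ^ 2 * (2 * ((l + J : ℕ) + R) + 1) ^ 2 / (R + 1) : ℝ) ≤
      25 * (8 * K + 1) ^ 2 / (R + 1) * (l : ℝ) ^ 2 := by
    have h5 : ((2 * ((l + J : ℕ) + R) + 1) ^ 2 : ℝ) ≤ (5 * l) ^ 2 := by
      push_cast
      exact pow_le_pow_left₀ (by linarith) (by linarith) 2
    calc ((8 * K + 1) ^ 2 * (2 * ((l + J : ℕ) + R) + 1) ^ 2 / (R + 1) : ℝ)
        ≤ (8 * K + 1) ^ 2 * (5 * l) ^ 2 / (R + 1) := by gcongr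
      _ = 25 * (8 * K + 1) ^ 2 / (R + 1) * (l : ℝ) ^ 2 := by ring
  refine h1.trans (h2.trans ?_)
  rw [mul_assoc]
  exact mul_le_mul_of_nonneg_left (h3.trans h4) (by positivity)

theorem dens_lone (hp : Par G h g) {ε : ℝ} (hε : 0 < ε) :
    ∃ D : ℕ, Dens G (fun x u ω => Lone (fwd ω x) (Back ω x) D u) ε := by
  obtain ⟨CL, hCL⟩ := len_prob hp
  have hε1 : 0 < ε / 100 := by positivity
  obtain ⟨ρ0, hρ0⟩ := fdens_lin CL 0 hε1
  obtain ⟨ρ, hρ, hlen⟩ := hCL (ε / 100) hε1 ρ0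
  have hρ1 := hρ0 ρ hρ
  obtain ⟨l0, hl0⟩ := fdens_lin 0 ((2 * (2 * ρ : ℕ) + 1) ^ 2) (half_pos hε)
  refine ⟨2 * ρ, max l0 (ρ + 1), fun l hl x => ?_⟩
  have hl1 := hl0 l ((le_max_left _ _).trans hl)
  have hl2 : (ρ : ℝ) + 1 ≤ l := by exact_mod_cast (le_max_right _ _).trans hl
  have hρ2 : (0 : ℝ) ≤ ρ := Nat.cast_nonneg ρ
  set N : ℝ := (2 * ρ + 1) ^ 2 with hN
  have hNpos : 0 < N := by positivity
  have hN1 : (CL : ℝ) * ρ ≤ N * (ε / 100) := by
    have : (ρ : ℝ) ^ 2 ≤ N := pow_le_pow_left₀ hρ2 (by linarith) 2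
    nlinarith
  have h1 := fdens_avg l ρ (fun u => (mu G).real {ω | Lone (fwd ω x) (Back ω x) (2 * ρ) u})
    fun _ => measureReal_nonneg
  have h2 : ∀ v : V, ∑ u ∈ box v ρ, (mu G).real {ω | Lone (fwd ω x) (Back ω x) (2 * ρ) u} ≤
      N * (ε / 50) + if x ∈ box v (2 * ρ) then N else 0 := by
    intro v
    split_ifs with hx
    · have : ∑ u ∈ box v ρ, (mu G).real {ω | Lone (fwd ω x) (Back ω x) (2 * ρ) u} ≤
          ∑ _u ∈ box v ρ, (1 : ℝ) := Finset.sum_le_sum fun u _ => measureReal_le_one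
      rw [Finset.sum_const, nsmul_eq_mul, card_box] at this
      push_cast at this
      have h3 : 0 ≤ N * (ε / 50) := by positivity
      linarith
    · have h3 := count_off (μ := mu G) (box v ρ)
        (fun u => {ω | Lone (fwd ω x) (Back ω x) (2 * ρ) u}) (fun u _ => null_lone G x u (2 * ρ))
        {ω | ¬ Len ω v ρ (CL * ρ)} (CL * ρ) (by positivity) (by
          filter_upwards [reg_ae hp] with ω hR hω
          have := lone_cnt hR (not_not.1 hω) hx
          exact_mod_cast this)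
      rw [card_box] at h3
      push_cast at h3
      have h4 : N * (mu G).real {ω | ¬ Len ω v ρ (CL * ρ)} ≤ N * (ε / 100) :=
        mul_le_mul_of_nonneg_left (hlen v) hNpos.le
      linarith
  have h3 := Finset.sum_le_sum fun v (_ : v ∈ box 0 (l + ρ)) => h2 v
  rw [Finset.sum_add_distrib, Finset.sum_const, nsmul_eq_mul, card_box] at h3
  have h4 := fdens_near (box 0 (l + ρ)) x (2 * ρ) hNpos.le
  have h5 : (((2 * (l + ρ) + 1) ^ 2 : ℕ) : ℝ) ≤ (4 * l) ^ 2 := by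
    push_cast
    exact pow_le_pow_left₀ (by linarith) (by linarith) 2
  have h6 : (((2 * (l + ρ) + 1) ^ 2 : ℕ) : ℝ) * (N * (ε / 50)) ≤ (4 * l) ^ 2 * (N * (ε / 50)) :=
    mul_le_mul_of_nonneg_right h5 (by positivity)
  have h7 : (2 * ((2 * ρ : ℕ) : ℝ) + 1) ^ 2 * N ≤ ε / 2 * (l : ℝ) ^ 2 * N :=
    mul_le_mul_of_nonneg_right (by linarith) hNpos.le
  have h8 : 0 ≤ N * (ε * (l : ℝ) ^ 2) := by positivity
  refine le_of_mul_le_mul_left ?_ hNpos
  nlinarith

end Vale.Agent.P158
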