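import Vale.Agent.P158.Low

/-!
TASK FMod: the modification of Lemma F (deterministic). f = fwd ω x, f' = fwd ω' x, u_a = f^[a] u, u'_n = f^[n] u',
gain y = T ω y x - T ω' y x ≥ 0.
gain_fwd: T' y ≤ ω' e + T' (f y) ≤ ω e + T (f y) - gain (f y). gain_zero: the same chain is an equality, so
Step ω' x y (f y). gain_drop: Step ω' x y z, gain z = 0, ω' e = ω e give T' y = ω e + T z ≥ T y.
no_meet: take n minimal, then a minimal with u_a = u'_n; n = 0 or a = 0 contradict incomparability, otherwise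
u_(a-1) and u'_(n-1) are different B-predecessors (Forest.clos) of u'_n, different from it (minimality, Inj).
fmod: S = high edges among the first s edges of the path fwd_walk from u (inside ebox u' (D+s)); Γ = total gain is
> g s / 2 > 8 D M1 and ≤ s M2. gain u' > 0: T' u' x ≤ T u' u + T u x - Γ (cost_low_path), T u x ≤ T u u' + T u' x, Loc.T_le.
gain u'_J = 0: else T_low_lt gives q in box u' (D+s) with T' y x = T' y q + T' q x, T_low_ge twice, T_iter: T u' u'_J <
T u' q + Γ ≤ 4 (D+s) M2 + s M2, while T u' u'_J ≥ h J / 2 (fwd_walk, Pei). So f'^[i] w = u'_(J+i) with gain 0.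
Root: Inj by inj_of_far for ω'. Let f'^[d] y = u'_(J+i). If gain y > 0 there is k < d with gain y_k > 0 = gain y_(k+1), so (gain_drop)
y_(k+1) = u_a, from there f' = f, and u'_(J+i) is an iterate of u: contradiction with no_meet. So gain y = 0 and f'^[k] y = f^[k] y.
Let j ≤ d be minimal with f^[j] y = u'_n for some n ≤ J+i; n ≥ 1 as gain u' > 0; d - j = J + i - n (iter_inj).
If j ≥ 1 then f^[j-1] y is not in B (Clean), so 2 j ≤ 2K + n (not Spoil). If i = 0: 2d ≤ 2K + 2J. If i ≥ 1 and the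
predecessors differ then d = j, n = J + i.
-/

namespace Vale.Agent.P158

variable {h : ℝ} {ω ω' : Om} {x : V}

theorem gain_fwd (hR : Reg h ω) (h0 : ∀ e, 0 ≤ ω' e) (hle : ∀ e, ω' e ≤ ω e) (y : V) :
    T ω (fwd ω x y) x - T ω' (fwd ω x y) x ≤ T ω y x - T ω' y x := by
  by_cases hyx : y = x
  · subst hyx
    rw [hR.fwd_self]
  · obtain ⟨ha, hs⟩ := hR.fwd_step hyx
    have h1 := T_triangle h0 y (fwd ω x y) x
    have h2 := T_le_edge h0 ha
    have h3 := hle s(y, fwd ω x y)
    linarith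

theorem fmod_one (hR : Reg h ω) (hR' : Reg h ω') (hle : ∀ e, ω' e ≤ ω e) {y : V}
    (hy : T ω' y x = T ω y x) :
    fwd ω' x y = fwd ω x y ∧ T ω' (fwd ω x y) x = T ω (fwd ω x y) x := by
  by_cases hyx : y = x
  · subst hyx
    rw [hR.fwd_self, hR'.fwd_self]
    exact ⟨rfl, hy⟩
  · obtain ⟨ha, hs⟩ := hR.fwd_step hyx
    have h1 := T_triangle hR'.nn y (fwd ω x y) x
    have h2 := T_le_edge hR'.nn ha
    have h3 := hle s(y, fwd ω x y)
    have h4 := T_mono hR'.nn hle (fwd ω x y) x
    exact ⟨hR'.fwd_eq ⟨ha, by linarith⟩, by linarith⟩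

theorem gain_zero (hR : Reg h ω) (hR' : Reg h ω') (hle : ∀ e, ω' e ≤ ω e) {y : V}
    (hy : T ω' y x = T ω y x) (n : ℕ) :
    (fwd ω' x)^[n] y = (fwd ω x)^[n] y ∧
      T ω' ((fwd ω x)^[n] y) x = T ω ((fwd ω x)^[n] y) x := by
  induction n with
  | zero => exact ⟨rfl, hy⟩
  | succ n ih =>
    obtain ⟨h1, h2⟩ := ih
    obtain ⟨h3, h4⟩ := fmod_one hR hR' hle h2
    rw [Function.iterate_succ_apply', Function.iterate_succ_apply', h1]
    exact ⟨h3, h4⟩

theorem gain_drop (hR : Reg h ω) (hR' : Reg h ω') {y : V}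
    (hy : T ω' y x < T ω y x) (hz : T ω' (fwd ω' x y) x = T ω (fwd ω' x y) x) :
    ω' s(y, fwd ω' x y) ≠ ω s(y, fwd ω' x y) := by
  intro he
  have hyx : y ≠ x := by
    rintro rfl
    rw [T_self hR.nn, T_self hR'.nn] at hy
    exact lt_irrefl _ hy
  obtain ⟨ha, hs⟩ := hR'.fwd_step hyx
  have h1 := T_triangle hR.nn y (fwd ω' x y) x
  have h2 := T_le_edge hR.nn ha
  linarith

theorem fmod_iterB {f : V → V} {B : V → Prop} (hF : Forest f B) {u : V} (hu : B u) (n : ℕ) :
    B (f^[n] u) := by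
  induction n with
  | zero => exact hu
  | succ n ih =>
    rw [Function.iterate_succ_apply']
    exact hF.clos _ ih

theorem no_meet {f : V → V} {B : V → Prop} (hF : Forest f B) {u u' : V} {R : ℕ} (hu : B u)
    (hu' : B u') (hc : ¬ Cmp f u' u) (hC : Clean f B R u') (hI : Inj f R u') (a n : ℕ)
    (hn : n ≤ R) : f^[a] u ≠ f^[n] u' := by
  induction n generalizing a with
  | zero => exact fun he => hc ⟨a, Or.inr he⟩
  | succ n ih =>
    induction a with
    | zero => exact fun he => hc ⟨n + 1, Or.inl he.symm⟩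
    | succ a iha =>
      intro he
      refine hC (n + 1) (by omega) hn ⟨f^[a] u, f^[n] u', fmod_iterB hF hu a,
        fmod_iterB hF hu' n, ih a (by omega), iha, ?_, ?_, ?_⟩
      · intro h2
        have := hI n (n + 1) (by omega) hn h2
        omega
      · rw [← he, Function.iterate_succ_apply']
      · rw [Function.iterate_succ_apply']

theorem fmod_cross {P : ℕ → Prop} {d : ℕ} (h0 : ¬ P 0) (hd : P d) :
    ∃ k < d, ¬ P k ∧ P (k + 1) := by
  induction d with
  | zero => exact absurd hd h0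
  | succ d ih =>
    by_cases hP : P d
    · obtain ⟨k, hk, h1⟩ := ih hP
      exact ⟨k, by omega, h1⟩
    · exact ⟨d, by omega, hP, hd⟩

theorem fmod_card {a b : V} (p : grid.Walk a b) (hp : p.IsPath) :
    (p.edges.toFinset.filter fun e => h < ω e).card = hi ω h p := by
  classical
  unfold hi
  rw [List.countP_eq_length_filter, ← List.toFinset_card_of_nodup
    (hp.isTrail.edges_nodup.filter _)]
  congr 1
  ext e
  simp

/-- the combinatorial end of the argument. -/
theorem fmod_comb {f : V → V} {B : V → Prop} (hF : Forest f B) {u' y : V} {J K R i d : ℕ}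
    (hu' : B u') (hC : Clean f B (R + J) u') (hI : Inj f (R + J) u')
    (hS : ¬ Spoil f B K (R + J) u') (hi : i ≤ R) (hd : 1 ≤ d)
    (hy : f^[d] y = f^[i + J] u') (hne : ∀ k, f^[k] y ≠ u')
    (hinj : ∀ a, f^[a] u' = f^[i + J] u' → a = i + J)
    (hp : i = 0 ∨ f^[d - 1] y ≠ f^[i - 1 + J] u') : 2 * d ≤ 2 * (K + J) + i := by
  classical
  have hex : ∃ j, ∃ n, n ≤ i + J ∧ f^[j] y = f^[n] u' := ⟨d, i + J, le_rfl, hy⟩
  obtain ⟨n, hn, hj⟩ := Nat.find_spec hex
  have hjd : Nat.find hex ≤ d := Nat.find_min' hex ⟨i + J, le_rfl, hy⟩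
  have hmin : ∀ k < Nat.find hex, ∀ m, m ≤ i + J → f^[k] y ≠ f^[m] u' :=
    fun k hk m hm he => Nat.find_min hex hk ⟨m, hm, he⟩
  generalize Nat.find hex = j at hj hjd hmin
  have hn1 : 1 ≤ n := by
    rcases Nat.eq_zero_or_pos n with rfl | h1
    · exact absurd hj (hne j)
    · exact h1
  have hsh : ∀ m, f^[m + j] y = f^[m + n] u' := by
    intro m
    rw [Function.iterate_add_apply, Function.iterate_add_apply, hj]
  have hdn : d - j + n = i + J := by
    apply hinj
    rw [← hsh, ← hy]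
    congr 1
    omega
  have hjn : 2 * j ≤ 2 * K + n := by
    rcases Nat.eq_zero_or_pos j with rfl | h1
    · omega
    · by_contra hlt
      refine hS ⟨hu', hC, hI, n, y, j, by omega, h1, hj, ?_, by omega⟩
      intro hB
      refine hC n hn1 (by omega) ⟨f^[j - 1] y, f^[n - 1] u', hB, fmod_iterB hF hu' _,
        hmin _ (by omega) _ (by omega), hmin _ (by omega) _ hn, ?_, ?_, ?_⟩
      · intro h2
        have := hI (n - 1) n (by omega) (by omega) h2
        omega
      · rw [← hj, ← Function.iterate_succ_apply' f]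
        congr 1
        omega
      · rw [← Function.iterate_succ_apply' f]
        congr 1
        omega
  rcases Nat.eq_zero_or_pos i with rfl | hi1
  · omega
  · rcases hp with h0 | hp
    · omega
    · have hjd' : j = d := by
        by_contra hne'
        apply hp
        have h1 := hsh (d - 1 - j)
        have e1 : d - 1 - j + j = d - 1 := by omega
        have e2 : d - 1 - j + n = i - 1 + J := by omega
        rw [e1, e2] at h1
        exact h1
      omega

theorem fmod {g : ℝ} (hR : Reg h ω) (hg : 0 < g) {u' : V} {D s J K R : ℕ} {M1 M2 : ℝ}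
    (hG : GoodF ω h x u' D s J K R M1 M2) (hs : 16 * D * M1 < s * g)
    (hJ : 2 * (4 * (D + s) + s) * M2 ≤ h * J) :
    ∃ S ⊆ ebox u' (D + s), ∀ ω' : Om, (∀ e ∉ S, ω' e = ω e) →
      (∀ e ∈ S, ω' e ∈ Set.Ioo 0 (h - g)) → Reg h ω' →
      ∃ w ∈ box u' J, Root (fwd ω' x) (K + J) R w := by
  classical
  obtain ⟨hBu', ⟨u, huD, hBu, hnc, hPu⟩, hCl, hnS, hxf, hL1, hL2, hPJ⟩ := hG
  have hF := hR.forest x
  have hub : ∀ k ≤ s, (fwd ω x)^[k] u ∈ box u' (D + s) := fun k hk =>
    box_mono (box_trans huD (iter_mem_box (fwd_mem_box ω x) u k)) (by omega)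
  have hu'b : ∀ k, (fwd ω x)^[k] u' ∈ box u' k := fun k => iter_mem_box (fwd_mem_box ω x) u' k
  have hu'x : ∀ k ≤ R + J, (fwd ω x)^[k] u' ≠ x := by
    intro k hk he
    exact hxf (box_mono (he ▸ hu'b k) (by omega))
  obtain ⟨p, hp, hpl, hpc, hps, hpe⟩ := hR.fwd_walk (x := x) (y := u) (n := s) (by
    intro k hk he
    exact hxf (box_mono (he ▸ hub k hk.le) (by omega)))
  have hcard := fmod_card (h := h) (ω := ω) p hp
  have hhi : s ≤ 2 * hi ω h p := by
    have := hPu _ p hp hpl.ge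
    omega
  have hSe : ∀ e ∈ p.edges.toFinset.filter fun e => h < ω e, e ∈ p.edges := by
    intro e he
    exact List.mem_toFinset.1 (Finset.mem_filter.1 he).1
  have hSh : ∀ e ∈ p.edges.toFinset.filter fun e => h < ω e, h < ω e := by
    intro e he
    exact (Finset.mem_filter.1 he).2
  have hcs : (p.edges.toFinset.filter fun e => h < ω e).card ≤ s := by
    refine (Finset.card_filter_le _ _).trans ((List.toFinset_card_le _).trans ?_)
    rw [SimpleGraph.Walk.length_edges, hpl]
  generalize (p.edges.toFinset.filter fun e => h < ω e) = S at hcard hSe hSh hcs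
  have hSk : ∀ e ∈ S, ∃ k < s, e = s((fwd ω x)^[k] u, (fwd ω x)^[k + 1] u) := by
    intro e he
    have h1 := hSe e he
    rw [hpe] at h1
    obtain ⟨k, hk, rfl⟩ := List.mem_map.1 h1
    exact ⟨k, List.mem_range.1 hk, rfl⟩
  have hSb : S ⊆ ebox u' (D + s) := by
    intro e he
    obtain ⟨k, hk, rfl⟩ := hSk e he
    exact mk_mem_ebox.2 ⟨hub k hk.le, hub (k + 1) hk⟩
  refine ⟨S, hSb, fun ω' hout hin hR' => ?_⟩
  have hle : ∀ e, ω' e ≤ ω e := by
    intro e
    by_cases he : e ∈ S
    · have h1 := (hin e he).2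
      have h2 := hSh e he
      linarith
    · exact (hout e he).le
  have hM2 : 0 ≤ M2 := by
    have h1 := hL2 s(u', u') (mk_mem_ebox.2 ⟨self_mem_box _ _, self_mem_box _ _⟩)
    exact (hR.nn _).trans h1
  have hΓ1 : (S.card : ℝ) * g ≤ ∑ e ∈ S, (ω e - ω' e) := by
    have := Finset.card_nsmul_le_sum S (fun e => ω e - ω' e) g (by
      intro e he
      have h1 := (hin e he).2
      have h2 := hSh e he
      linarith)
    simpa [nsmul_eq_mul] using this
  have hΓ2 : ∑ e ∈ S, (ω e - ω' e) ≤ s * M2 := by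
    have h1 := Finset.sum_le_card_nsmul S (fun e => ω e - ω' e) M2 (by
      intro e he
      have h1 := (hin e he).1
      have h2 := hL2 e (hSb he)
      linarith)
    rw [nsmul_eq_mul] at h1
    have h2 : (S.card : ℝ) ≤ s := by exact_mod_cast hcs
    exact h1.trans (mul_le_mul_of_nonneg_right h2 hM2)
  have hΓ3 : 8 * D * M1 < ∑ e ∈ S, (ω e - ω' e) := by
    have h1 : (s : ℝ) ≤ 2 * S.card := by
      rw [hcard]
      exact_mod_cast hhi
    have h2 := mul_le_mul_of_nonneg_right h1 hg.le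
    nlinarith
  have hgu : T ω' u' x < T ω u' x := by
    have h1 := T_triangle hR'.nn u' u x
    have h2 := T_triangle hR'.nn u ((fwd ω x)^[s] u) x
    have h3 := T_le_cost hR'.nn p
    have h4 := cost_low_path hout p hp hSe
    have h5 := T_mono hR'.nn hle u' u
    have h6 := T_mono hR'.nn hle ((fwd ω x)^[s] u) x
    have h7 := hR.T_iter x u s
    have h8 := T_triangle hR.nn u u' x
    have h9 := Loc.T_le hR.nn hL1 huD (self_mem_box _ _)
    have h10 := Loc.T_le hR.nn hL1 (self_mem_box _ _) huD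
    linarith
  have hgw : T ω' ((fwd ω x)^[J] u') x = T ω ((fwd ω x)^[J] u') x := by
    refine le_antisymm (T_mono hR'.nn hle _ _) (not_lt.1 fun hlt => ?_)
    obtain ⟨q, q', hq, hqe⟩ := T_low_lt hR' hle hout hlt
    have hqb : q ∈ box u' (D + s) := (mk_mem_ebox.1 (hSb hq)).1
    have h1 := T_nonneg hR'.nn ((fwd ω x)^[J] u') q
    have h2 := T_low_ge hR'.nn hle hout q x
    have h3 := hR.T_iter x u' J
    have h4 := T_triangle hR.nn u' q x
    have h5 := Loc.T_le hR.nn hL2 (self_mem_box _ _) hqb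
    obtain ⟨p', hp', hpl', hpc', -, -⟩ := hR.fwd_walk (x := x) (y := u') (n := J)
      (fun k hk => hu'x k (by omega))
    have h6 := Pei.peiT hR.nn hR.h_pos.le hPJ _ p' hp' hpl'.ge
    rw [hpl', hpc'] at h6
    push_cast at h5
    linarith
  have hI : Inj (fwd ω x) (R + J) u' :=
    hR.inj_of_far fun hx => hxf (box_mono hx (by omega))
  have hw : ∀ i, (fwd ω' x)^[i] ((fwd ω x)^[J] u') = (fwd ω x)^[i + J] u' ∧
      T ω' ((fwd ω x)^[i + J] u') x = T ω ((fwd ω x)^[i + J] u') x := by
    intro i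
    rw [Function.iterate_add_apply]
    exact gain_zero hR hR' hle hgw i
  refine ⟨(fwd ω x)^[J] u', hu'b J, hR'.inj_of_far fun hx =>
    hxf (box_mono (box_trans (hu'b J) hx) (by omega)), ?_⟩
  intro i y d hi hd hy hpre
  rw [(hw i).1] at hy
  rw [(hw (i - 1)).1] at hpre
  have hgy : T ω' y x = T ω y x := by
    by_contra hne
    obtain ⟨k, hk, hk0, hk1⟩ := fmod_cross
      (P := fun k => T ω' ((fwd ω' x)^[k] y) x = T ω ((fwd ω' x)^[k] y) x) (d := d) hne (by
        show T ω' ((fwd ω' x)^[d] y) x = T ω ((fwd ω' x)^[d] y) x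
        rw [hy]
        exact (hw i).2)
    have hk1' := hk1
    simp only [Function.iterate_succ_apply'] at hk1'
    have hdrop := gain_drop hR hR' (lt_of_le_of_ne (T_mono hR'.nn hle _ _) hk0) hk1'
    have heS : s((fwd ω' x)^[k] y, fwd ω' x ((fwd ω' x)^[k] y)) ∈ S := by
      by_contra hn
      exact hdrop (hout _ hn)
    obtain ⟨a, -, ha⟩ := hSk _ heS
    have hex : ∃ b, (fwd ω' x)^[k + 1] y = (fwd ω x)^[b] u := by
      rw [Function.iterate_succ_apply']
      rcases Sym2.eq_iff.1 ha with ⟨-, h1⟩ | ⟨-, h1⟩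
      · exact ⟨_, h1⟩
      · exact ⟨_, h1⟩
    obtain ⟨b, hb⟩ := hex
    have h1 := (gain_zero hR hR' hle hk1 (d - (k + 1))).1
    rw [← Function.iterate_add_apply, show d - (k + 1) + (k + 1) = d by omega, hy, hb,
      ← Function.iterate_add_apply] at h1
    exact no_meet hF hBu hBu' hnc hCl hI _ (i + J) (by omega) h1.symm
  have hz := gain_zero hR hR' hle hgy
  rw [(hz d).1] at hy
  rw [(hz (d - 1)).1] at hpre
  refine fmod_comb hF hBu' hCl hI hnS hi hd hy ?_ ?_ hpre
  · intro k hk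
    have h1 := (hz k).2
    rw [hk] at h1
    exact hgu.ne h1
  · intro a ha
    exact hR.iter_inj ha (hu'x _ (by omega))

end Vale.Agent.P158
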