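import Vale.Agent.P158.Walks

/-!
TASK Spoil: spoiled vertices are few on average over the scales.
Plan: for (m, u) with Spoil (K m) (R m) u choose n, y, d; put d0 = K m + n / 2 + 1 ≤ d and z = f^[d - d0] y. Then
f^[d0] z = f^[n] u is in B (clos), f^[d0 - 1] z is not. Send (m, u) to (z, n % 2) in box 0 (l + 2 K m0) × range 2
(z is within d0 of f^[n] u, which is within n of u; n + d0 ≤ 2 K (m+1) ≤ 2 K m0). Injective: z determines d0 (B is closed
under f, so the first entrance time is unique), K m < d0 ≤ K (m+1) determines m (K strictly monotone), then n by parity, and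
u is determined by f^[n] u and n: downward induction, two different B-predecessors f^[k-1] u, f^[k-1] u' of f^[k] u
(different from it by Inj) would make it a merge point, contradicting Clean. Use Finset.card_sigma / card_le_card_of_injOn.
-/

namespace Vale.Agent.P158

theorem spoil_iter {f : V → V} {B : V → Prop} (hF : Forest f B) {u : V} (hu : B u) (n : ℕ) :
    B (f^[n] u) := by
  induction n with
  | zero => exact hu
  | succ n ih =>
    rw [Function.iterate_succ_apply']
    exact hF.clos _ ih

theorem clean_unique {f : V → V} {B : V → Prop} (hF : Forest f B) {R n : ℕ} {u u' : V}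
    (hu : B u) (hu' : B u') (hc : Clean f B R u) (hi : Inj f R u) (hi' : Inj f R u') (hn : n ≤ R)
    (h : f^[n] u = f^[n] u') : u = u' := by
  induction n with
  | zero => exact h
  | succ n ih =>
    refine ih (by omega) (by_contra fun hne => hc (n + 1) (by omega) hn
      ⟨_, _, spoil_iter hF hu n, spoil_iter hF hu' n, hne, fun e => ?_, fun e => ?_,
        (Function.iterate_succ_apply' f n u).symm,
        (Function.iterate_succ_apply' f n u').symm.trans h.symm⟩)
    · exact absurd (hi n (n + 1) (by omega) hn e) (by omega)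
    · exact absurd (hi' n (n + 1) (by omega) hn (e.trans h)) (by omega)

theorem spoil_first {f : V → V} {B : V → Prop} (hF : Forest f B) {z : V} {a b : ℕ}
    (h1 : B (f^[a + 1] z)) (h2 : ¬ B (f^[b] z)) : b ≤ a := by
  by_contra hc
  have h3 := spoil_iter hF h1 (b - (a + 1))
  rw [← Function.iterate_add_apply, Nat.sub_add_cancel (by omega)] at h3
  exact h2 h3

theorem spoil_cnt {f : V → V} {B : V → Prop} (hF : Forest f B) (K R : ℕ → ℕ)
    (hK : ∀ m, K m + R m + 1 ≤ K (m + 1)) (m0 l : ℕ) :
    ∑ m ∈ Finset.range m0, cnt (box 0 l) (Spoil f B (K m) (R m)) ≤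
      2 * (2 * (l + 2 * K m0) + 1) ^ 2 := by
  classical
  have key : ∀ m u, Spoil f B (K m) (R m) u → ∃ n z, n ≤ R m ∧
      f^[K m + n / 2 + 1] z = f^[n] u ∧ ¬ B (f^[K m + n / 2] z) := by
    rintro m u ⟨-, -, -, n, y, d, h1, h2, h3, h4, h5⟩
    refine ⟨n, f^[d - (K m + n / 2 + 1)] y, h1, ?_, ?_⟩
    · rw [← Function.iterate_add_apply, Nat.add_sub_cancel' (by omega), h3]
    · rwa [← Function.iterate_add_apply,
        show K m + n / 2 + (d - (K m + n / 2 + 1)) = d - 1 by omega]
  choose! n z h1 h2 h3 using key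
  have hm : Monotone K := monotone_nat_of_le_succ fun m => by
    have := hK m
    omega
  simp only [cnt_eq]
  rw [← Finset.card_sigma, ← card_box 0, mul_comm, ← Finset.card_range 2, ← Finset.card_product]
  refine Finset.card_le_card_of_injOn (fun p => (z p.1 p.2, n p.1 p.2 % 2)) ?_ ?_
  · rintro ⟨m, u⟩ hp
    obtain ⟨a1, a2⟩ := Finset.mem_sigma.1 (Finset.mem_coe.1 hp)
    obtain ⟨a2, a3⟩ := Finset.mem_filter.1 a2
    refine Finset.mem_coe.2 (Finset.mem_product.2
      ⟨?_, Finset.mem_range.2 (Nat.mod_lt _ two_pos)⟩)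
    have b1 := iter_mem_box hF.near (z m u) (K m + n m u / 2 + 1)
    rw [h2 m u a3] at b1
    refine box_mono (box_trans (box_trans a2 (iter_mem_box hF.near u (n m u))) (box_symm b1)) ?_
    have b2 := hm (show m + 1 ≤ m0 from Finset.mem_range.1 a1)
    have b3 := hK m
    have b4 := h1 m u a3
    simp only [Finset.card_range]
    omega
  · rintro ⟨m, u⟩ hp ⟨m', u'⟩ hp' e
    have a := (Finset.mem_filter.1 (Finset.mem_sigma.1 (Finset.mem_coe.1 hp)).2).2
    have a' := (Finset.mem_filter.1 (Finset.mem_sigma.1 (Finset.mem_coe.1 hp')).2).2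
    have e1 : z m u = z m' u' := congrArg Prod.fst e
    have e2 : n m u % 2 = n m' u' % 2 := congrArg Prod.snd e
    have b1 := spoil_first hF ((h2 m u a).symm ▸ spoil_iter hF a.1 _) (e1 ▸ h3 m' u' a')
    have b2 := spoil_first hF ((h2 m' u' a').symm ▸ spoil_iter hF a'.1 _) (e1 ▸ h3 m u a)
    have c1 := h1 m u a
    have c2 := h1 m' u' a'
    obtain rfl : m = m' := by
      rcases lt_trichotomy m m' with h | h | h
      · have := hm (show m + 1 ≤ m' from h)
        have := hK m
        omega
      · exact h
      · have := hm (show m' + 1 ≤ m from h)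
        have := hK m'
        omega
    have e3 : n m u = n m u' := by omega
    have e4 : f^[n m u] u = f^[n m u] u' := by
      rw [← h2 m u a, e1, e3, h2 m u' a']
    exact congrArg (Sigma.mk m) (clean_unique hF a.1 a'.1 a.2.1 a.2.2.1 a'.2.2.1 c1 e4)

end Vale.Agent.P158
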