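import Vale.Agent.P158.FDens
import Vale.Agent.P158.FMod
import Vale.Agent.P158.Spoil

/-!
TASK FMain: Lemma F, the union of the geodesic rays from x has density zero, uniformly in x.
good_prob: GoodF ∩ Reg is covered by the sets A S (S ⊆ ebox u' (D+s)) of ω for which S works in fmod; fe_le with
B = {root near u'} ∪ {not Reg}; s0 = G (Ioo 0 (h-g)) in (0,1]; C1 = 2^N / s0^N, N = card (ebox 0 (D+s)) (card_ebox).
spoil_prob: count_master over the index finset range m0 ×ˢ box 0 l (t = ∅), spoil_cnt, null_spoil; then some m has at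
most the average (Finset.exists_le_of_sum_le).
lemmaF: order of constants: D (dens_lone), M1 (loc_prob D), s (16 D M1 < s g and pei_box'), M2 (loc_prob (D+s)),
J (hJ and pei_box' 0), C1, then K 0 = 0, R m with C1 (2J+1)^2 25 (8 (K m + J)+1)^2 / (R m + 1) ≤ ε1,
K (m+1) = K m + (R m + J) + 1, m0 ≥ 50 / ε1, then l0 = max of the finitely many thresholds. For fixed l, x take m from spoil_prob
(with R m + J in place of R m). Pointwise: Back ω x u implies Lone D, or not Clean (R m + J), or Spoil, or x near, or one of the four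
local events fails, or GoodF; measureReal_union_le / measureReal_mono, sum over u.
-/

namespace Vale.Agent.P158

open MeasureTheory

variable {G : Measure ℝ} [IsProbabilityMeasure G] {h g : ℝ}

theorem fmain_or (P Q : Om → Prop) :
    (mu G).real {ω | P ω ∨ Q ω} ≤ (mu G).real {ω | P ω} + (mu G).real {ω | Q ω} :=
  measureReal_union_le {ω | P ω} {ω | Q ω}

theorem fmain_notreg (hp : Par G h g) : (mu G).real {ω | ¬ Reg h ω} = 0 := by
  rw [measureReal_def, ae_iff.1 (reg_ae hp)]; simp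

theorem good_prob (hp : Par G h g) (D s : ℕ) : ∃ C1 : ℝ, 0 < C1 ∧
    ∀ (x u' : V) (J K R : ℕ) (M1 M2 : ℝ), 16 * D * M1 < s * g →
      2 * (4 * (D + s) + s) * M2 ≤ h * J →
      (mu G).real {ω | GoodF ω h x u' D s J K R M1 M2} ≤
        C1 * (mu G).real {ω | ∃ w ∈ box u' J, Root (fwd ω x) (K + J) R w} := by
  set I : Set ℝ := Set.Ioo 0 (h - g) with hI
  set N := (ebox 0 (D + s)).card with hN
  have hs0 : 0 < G.real I := ENNReal.toReal_pos hp.tgt.ne' (measure_ne_top _ _)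
  have hs1 : G.real I ≤ 1 := measureReal_le_one
  refine ⟨2 ^ N / G.real I ^ N, by positivity, fun x u' J K R M1 M2 h1 h2 => ?_⟩
  set B : Set Om := {ω | (∃ w ∈ box u' J, Root (fwd ω x) (K + J) R w) ∨ ¬ Reg h ω} with hB
  have hBle : (mu G).real B ≤ (mu G).real {ω | ∃ w ∈ box u' J, Root (fwd ω x) (K + J) R w} := by
    have := fmain_or (G := G) (fun ω => ∃ w ∈ box u' J, Root (fwd ω x) (K + J) R w)
      (fun ω => ¬ Reg h ω)
    rw [fmain_notreg hp, add_zero] at this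
    exact this
  set A : Finset E → Set Om := fun S =>
    {ω | ∀ ω' : Om, (∀ e ∉ S, ω' e = ω e) → (∀ e ∈ S, ω' e ∈ I) → ω' ∈ B} with hA
  have hAle : ∀ S ∈ (ebox u' (D + s)).powerset,
      (mu G).real (A S) ≤ (mu G).real B / G.real I ^ N := by
    intro S hS
    have e1 := fe_le G S (I := I) measurableSet_Ioo (A S) B (fun ω hω => hω)
    have e2 : G.real I ^ S.card * (mu G).real (A S) ≤ (mu G).real B := by
      have := ENNReal.toReal_mono (measure_ne_top _ _) e1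
      simpa [measureReal_def] using this
    have e3 : S.card ≤ N := by
      rw [hN, card_ebox 0 u']
      exact Finset.card_le_card (Finset.mem_powerset.1 hS)
    have e4 : G.real I ^ N ≤ G.real I ^ S.card := pow_le_pow_of_le_one hs0.le hs1 e3
    rw [le_div_iff₀ (by positivity)]
    have e5 : 0 ≤ (mu G).real (A S) := measureReal_nonneg
    nlinarith
  have hcov : {ω | GoodF ω h x u' D s J K R M1 M2} ⊆
      (⋃ S ∈ (ebox u' (D + s)).powerset, A S) ∪ {ω | ¬ Reg h ω} := by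
    intro ω hω
    by_cases hR : Reg h ω
    · left
      obtain ⟨S, hS, hS'⟩ := fmod hR hp.g_pos hω h1 h2
      refine Set.mem_biUnion (Finset.mem_coe.2 (Finset.mem_powerset.2 hS)) ?_
      intro ω' e1 e2
      by_cases hR' : Reg h ω'
      · exact Or.inl (hS' ω' e1 e2 hR')
      · exact Or.inr hR'
    · exact Or.inr hR
  calc (mu G).real {ω | GoodF ω h x u' D s J K R M1 M2}
      ≤ (mu G).real ((⋃ S ∈ (ebox u' (D + s)).powerset, A S) ∪ {ω | ¬ Reg h ω}) :=
        measureReal_mono hcov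
    _ ≤ (mu G).real (⋃ S ∈ (ebox u' (D + s)).powerset, A S) + (mu G).real {ω | ¬ Reg h ω} :=
        measureReal_union_le _ _
    _ ≤ ∑ S ∈ (ebox u' (D + s)).powerset, (mu G).real (A S) := by
        rw [fmain_notreg hp, add_zero]
        exact measureReal_biUnion_finset_le _ _
    _ ≤ ∑ _S ∈ (ebox u' (D + s)).powerset, (mu G).real B / G.real I ^ N :=
        Finset.sum_le_sum hAle
    _ = 2 ^ N / G.real I ^ N * (mu G).real B := by
        rw [Finset.sum_const, Finset.card_powerset, hN, card_ebox 0 u', nsmul_eq_mul]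
        push_cast
        ring
    _ ≤ _ := mul_le_mul_of_nonneg_left hBle (by positivity)

theorem fmain_cnt_prod {α β : Type*} (s : Finset α) (t : Finset β) (P : α × β → Prop) :
    cnt (s ×ˢ t) P = ∑ a ∈ s, cnt t (fun b => P (a, b)) := by
  classical
  simp only [cnt_eq, Finset.card_filter, Finset.sum_product]

theorem spoil_prob (hp : Par G h g) (K R : ℕ → ℕ) (hK : ∀ m, K m + R m + 1 ≤ K (m + 1))
    {m0 : ℕ} (hm0 : 0 < m0) : ∃ l0 : ℕ, ∀ l : ℕ, l0 ≤ l → ∀ x : V, ∃ m < m0,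
      ∑ u ∈ box 0 l, (mu G).real {ω | Spoil (fwd ω x) (Back ω x) (K m) (R m) u}
        ≤ 50 / m0 * (l : ℝ) ^ 2 := by
  refine ⟨2 * K m0 + 1, fun l hl x => ?_⟩
  have h1 := count_master (mu G) (Finset.range m0 ×ˢ box 0 l) (∅ : Finset Unit)
    (fun p => {ω | Spoil (fwd ω x) (Back ω x) (K p.1) (R p.1) p.2}) (fun _ => ∅)
    (fun p _ => null_spoil G x p.2 _ _) 1 0 (50 * (l : ℝ) ^ 2) le_rfl (by
      filter_upwards [reg_ae hp] with ω hR
      rw [fmain_cnt_prod, one_mul, zero_mul, zero_add]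
      have e1 := spoil_cnt (hR.forest x) K R hK m0 l
      have e2 : 2 * (2 * (l + 2 * K m0) + 1) ^ 2 ≤ 50 * l ^ 2 := by
        have : 2 * (l + 2 * K m0) + 1 ≤ 5 * l := by omega
        calc 2 * (2 * (l + 2 * K m0) + 1) ^ 2 ≤ 2 * (5 * l) ^ 2 := by gcongr
          _ = 50 * l ^ 2 := by ring
      exact_mod_cast e1.trans e2)
  rw [one_mul, zero_mul, zero_add, Finset.sum_product] at h1
  have hm : (0 : ℝ) < m0 := by exact_mod_cast hm0
  obtain ⟨m, hm1, hm2⟩ := Finset.exists_le_of_sum_le (s := Finset.range m0)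
    (f := fun m => ∑ u ∈ box 0 l,
      (mu G).real {ω | Spoil (fwd ω x) (Back ω x) (K m) (R m) u})
    (g := fun _ => 50 / m0 * (l : ℝ) ^ 2) (Finset.nonempty_range_iff.2 hm0.ne') (by
      rw [Finset.sum_const, Finset.card_range, nsmul_eq_mul]
      refine h1.trans (le_of_eq ?_)
      field_simp)
  exact ⟨m, Finset.mem_range.1 hm1, hm2⟩

theorem fmain_cover (ω : Om) (h : ℝ) (x u : V) (D s J K R : ℕ) (M1 M2 : ℝ) (hb : Back ω x u) :
    Lone (fwd ω x) (Back ω x) D u ∨ ¬ Clean (fwd ω x) (Back ω x) (R + J) u ∨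
      Spoil (fwd ω x) (Back ω x) K (R + J) u ∨ x ∈ box u (D + s + R + J) ∨ ¬ Loc ω u D M1 ∨
      ¬ Loc ω u (D + s) M2 ∨ (∃ z ∈ box u D, ¬ Pei ω h z s) ∨ (∃ z ∈ box u 0, ¬ Pei ω h z J) ∨
      GoodF ω h x u D s J K R M1 M2 := by
  by_contra hc
  push Not at hc
  obtain ⟨h1, h2, h3, h4, h5, h6, h7, h8, h9⟩ := hc
  apply h9
  refine ⟨hb, ?_, h2, h3, h4, h5, h6, h8 u (self_mem_box u 0)⟩
  by_contra hn
  apply h1
  refine ⟨hb, fun u2 hu2 hb2 => ?_⟩
  by_contra hcmp
  exact hn ⟨u2, hu2, hb2, hcmp, h7 u2 hu2⟩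

theorem lemmaF (hp : Par G h g) {ε : ℝ} (hε : 0 < ε) :
    Dens G (fun x u ω => Back ω x u) ε := by
  set ε1 := ε / 41 with hε1
  have h1 : 0 < ε1 := by positivity
  have hg := hp.g_pos
  have hh := hp.h_pos
  obtain ⟨D, lL, hL⟩ := dens_lone hp h1
  obtain ⟨M1, -, hM1⟩ := loc_prob G D h1
  obtain ⟨s0, hs0⟩ := pei_box' hp D h1
  obtain ⟨s1, hs1⟩ := exists_nat_gt (16 * D * M1 / g)
  set s := max s0 s1 with hs
  have hs2 : 16 * D * M1 < s * g := by
    rw [div_lt_iff₀ hg] at hs1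
    have : (s1 : ℝ) ≤ s := by exact_mod_cast le_max_right s0 s1
    nlinarith
  obtain ⟨M2, -, hM2⟩ := loc_prob G (D + s) h1
  obtain ⟨J0, hJ0⟩ := pei_box' hp 0 h1
  obtain ⟨J1, hJ1⟩ := exists_nat_gt (2 * (4 * (D + s) + s) * M2 / h)
  set J := max J0 J1 with hJ
  have hJ2 : 2 * (4 * (D + s) + s) * M2 ≤ h * J := by
    rw [div_lt_iff₀ hh] at hJ1
    have : (J1 : ℝ) ≤ J := by exact_mod_cast le_max_right J0 J1
    nlinarith
  obtain ⟨C1, hC1, hgood⟩ := good_prob hp D s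
  have hR : ∀ K : ℕ, ∃ R : ℕ,
      C1 * ((2 * (J : ℝ) + 1) ^ 2 * (25 * (8 * ((K + J : ℕ) : ℝ) + 1) ^ 2 / (R + 1))) ≤ ε1 := by
    intro K
    obtain ⟨R, hR⟩ := exists_nat_gt
      (C1 * ((2 * (J : ℝ) + 1) ^ 2 * (25 * (8 * ((K + J : ℕ) : ℝ) + 1) ^ 2)) / ε1)
    refine ⟨R, ?_⟩
    rw [div_lt_iff₀ h1] at hR
    rw [← mul_div_assoc, ← mul_div_assoc, div_le_iff₀ (by positivity)]
    nlinarith
  choose Rf hRf using hR
  set K : ℕ → ℕ := fun m => Nat.rec 0 (fun _ k => k + (Rf k + J) + 1) m with hK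
  have hKs : ∀ m, K m + (Rf (K m) + J) + 1 ≤ K (m + 1) := fun m => le_rfl
  obtain ⟨m0, hm0⟩ := exists_nat_gt (50 / ε1)
  have hm0' : (0 : ℝ) < m0 := lt_trans (by positivity) hm0
  have hm1 : 50 / (m0 : ℝ) ≤ ε1 := by
    rw [div_lt_iff₀ h1] at hm0
    rw [div_le_iff₀ hm0']
    linarith
  obtain ⟨lS, hS⟩ := spoil_prob hp K (fun m => Rf (K m) + J) hKs (by exact_mod_cast hm0')
  choose lU hU using fun m => dens_uncl hp (Rf (K m) + J) h1
  choose lN hN using fun m => dens_near G (D + s + Rf (K m) + J) h1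
  choose lR hR using fun m => dens_root G (K m + J) (Rf (K m)) J
  obtain ⟨l1, hl1⟩ := dens_pt (G := G) (A := fun _ u ω => ¬ Loc ω u D M1) (fun _ u => hM1 u)
  obtain ⟨l2, hl2⟩ := dens_pt (G := G) (A := fun _ u ω => ¬ Loc ω u (D + s) M2) (fun _ u => hM2 u)
  obtain ⟨l3, hl3⟩ := dens_pt (G := G) (A := fun _ u ω => ∃ z ∈ box u D, ¬ Pei ω h z s)
    (fun _ u => hs0 s (le_max_left _ _) u)
  obtain ⟨l4, hl4⟩ := dens_pt (G := G) (A := fun _ u ω => ∃ z ∈ box u 0, ¬ Pei ω h z J)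
    (fun _ u => hJ0 J (le_max_left _ _) u)
  refine ⟨lL + lS + l1 + l2 + l3 + l4 + ∑ m ∈ Finset.range m0, (lU m + lN m + lR m),
    fun l hl x => ?_⟩
  obtain ⟨m, hm, a3⟩ := hS l (by omega) x
  have hlm : lU m + lN m + lR m ≤ ∑ m ∈ Finset.range m0, (lU m + lN m + lR m) :=
    Finset.single_le_sum (f := fun m => lU m + lN m + lR m) (fun _ _ => Nat.zero_le _)
      (Finset.mem_range.2 hm)
  have a1 := hL l (by omega) x
  have a2 := hU m l (by omega) x
  have a4 := hN m l (by omega) x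
  have a5 := hl1 l (by omega) x
  have a6 := hl2 l (by omega) x
  have a7 := hl3 l (by omega) x
  have a8 := hl4 l (by omega) x
  have a9 := hR m l (by omega) x
  have a10 : ∑ u ∈ box 0 l, (mu G).real {ω | GoodF ω h x u D s J (K m) (Rf (K m)) M1 M2}
      ≤ ε1 * (l : ℝ) ^ 2 := by
    refine (Finset.sum_le_sum fun u _ => hgood x u J (K m) (Rf (K m)) M1 M2 hs2 hJ2).trans ?_
    rw [← Finset.mul_sum]
    refine (mul_le_mul_of_nonneg_left a9 hC1.le).trans ?_
    rw [← mul_assoc]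
    exact mul_le_mul_of_nonneg_right (hRf (K m)) (by positivity)
  have a11 : 50 / (m0 : ℝ) * (l : ℝ) ^ 2 ≤ ε1 * (l : ℝ) ^ 2 :=
    mul_le_mul_of_nonneg_right hm1 (by positivity)
  have key : ∀ u, (mu G).real {ω | Back ω x u} ≤
      (mu G).real {ω | Lone (fwd ω x) (Back ω x) D u} +
      ((mu G).real {ω | ¬ Clean (fwd ω x) (Back ω x) (Rf (K m) + J) u} +
      ((mu G).real {ω | Spoil (fwd ω x) (Back ω x) (K m) (Rf (K m) + J) u} +
      ((mu G).real {_ω | x ∈ box u (D + s + Rf (K m) + J)} +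
      ((mu G).real {ω | ¬ Loc ω u D M1} +
      ((mu G).real {ω | ¬ Loc ω u (D + s) M2} +
      ((mu G).real {ω | ∃ z ∈ box u D, ¬ Pei ω h z s} +
      ((mu G).real {ω | ∃ z ∈ box u 0, ¬ Pei ω h z J} +
      (mu G).real {ω | GoodF ω h x u D s J (K m) (Rf (K m)) M1 M2}))))))) := by
    intro u
    refine (measureReal_mono (fun ω hω =>
      fmain_cover ω h x u D s J (K m) (Rf (K m)) M1 M2 hω)).trans ?_
    repeat refine (fmain_or _ _).trans (add_le_add le_rfl ?_)
    exact le_rfl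
  refine (Finset.sum_le_sum fun u _ => key u).trans ?_
  simp only [Finset.sum_add_distrib]
  have : ε = 41 * ε1 := by rw [hε1]; ring
  rw [this]
  linarith

end Vale.Agent.P158
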