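import Vale.Agent.P158.Main

/-!
TASK Final: transfer to the statement.
canon: G' = G.map (coe to ℝ); exists_par; no_line. r : Om → (edgeSet → ℝ≥0), r ω e = (ω e).toNNReal pushes mu G' to
infinitePi G (Measure.eq_infinitePi with mu_cyl, or iIndepFun machinery). Ev = {t : ∃ v, IsBigeodesic (wt t) v} is null measurable
(proj_null with X = ℤ → V; measurability through meas_T, meas_wt and measurability of wt). Take a measurable N ⊆ Ev a.e. equal to it
(NullMeasurableSet.exists_measurable_subset_ae_eq); its measure is mu G' (r ⁻¹' N) = 0 since for positive ω,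
wt (r ω) = ω on edges (T_congr) and isLine_of_sum applies. final: iIndepFun_iff_map_fun_eq_infinitePi_map and ae_of_ae_map.
-/

namespace Vale.Agent.P158

open MeasureTheory ProbabilityTheory
open scoped NNReal

theorem final_nn (t : grid.edgeSet → ℝ≥0) (e : E) : 0 ≤ wt t e := by
  unfold wt
  split_ifs
  exacts [NNReal.coe_nonneg _, le_rfl]

theorem final_meas : Measurable (wt : (grid.edgeSet → ℝ≥0) → Om) := by
  refine measurable_pi_lambda _ fun e => ?_
  unfold wt
  split_ifs with h
  · exact measurable_coe_nnreal_real.comp (measurable_pi_apply _)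
  · exact measurable_const

theorem final_meas_r : Measurable fun (ω : Om) (e : grid.edgeSet) => (ω e).toNNReal :=
  measurable_pi_lambda _ fun _ => measurable_real_toNNReal.comp (measurable_pi_apply _)

theorem final_map (G : Measure ℝ≥0) [IsProbabilityMeasure G] :
    (mu (G.map ((↑) : ℝ≥0 → ℝ))).map (fun (ω : Om) (e : grid.edgeSet) => (ω e).toNNReal) =
      Measure.infinitePi fun _ : grid.edgeSet => G := by
  have hc : Measurable ((↑) : ℝ≥0 → ℝ) := measurable_coe_nnreal_real
  have := Measure.isProbabilityMeasure_map (μ := G) hc.aemeasurable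
  have h1 := Measure.infinitePi_map_restrict' (fun _ : E => G.map ((↑) : ℝ≥0 → ℝ))
    (I := grid.edgeSet)
  have h2 := Measure.infinitePi_map_pi (fun _ : grid.edgeSet => G.map ((↑) : ℝ≥0 → ℝ))
    (f := fun _ => Real.toNNReal) fun _ => measurable_real_toNNReal
  have h3 : (G.map ((↑) : ℝ≥0 → ℝ)).map Real.toNNReal = G := by
    rw [Measure.map_map measurable_real_toNNReal hc]
    exact (congrArg (fun f => G.map f) (funext fun a => Real.toNNReal_coe)).trans Measure.map_id
  have h4 : Measurable (grid.edgeSet.domRestrict : Om → grid.edgeSet → ℝ) :=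
    measurable_pi_lambda _ fun _ => measurable_pi_apply _
  rw [← h1, Measure.map_map (by fun_prop) h4, h3] at h2
  exact h2

theorem final_line {ω : Om} (h0 : ∀ e, 0 ≤ ω e) {γ : ℤ → V}
    (hγ : IsLine (wt fun e : grid.edgeSet => (ω e).toNNReal) γ) : IsLine ω γ := by
  have h1 : ∀ e ∈ grid.edgeSet, wt (fun e : grid.edgeSet => (ω e).toNNReal) e = ω e :=
    fun e he => (dif_pos he).trans (Real.coe_toNNReal _ (h0 e))
  intro i j hij
  obtain ⟨h2, h3⟩ := hγ i j hij
  rw [T_congr h1, T_congr h1, h1 _ h2] at h3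
  exact ⟨h2, h3⟩

theorem canon (G : Measure ℝ≥0) [IsProbabilityMeasure G] (hG : ∀ a, G {a} = 0) :
    ∀ᵐ t ∂(Measure.infinitePi fun _ : grid.edgeSet => G), ¬ ∃ v, IsBigeodesic (wt t) v := by
  have hc : Measurable ((↑) : ℝ≥0 → ℝ) := measurable_coe_nnreal_real
  have := Measure.isProbabilityMeasure_map (μ := G) hc.aemeasurable
  obtain ⟨h, g, hp⟩ := exists_par (G := G.map ((↑) : ℝ≥0 → ℝ))
    (fun t => by
      rw [Measure.map_apply hc (measurableSet_singleton t)]
      refine measure_mono_null (fun a ha => ?_) (hG t.toNNReal)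
      have ha' : (a : ℝ) = t := ha
      rw [← ha', Real.toNNReal_coe]
      rfl)
    (by
      rw [Measure.map_apply hc measurableSet_Iio]
      exact measure_mono_null (fun a ha => absurd a.coe_nonneg (not_le.2 ha)) measure_empty)
  have hN : NullMeasurableSet {t : grid.edgeSet → ℝ≥0 | ∃ γ : ℤ → V, IsLine (wt t) γ}
      (Measure.infinitePi fun _ : grid.edgeSet => G) :=
    proj_null _ (P := fun t γ => IsLine (wt t) γ)
      (measurableSet_setOfPred.2 (meas_isLine (final_meas.comp measurable_fst) measurable_snd))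
  have h0 : (Measure.infinitePi fun _ : grid.edgeSet => G)
      {t : grid.edgeSet → ℝ≥0 | ∃ γ : ℤ → V, IsLine (wt t) γ} = 0 := by
    rw [← final_map G] at hN ⊢
    rw [Measure.map_apply₀ final_meas_r.aemeasurable hN, measure_eq_zero_iff_ae_notMem]
    filter_upwards [no_line hp, pos_ae hp] with ω h1 h2
    rintro ⟨γ, hγ⟩
    exact h1 ⟨γ, final_line (fun e => (h2 e).le) hγ⟩
  filter_upwards [measure_eq_zero_iff_ae_notMem.1 h0] with t ht
  rintro ⟨v, -, h1, h2⟩
  exact ht ⟨v, isLine_of_sum (final_nn t) h1 h2⟩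

theorem final {Ω : Type*} [MeasurableSpace Ω] (P : Measure Ω) [IsProbabilityMeasure P]
    (G : Measure ℝ≥0) [IsProbabilityMeasure G] (hG : ∀ a, G {a} = 0)
    (t : grid.edgeSet → Ω → ℝ≥0)
    (hm : ∀ e, Measurable (t e)) (hind : iIndepFun t P) (hlaw : ∀ e, P.map (t e) = G) :
    ∀ᵐ ω ∂P, ¬ ∃ v : ℤ → ℤ × ℤ, IsBigeodesic (wt fun e => t e ω) v := by
  have h1 := hind.map_fun_eq_infinitePi_map hm
  simp only [hlaw] at h1
  have h2 := canon G hG
  rw [← h1] at h2
  exact ae_of_ae_map (measurable_pi_lambda _ hm).aemeasurable h2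

end Vale.Agent.P158
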