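import Vale.Agent.P158.Walks

/-!
TASK Forest: counting in an abstract forest (pure finite combinatorics).
merge_cnt: let W be the B-vertices of box 0 n, W' those of box 0 (n+1). f maps the set P of y' in W' with f y' ≠ y',
f y' in W to W; every fibre is nonempty (pred, near, box_symm, box_trans), fibres over merge points have at least 2
elements (a merge point is in B by clos). So card W + merges ≤ card P ≤ card W' (card_eq_sum_card_fiberwise),
and card W' = card W + ring part. uncl_cnt: map u to a merge point in box u R; fibres lie in a box of radius R;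
merge_cnt, card_ring. root_close: strong induction on i (if i, k ≥ 1 and the predecessors agree, go down; else use Root of
w with y = w', d = k and Root of w' with y = w, d = i; cases i = 0 or k = 0 use the first disjunct); iter_mem_box.
root_cnt: the map (w, i) to f^[i] w from roots × range (R+1) to box 0 (n+R) has fibres of size ≤ (8K+1)^2
(w in a box of radius 4K by root_close, i determined by w through Inj); Finset.card_le_mul_card_image.
-/

namespace Vale.Agent.P158

variable {f : V → V} {B : V → Prop}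

open Classical in
theorem forest_split (B : V → Prop) (n : ℕ) :
    cnt (box 0 (n + 1)) B = cnt (box 0 n) B + cnt (box 0 (n + 1) \ box 0 n) B := by
  have hsub : box 0 n ⊆ box 0 (n + 1) := fun y hy => box_mono hy (Nat.le_succ n)
  rw [cnt_eq, cnt_eq, cnt_eq, ← Finset.card_union_of_disjoint
    (Finset.disjoint_filter_filter Finset.disjoint_sdiff), ← Finset.filter_union,
    Finset.union_sdiff_of_subset hsub]

open Classical in
theorem forest_mono {s t : Finset V} (h : s ⊆ t) (B : V → Prop) : cnt s B ≤ cnt t B := by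
  rw [cnt_eq, cnt_eq]
  exact Finset.card_le_card (Finset.filter_subset_filter _ h)

theorem merge_cnt (hF : Forest f B) (n : ℕ) :
    cnt (box 0 n) (Merge f B) ≤ cnt (box 0 (n + 1) \ box 0 n) B := by
  classical
  have h0 := forest_split B n
  rw [cnt_eq (box 0 (n + 1)), cnt_eq (box 0 n)] at h0
  rw [cnt_eq (box 0 n)]
  set W := (box 0 n).filter B with hW
  set W' := (box 0 (n + 1)).filter B with hW'
  set P := W'.filter fun y => f y ≠ y ∧ f y ∈ W with hP
  have h1 : P.card = ∑ y ∈ W, (P.filter fun z => f z = y).card :=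
    Finset.card_eq_sum_card_fiberwise fun z hz => (Finset.mem_filter.1 hz).2.2
  have hmem : ∀ y ∈ W, ∀ z, B z → z ≠ y → f z = y → z ∈ P.filter fun z => f z = y := by
    intro y hy z hz hzy e
    have hy' := Finset.mem_filter.1 hy
    refine Finset.mem_filter.2 ⟨Finset.mem_filter.2 ⟨Finset.mem_filter.2 ⟨?_, hz⟩, ?_, ?_⟩, e⟩
    · exact box_trans hy'.1 (e ▸ box_symm (hF.near z))
    · rw [e]; exact hzy.symm
    · rw [e]; exact hy
  have h2 : ∀ y ∈ W, 1 + (if Merge f B y then 1 else 0) ≤ (P.filter fun z => f z = y).card := by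
    intro y hy
    split_ifs with hm
    · obtain ⟨y1, y2, b1, b2, hne, n1, n2, e1, e2⟩ := hm
      exact Finset.one_lt_card.2 ⟨y1, hmem y hy y1 b1 n1 e1, y2, hmem y hy y2 b2 n2 e2, hne⟩
    · obtain ⟨z, hz, hzy, e⟩ := hF.pred y (Finset.mem_filter.1 hy).2
      exact Finset.card_pos.2 ⟨z, hmem y hy z hz hzy e⟩
  have h3 := Finset.sum_le_sum h2
  rw [← h1, Finset.sum_add_distrib, ← Finset.card_filter, Finset.sum_const, smul_eq_mul,
    mul_one] at h3
  have h4 : P.card ≤ W'.card := Finset.card_filter_le _ _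
  have h5 : ((box 0 n).filter (Merge f B)).card ≤ (W.filter (Merge f B)).card := by
    refine Finset.card_le_card fun y hy => ?_
    have hy' := Finset.mem_filter.1 hy
    obtain ⟨y1, -, b1, -, -, -, -, e1, -⟩ := hy'.2
    exact Finset.mem_filter.2 ⟨Finset.mem_filter.2 ⟨hy'.1, e1 ▸ hF.clos y1 b1⟩, hy'.2⟩
  have h6 : W.card + (W.filter (Merge f B)).card ≤ P.card := h3
  omega

theorem merge_cnt_sum (hF : Forest f B) (ρ : ℕ) :
    ρ * cnt (box 0 ρ) (Merge f B) ≤ cnt (box 0 (2 * ρ)) B := by
  have key : ∀ m, m * cnt (box 0 ρ) (Merge f B) ≤ cnt (box 0 (ρ + m)) B := by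
    intro m
    induction m with
    | zero => simp
    | succ m ih =>
      have h1 := forest_split B (ρ + m)
      have h2 := merge_cnt hF (ρ + m)
      have h3 := forest_mono (s := box 0 ρ) (t := box 0 (ρ + m))
        (fun y hy => box_mono hy (Nat.le_add_right _ _)) (Merge f B)
      rw [← add_assoc, h1, add_mul, one_mul]
      omega
  rw [two_mul]
  exact key ρ

theorem uncl_cnt (hF : Forest f B) (l R : ℕ) :
    cnt (box 0 l) (fun u => ¬ Clean f B R u) ≤ (2 * R + 1) ^ 2 * (8 * (l + R + 1)) := by
  classical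
  have h1 := merge_cnt hF (l + R)
  rw [cnt_eq, cnt_eq] at h1
  have h2 := h1.trans (Finset.card_filter_le _ _)
  rw [card_ring] at h2
  rw [cnt_eq]
  calc _ ≤ (((box 0 (l + R)).filter (Merge f B)).biUnion fun m => box m R).card := by
        refine Finset.card_le_card fun u hu => ?_
        obtain ⟨hu1, hu2⟩ := Finset.mem_filter.1 hu
        unfold Clean at hu2
        push Not at hu2
        obtain ⟨k, -, hk, hm⟩ := hu2
        have h3 := box_mono (iter_mem_box hF.near u k) hk
        exact Finset.mem_biUnion.2 ⟨_, Finset.mem_filter.2 ⟨box_trans hu1 h3, hm⟩, box_symm h3⟩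
    _ ≤ ((box 0 (l + R)).filter (Merge f B)).card * (2 * R + 1) ^ 2 :=
        Finset.card_biUnion_le_card_mul _ _ _ fun m _ => (card_box m R).le
    _ ≤ _ := by
        rw [mul_comm]
        exact Nat.mul_le_mul_left _ h2

theorem root_close (hf : ∀ y, f y ∈ box y 1) {K R : ℕ} {w w' : V} (hw : Root f K R w)
    (hw' : Root f K R w') {i k : ℕ} (hi : i ≤ R) (hk : k ≤ R) (h : f^[i] w = f^[k] w') :
    w' ∈ box w (4 * K) := by
  have fin : ∀ i k, f^[i] w = f^[k] w' → i + k ≤ 4 * K → w' ∈ box w (4 * K) := fun i k h hik =>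
    box_mono (box_trans (iter_mem_box hf w i) (h ▸ box_symm (iter_mem_box hf w' k))) hik
  induction i generalizing k with
  | zero =>
    refine fin 0 k h ?_
    rcases Nat.eq_zero_or_pos k with rfl | hk0
    · omega
    · have := hw.2 0 w' k hi hk0 h.symm (Or.inl rfl)
      omega
  | succ i ih =>
    rcases k with _ | k
    · refine fin _ _ h ?_
      have := hw'.2 0 w (i + 1) hk (by omega) h (Or.inl rfl)
      omega
    · by_cases e : f^[i] w = f^[k] w'
      · exact ih (by omega) (by omega) e
      · refine fin _ _ h ?_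
        have h1 := hw.2 (i + 1) w' (k + 1) hi (by omega) h.symm (Or.inr (Ne.symm e))
        have h2 := hw'.2 (k + 1) w (i + 1) hk (by omega) h (Or.inr e)
        omega

theorem root_cnt (hf : ∀ y, f y ∈ box y 1) (K R n : ℕ) :
    (R + 1) * cnt (box 0 n) (Root f K R) ≤ (8 * K + 1) ^ 2 * (2 * (n + R) + 1) ^ 2 := by
  classical
  rw [cnt_eq, ← card_box 0 (n + R)]
  have h1 := Finset.card_le_mul_card_image_of_maps_to
    (s := Finset.range (R + 1) ×ˢ (box 0 n).filter (Root f K R)) (t := box 0 (n + R))
    (f := fun p => f^[p.1] p.2) (fun p hp => ?_) ((8 * K + 1) ^ 2) fun b _ => ?_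
  · rwa [Finset.card_product, Finset.card_range] at h1
  · obtain ⟨h2, h3⟩ := Finset.mem_product.1 hp
    exact box_trans (Finset.mem_filter.1 h3).1
      (box_mono (iter_mem_box hf _ _) (Nat.lt_succ_iff.1 (Finset.mem_range.1 h2)))
  · have hm : ∀ p ∈ (Finset.range (R + 1) ×ˢ (box 0 n).filter (Root f K R)).filter
        fun p => f^[p.1] p.2 = b, p.1 ≤ R ∧ Root f K R p.2 ∧ f^[p.1] p.2 = b := fun p hp => by
      obtain ⟨h2, h3⟩ := Finset.mem_filter.1 hp
      obtain ⟨h4, h5⟩ := Finset.mem_product.1 h2
      exact ⟨Nat.lt_succ_iff.1 (Finset.mem_range.1 h4), (Finset.mem_filter.1 h5).2, h3⟩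
    rcases Finset.eq_empty_or_nonempty ((Finset.range (R + 1) ×ˢ
      (box 0 n).filter (Root f K R)).filter fun p => f^[p.1] p.2 = b) with e | ⟨q, hq⟩
    · rw [e]
      exact Nat.zero_le _
    · have e : (8 * K + 1) ^ 2 = (box q.2 (4 * K)).card := by
        rw [card_box]
        ring
      rw [e]
      refine Finset.card_le_card_of_injOn Prod.snd (fun p hp => ?_) fun p hp p' hp' e => ?_
      · exact root_close hf (hm q hq).2.1 (hm p hp).2.1 (hm q hq).1 (hm p hp).1
          ((hm q hq).2.2.trans (hm p hp).2.2.symm)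
      · refine Prod.ext ((hm p hp).2.1.1 _ _ (hm p hp).1 (hm p' hp').1 ?_) e
        rw [(hm p hp).2.2, e, (hm p' hp').2.2]

end Vale.Agent.P158
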