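import Vale.Agent.P158.RegDet

/-!
TASK Fwd: the geodesic tree towards x.
Plan: exists_step: first edge of a geodesic path (Reg.geo, cases on the walk; the tail has cost at least
T and T y x ≤ edge + T z x). fwd_step: some neighbour z has Step, adj_iff says z is one of the four
candidates, split_ifs. fwd_self: Step ω x x z is impossible by positivity. T strictly decreases along
fwd away from x. between: induct along a geodesic walk from y to z (each of its steps is a Step towards
x because T y x = T y z + T z x). fwd_walk: seqWalk with f k = fwd^[k] y; path since support Nodup.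
Forest: pred is γ 1 (shift the sequence), clos: prepend fwd y (if y = x then fwd = y).
-/

namespace Vale.Agent.P158

open SimpleGraph

variable {h : ℝ} {ω : Om}

theorem Reg.exists_step (hR : Reg h ω) {x y : V} (hxy : y ≠ x) : ∃ z, Step ω x y z := by
  obtain ⟨p, -, hp⟩ := hR.geo y x
  cases p with
  | nil => exact absurd rfl hxy
  | cons ha q =>
    rename_i z
    rw [cost_cons] at hp
    refine ⟨z, ha, ?_⟩
    linarith [T_le_cost hR.nn q, T_triangle hR.nn y z x, T_le_edge hR.nn ha]

theorem Reg.not_step_self (hR : Reg h ω) (x z : V) : ¬ Step ω x x z := by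
  intro hs
  linarith [hs.2, T_self hR.nn x, hR.pos s(x, z), T_nonneg hR.nn z x]

theorem Reg.fwd_step (hR : Reg h ω) {x y : V} (hxy : y ≠ x) : Step ω x y (fwd ω x y) := by
  obtain ⟨z, hz⟩ := hR.exists_step hxy
  unfold fwd
  split_ifs with h1 h2 h3 h4
  · exact h1
  · exact h2
  · exact h3
  · exact h4
  · obtain ⟨z1, z2⟩ := z
    rcases adj_iff.1 hz.1 with ⟨a, b⟩ | ⟨a, b⟩ | ⟨a, b⟩ | ⟨a, b⟩ <;>
      · dsimp only at a b
        subst a b
        contradiction

theorem Reg.fwd_self (hR : Reg h ω) (x : V) : fwd ω x x = x := by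
  unfold fwd
  simp only [if_neg (hR.not_step_self x _)]

theorem Reg.fwd_eq (hR : Reg h ω) {x y z : V} (hs : Step ω x y z) : fwd ω x y = z := by
  have hxy : y ≠ x := by
    rintro rfl
    exact hR.not_step_self _ _ hs
  exact hR.uniq x y _ _ (hR.fwd_step hxy) hs

theorem fwd_mem_box (ω : Om) (x y : V) : fwd ω x y ∈ box y 1 := by
  unfold fwd
  split_ifs <;> rw [mem_box] <;> omega

theorem Reg.T_iter (hR : Reg h ω) (x y : V) (n : ℕ) :
    T ω y x = T ω y ((fwd ω x)^[n] y) + T ω ((fwd ω x)^[n] y) x := by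
  induction n with
  | zero => simp [T_self hR.nn]
  | succ n ih =>
    rw [Function.iterate_succ_apply']
    generalize (fwd ω x)^[n] y = w at ih
    by_cases hw : w = x
    · subst hw
      rw [hR.fwd_self]; exact ih
    · have hs := hR.fwd_step hw
      linarith [hs.2, T_triangle hR.nn y w (fwd ω x w), T_le_edge hR.nn hs.1,
        T_triangle hR.nn y (fwd ω x w) x]

theorem Reg.T_fwd_lt (hR : Reg h ω) {x y : V} (hxy : y ≠ x) : T ω (fwd ω x y) x < T ω y x := by
  linarith [(hR.fwd_step hxy).2, hR.pos s(y, fwd ω x y)]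

theorem fwd_iter_ne (hR : Reg h ω) {x w : V} (hw : w ≠ x) (n : ℕ) : (fwd ω x)^[n + 1] w ≠ w := by
  intro he
  have h1 := hR.T_iter x (fwd ω x w) n
  rw [← Function.iterate_succ_apply, he] at h1
  linarith [hR.T_fwd_lt hw, T_nonneg hR.nn (fwd ω x w) w]

theorem Reg.iter_inj (hR : Reg h ω) {x y : V} {a b : ℕ}
    (hab : (fwd ω x)^[a] y = (fwd ω x)^[b] y) (hx : (fwd ω x)^[b] y ≠ x) : a = b := by
  rcases lt_trichotomy a b with h1 | h1 | h1
  · obtain ⟨n, rfl⟩ := Nat.exists_eq_add_of_lt h1
    refine absurd ?_ (fwd_iter_ne hR (hab ▸ hx) n)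
    rw [← Function.iterate_add_apply, hab]
    congr 1
    omega
  · exact h1
  · obtain ⟨n, rfl⟩ := Nat.exists_eq_add_of_lt h1
    refine absurd ?_ (fwd_iter_ne hR hx n)
    rw [← Function.iterate_add_apply, ← hab]
    congr 1
    omega

theorem Reg.inj_of_far (hR : Reg h ω) {x u : V} {R : ℕ} (hx : x ∉ box u R) :
    Inj (fwd ω x) R u := by
  intro i j _ hj hij
  refine hR.iter_inj hij fun he => hx ?_
  exact he ▸ box_mono (iter_mem_box (fwd_mem_box ω x) u j) hj

theorem Reg.between (hR : Reg h ω) {x y z : V} (hz : T ω y x = T ω y z + T ω z x) :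
    ∃ n, (fwd ω x)^[n] y = z := by
  obtain ⟨p, -, hp⟩ := hR.geo y z
  induction p with
  | nil => exact ⟨0, rfl⟩
  | cons ha q ih =>
    rename_i y w z
    rw [cost_cons] at hp
    have h1 := T_le_cost hR.nn q
    have h2 := T_triangle hR.nn y w z
    have h3 := T_le_edge hR.nn ha
    have h4 := T_triangle hR.nn y w x
    have h5 := T_triangle hR.nn w z x
    obtain ⟨n, hn⟩ := ih (by linarith) (by linarith)
    refine ⟨n + 1, ?_⟩
    rw [Function.iterate_succ_apply, hR.fwd_eq ⟨ha, by linarith⟩, hn]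

/-- the first n steps of the geodesic from y to x as a path. -/
theorem Reg.fwd_walk (hR : Reg h ω) {x y : V} {n : ℕ} (hn : ∀ k < n, (fwd ω x)^[k] y ≠ x) :
    ∃ p : grid.Walk y ((fwd ω x)^[n] y), p.IsPath ∧ p.length = n ∧
      cost ω p = T ω y ((fwd ω x)^[n] y) ∧
      p.support = (List.range (n + 1)).map (fun k => (fwd ω x)^[k] y) ∧
      p.edges = (List.range n).map fun k => s((fwd ω x)^[k] y, (fwd ω x)^[k + 1] y) := by
  have hs : ∀ k < n, Step ω x ((fwd ω x)^[k] y) ((fwd ω x)^[k + 1] y) := fun k hk => by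
    rw [Function.iterate_succ_apply']
    exact hR.fwd_step (hn k hk)
  obtain ⟨p, h1, h2, h3⟩ := seqWalk (fun k => (fwd ω x)^[k] y) n fun k hk => (hs k hk).1
  have h4 : ∀ m ≤ n, (((List.range m).map fun k =>
      s((fwd ω x)^[k] y, (fwd ω x)^[k + 1] y)).map ω).sum = T ω y x - T ω ((fwd ω x)^[m] y) x := by
    intro m
    induction m with
    | zero => intro _; simp
    | succ m ih =>
      intro hm
      rw [List.range_succ, List.map_append, List.map_append, List.sum_append, ih (by omega)]
      have := (hs m hm).2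
      simp only [List.map_cons, List.map_nil, List.sum_cons, List.sum_nil]
      linarith
  have h5 : cost ω p = T ω y ((fwd ω x)^[n] y) := by
    unfold cost
    rw [h3, h4 n le_rfl]
    linarith [hR.T_iter x y n]
  exact ⟨p, isPath_of_geo hR.pos p h5, h1, h5, h2, h3⟩

theorem Reg.forest (hR : Reg h ω) (x : V) : Forest (fwd ω x) (Back ω x) := by
  refine ⟨fwd_mem_box ω x, ?_, ?_⟩
  · rintro _ ⟨γ, rfl, hγ⟩
    exact ⟨γ 1, ⟨fun n => γ (n + 1), rfl, fun n => hγ (n + 1)⟩, (hγ 0).1.ne, hR.fwd_eq (hγ 0)⟩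
  · rintro y hy
    by_cases hxy : y = x
    · subst hxy
      rw [hR.fwd_self]; exact hy
    · obtain ⟨γ, rfl, hγ⟩ := hy
      refine ⟨fun n => Nat.casesOn n (fwd ω x (γ 0)) γ, rfl, fun n => ?_⟩
      cases n with
      | zero => exact hR.fwd_step hxy
      | succ n => exact hγ n

/-- a backward path leaves every finite set, and u is between its far points and x. -/
theorem Reg.back_far (hR : Reg h ω) {x u : V} (hu : Back ω x u) (F : Finset V) :
    ∃ y, y ∉ F ∧ T ω y x = T ω y u + T ω u x := by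
  obtain ⟨γ, rfl, hγ⟩ := hu
  have h1 : StrictMono fun n => T ω (γ n) x := strictMono_nat_of_lt_succ fun n => by
    linarith [(hγ n).2, hR.pos s(γ (n + 1), γ n)]
  have h2 : Function.Injective γ := fun a b hab => h1.injective (by simp only [hab])
  obtain ⟨n, hn⟩ := escape_nat h2 F.finite_toSet
  have h3 : ∀ m, (fwd ω x)^[m] (γ m) = γ 0 := by
    intro m
    induction m with
    | zero => rfl
    | succ m ih => rw [Function.iterate_succ_apply, hR.fwd_eq (hγ m), ih]
  refine ⟨γ n, hn n le_rfl, ?_⟩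
  have h4 := hR.T_iter x (γ n) n
  rwa [h3] at h4

end Vale.Agent.P158
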