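import Vale.Agent.P158.J1

/-!
TASK Glue: sub-crossings and gluing of crossings (deterministic).
Plan. subH: first cut the walk at the first vertex with x.1 = b (induction on the walk: statement for any
start with p.1 ≤ b: there is an initial piece ending at column b with all columns ≤ b, support inside,
cost not larger), then do the same on the reversed piece for the last visit to column a.
subV: same with coordinates exchanged (prove a general lemma for a function F : V → ℤ changing by at most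
one along edges, use F = fst and F = snd).
glue2: W1 crosses a..b1, W2 crosses a2..b2, U crosses vertically inside columns a2..b1. subH gives
crossings of the square a2..b1 inside W1 and inside W2, both meet U (J0). join twice (with a nil
connection would double costs, so build directly: W1 up to z1 (takeUntil), a piece of U from z1 to z2
(cost at most cost U: use takeUntil/dropUntil, in either order), W2 from z2 on (dropUntil)).
strip: induction on m with glue2.
-/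

namespace Vale.Agent.P158

open SimpleGraph

variable {ω : Om}

theorem glue_cut (h0 : ∀ e, 0 ≤ ω e) (F : V → ℤ) (hF : ∀ x y, grid.Adj x y → F y ≤ F x + 1)
    (b : ℤ) {p q : V} (W : grid.Walk p q) (hp : F p ≤ b) (hq : b ≤ F q) :
    ∃ (q' : V) (W' : grid.Walk p q'), F q' = b ∧
      (∀ z ∈ W'.support, z ∈ W.support ∧ F z ≤ b) ∧ cost ω W' ≤ cost ω W := by
  induction W with
  | nil =>
    refine ⟨_, Walk.nil, le_antisymm hp hq, ?_, le_rfl⟩
    intro z hz
    refine ⟨hz, ?_⟩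
    rw [Walk.support_nil, List.mem_singleton] at hz
    rw [hz]; exact hp
  | @cons u x y h W ih =>
    by_cases hu : F u = b
    · refine ⟨u, Walk.nil, hu, ?_, ?_⟩
      · intro z hz
        rw [Walk.support_nil, List.mem_singleton] at hz
        subst hz
        exact ⟨Walk.start_mem_support _, hp⟩
      · rw [cost_nil]; exact cost_nonneg h0 _
    · have hx : F x ≤ b := by have := hF u x h; omega
      obtain ⟨q', W', h1, h2, h3⟩ := ih hx hq
      refine ⟨q', Walk.cons h W', h1, ?_, ?_⟩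
      · intro z hz
        rw [Walk.support_cons, List.mem_cons] at hz ⊢
        rcases hz with hz | hz
        · subst hz; exact ⟨Or.inl rfl, hp⟩
        · exact ⟨Or.inr (h2 z hz).1, (h2 z hz).2⟩
      · rw [cost_cons, cost_cons]; linarith

theorem glue_sub (h0 : ∀ e, 0 ≤ ω e) (F : V → ℤ) (hF : ∀ x y, grid.Adj x y → F y ≤ F x + 1)
    {p q : V} (W : grid.Walk p q) {a b : ℤ} (hab : a ≤ b) (hp : F p ≤ a) (hq : b ≤ F q) :
    ∃ (p' q' : V) (W' : grid.Walk p' q'), F p' = a ∧ F q' = b ∧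
      (∀ z ∈ W'.support, z ∈ W.support ∧ a ≤ F z ∧ F z ≤ b) ∧ cost ω W' ≤ cost ω W := by
  obtain ⟨q', W1, h1, h2, h3⟩ := glue_cut h0 F hF b W (hp.trans hab) hq
  obtain ⟨p', W2, k1, k2, k3⟩ := glue_cut h0 (fun z => -F z)
    (fun x y h => by have := hF y x h.symm; omega) (-a) W1.reverse (by omega) (by omega)
  refine ⟨p', q', W2.reverse, by omega, h1, ?_, ?_⟩
  · intro z hz
    rw [Walk.support_reverse, List.mem_reverse] at hz
    obtain ⟨m1, m2⟩ := k2 z hz
    rw [Walk.support_reverse, List.mem_reverse] at m1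
    exact ⟨(h2 z m1).1, by omega, (h2 z m1).2⟩
  · rw [cost_reverse] at k3 ⊢
    linarith

theorem subH (h0 : ∀ e, 0 ≤ ω e) {p q : V} (W : grid.Walk p q) {a b : ℤ} (hab : a ≤ b)
    (hp : p.1 ≤ a) (hq : b ≤ q.1) :
    ∃ (p' q' : V) (W' : grid.Walk p' q'), p'.1 = a ∧ q'.1 = b ∧
      (∀ z ∈ W'.support, z ∈ W.support ∧ a ≤ z.1 ∧ z.1 ≤ b) ∧ cost ω W' ≤ cost ω W :=
  glue_sub h0 Prod.fst (fun x y h => by rw [adj_iff] at h; omega) W hab hp hq

theorem subV (h0 : ∀ e, 0 ≤ ω e) {p q : V} (W : grid.Walk p q) {c d : ℤ} (hcd : c ≤ d)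
    (hp : p.2 ≤ c) (hq : d ≤ q.2) :
    ∃ (p' q' : V) (W' : grid.Walk p' q'), p'.2 = c ∧ q'.2 = d ∧
      (∀ z ∈ W'.support, z ∈ W.support ∧ c ≤ z.2 ∧ z.2 ≤ d) ∧ cost ω W' ≤ cost ω W :=
  glue_sub h0 Prod.snd (fun x y h => by rw [adj_iff] at h; omega) W hcd hp hq

theorem HC.mono (h0 : ∀ e, 0 ≤ ω e) {a b c d a' b' c' d' : ℤ} {M M' : ℝ} (hH : HC ω a b c d M)
    (ha : a ≤ a') (hab : a' ≤ b') (hb : b' ≤ b) (hc : c' ≤ c) (hd : d ≤ d') (hM : M ≤ M') :
    HC ω a' b' c' d' M' := by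
  obtain ⟨p, q, W, hp, hq, hW, hc'⟩ := hH
  obtain ⟨p', q', W', k1, k2, k3, k4⟩ := subH h0 W hab (by omega) (by omega)
  refine ⟨p', q', W', k1, k2, ?_, by linarith⟩
  intro z hz
  obtain ⟨m1, m2, m3⟩ := k3 z hz
  obtain ⟨n1, n2, n3, n4⟩ := hW z m1
  exact ⟨m2, m3, by omega, by omega⟩

theorem VC.mono (h0 : ∀ e, 0 ≤ ω e) {a b c d a' b' c' d' : ℤ} {M M' : ℝ} (hH : VC ω a b c d M)
    (ha : a' ≤ a) (hb : b ≤ b') (hc : c ≤ c') (hcd : c' ≤ d') (hd : d' ≤ d) (hM : M ≤ M') :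
    VC ω a' b' c' d' M' := by
  obtain ⟨p, q, W, hp, hq, hW, hc'⟩ := hH
  obtain ⟨p', q', W', k1, k2, k3, k4⟩ := subV h0 W hcd (by omega) (by omega)
  refine ⟨p', q', W', k1, k2, ?_, by linarith⟩
  intro z hz
  obtain ⟨m1, m2, m3⟩ := k3 z hz
  obtain ⟨n1, n2, n3, n4⟩ := hW z m1
  exact ⟨by omega, by omega, m2, m3⟩

/-- a piece of a walk between two of its vertices. -/
theorem glue_piece (h0 : ∀ e, 0 ≤ ω e) {p q z z' : V} (U : grid.Walk p q) (hz : z ∈ U.support)
    (hz' : z' ∈ U.support) :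
    ∃ U' : grid.Walk z z', (∀ y ∈ U'.support, y ∈ U.support) ∧ cost ω U' ≤ cost ω U := by
  obtain ⟨A, B, rfl⟩ := Walk.mem_support_iff_exists_append.1 hz
  rcases (Walk.mem_support_append_iff A B).1 hz' with h1 | h1
  · obtain ⟨C, D, rfl⟩ := Walk.mem_support_iff_exists_append.1 h1
    refine ⟨D.reverse, ?_, ?_⟩
    · intro y hy
      rw [Walk.support_reverse, List.mem_reverse] at hy
      exact (Walk.mem_support_append_iff _ _).2 (Or.inl ((Walk.mem_support_append_iff _ _).2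
        (Or.inr hy)))
    · rw [cost_reverse, cost_append, cost_append]
      have := cost_nonneg h0 C
      have := cost_nonneg h0 B
      linarith
  · obtain ⟨C, D, rfl⟩ := Walk.mem_support_iff_exists_append.1 h1
    refine ⟨C, ?_, ?_⟩
    · intro y hy
      exact (Walk.mem_support_append_iff _ _).2 (Or.inr ((Walk.mem_support_append_iff _ _).2
        (Or.inl hy)))
    · rw [cost_append, cost_append]
      have := cost_nonneg h0 A
      have := cost_nonneg h0 D
      linarith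

theorem glue2 (h0 : ∀ e, 0 ≤ ω e) {a a2 b1 b2 c d : ℤ} {M1 M2 M3 : ℝ} (ha : a ≤ a2)
    (hab : a2 < b1) (hb : b1 ≤ b2) (hcd : c < d) (h1 : HC ω a b1 c d M1) (h2 : HC ω a2 b2 c d M2)
    (h3 : VC ω a2 b1 c d M3) : HC ω a b2 c d (M1 + M2 + M3) := by
  obtain ⟨p1, q1, W1, hp1, hq1, hW1, c1⟩ := h1
  obtain ⟨p2, q2, W2, hp2, hq2, hW2, c2⟩ := h2
  obtain ⟨p3, q3, U, hp3, hq3, hU, c3⟩ := h3
  obtain ⟨r1, s1, X1, k1, k2, k3, -⟩ := subH h0 W1 hab.le (by omega) (by omega)
  obtain ⟨r2, s2, X2, l1, l2, l3, -⟩ := subH h0 W2 hab.le (by omega) (by omega)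
  obtain ⟨z1, hz1, hz1'⟩ := J0 hab hcd X1 U k1 k2 hp3 hq3 (fun z hz => by
    obtain ⟨m1, m2, m3⟩ := k3 z hz
    exact ⟨m2, m3, (hW1 z m1).2.2.1, (hW1 z m1).2.2.2⟩) hU
  obtain ⟨z2, hz2, hz2'⟩ := J0 hab hcd X2 U l1 l2 hp3 hq3 (fun z hz => by
    obtain ⟨m1, m2, m3⟩ := l3 z hz
    exact ⟨m2, m3, (hW2 z m1).2.2.1, (hW2 z m1).2.2.2⟩) hU
  obtain ⟨A, kA, cA⟩ := glue_piece h0 W1 (Walk.start_mem_support W1) (k3 z1 hz1).1
  obtain ⟨B, kB, cB⟩ := glue_piece h0 U hz1' hz2'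
  obtain ⟨C, kC, cC⟩ := glue_piece h0 W2 (l3 z2 hz2).1 (Walk.end_mem_support W2)
  refine ⟨p1, q2, A.append (B.append C), hp1, hq2, ?_, ?_⟩
  · intro z hz
    rcases (Walk.mem_support_append_iff _ _).1 hz with hz | hz
    · obtain ⟨n1, n2, n3, n4⟩ := hW1 z (kA z hz)
      exact ⟨n1, by omega, n3, n4⟩
    · rcases (Walk.mem_support_append_iff _ _).1 hz with hz | hz
      · obtain ⟨n1, n2, n3, n4⟩ := hU z (kB z hz)
        exact ⟨by omega, by omega, n3, n4⟩
      · obtain ⟨n1, n2, n3, n4⟩ := hW2 z (kC z hz)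
        exact ⟨by omega, n2, n3, n4⟩
  · rw [cost_append, cost_append]; linarith

/-- m+1 rectangles of width N2 and height N1 overlapping in squares. -/
theorem strip (h0 : ∀ e, 0 ≤ ω e) {N1 N2 : ℤ} (hN1 : 0 < N1) (hN : N1 ≤ N2) {M M' : ℝ}
    (a c : ℤ) (m : ℕ)
    (hH : ∀ i : ℕ, i ≤ m → HC ω (a + i * (N2 - N1)) (a + i * (N2 - N1) + N2) c (c + N1) M)
    (hV : ∀ i : ℕ, 1 ≤ i → i ≤ m →
      VC ω (a + i * (N2 - N1)) (a + i * (N2 - N1) + N1) c (c + N1) M') :
    HC ω a (a + m * (N2 - N1) + N2) c (c + N1) ((m + 1) * M + m * M') := by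
  induction m with
  | zero => simpa using hH 0 le_rfl
  | succ m ih =>
    have h1 := ih (fun i hi => hH i (by omega)) (fun i h1 hi => hV i h1 (by omega))
    have h2 := hH (m + 1) le_rfl
    have h3 := hV (m + 1) (by omega) le_rfl
    have e1 : a + ((m + 1 : ℕ) : ℤ) * (N2 - N1) + N1 = a + m * (N2 - N1) + N2 := by
      push_cast; ring
    rw [e1] at h3
    have hm : (0 : ℤ) ≤ ((m + 1 : ℕ) : ℤ) * (N2 - N1) := mul_nonneg (by positivity) (by omega)
    have e2 : ((m + 1 : ℕ) : ℤ) * (N2 - N1) = m * (N2 - N1) + (N2 - N1) := by push_cast; ring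
    have h4 := glue2 h0 (by omega) (by omega) (by omega) (by omega) h1 h2 h3
    have e3 : ((m : ℝ) + 1) * M + m * M' + M + M' =
        (((m + 1 : ℕ) : ℝ) + 1) * M + ((m + 1 : ℕ) : ℝ) * M' := by push_cast; ring
    rw [e3] at h4
    exact h4

end Vale.Agent.P158
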