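import Vale.Agent.P158.LemE
import Vale.Agent.P158.Dinf
import Vale.Agent.P158.B2

/-!
TASK GoodAE: property B* almost surely.
pb_core: hL and its symmetries (Linked.symm, swap1, swap2, rev_rev) feed b1 for the pairs (γ, γ'), (rev γ, rev γ'), (γ', γ);
finite_inter, range_rev. If the lines share a vertex, not_bdd contradicts the first bound. Otherwise PE gives the constants S1, S2
(use bus_rev for γ' at index -k), S3; kappa_ge gives S1 + S2 ≥ η > 0; hfe with S = {s(γ 0, γ 1)}, I = Ioo (ω f - κ) (ω f)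
(Acc) and b2_det. pb_of: the four keys are pairwise different (key_ne; ranges of past ends are inside the ranges; the two ends of one
line meet only in γ 0); altK_tri: Cross, or linked_of_alt and pb_core for γ', or for rev γ'.
-/

namespace Vale.Agent.P158

open MeasureTheory

variable {G : Measure ℝ} {h g : ℝ} {ω : Om}

theorem pb_core (hR : Reg h ω) (hY : NoY ω) (hE : PE ω) (hA : Acc G ω)
    (hfe : ∀ (S : Finset E) (I : E → Set ℝ), (∀ e ∈ S, MeasurableSet (I e) ∧ 0 < G (I e)) →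
      ∃ ω' : Om, (∀ e ∉ S, ω' e = ω e) ∧ (∀ e ∈ S, ω' e ∈ I e) ∧ (Reg h ω' ∧ PE ω'))
    {η : ℝ} {γ γ' : ℤ → V} (hη : 0 < η) (hγ : IsLine ω γ) (hγ' : IsLine ω γ') (hD : Det ω γ 0 η)
    (hne : Set.range γ ≠ Set.range γ')
    (hL : Linked (past γ) (past (rev γ')) (past (rev γ)) (past γ')) : False := by
  have h0 := hR.nn
  have hf := finite_inter hR hY hγ hγ' hne
  have c1 := b1 hR hγ hγ' hf hL
  have c2 := b1 hR (hγ.rev h0) (hγ'.rev h0) (by rwa [range_rev, range_rev])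
    (by rw [rev_rev, rev_rev]; exact hL.symm)
  have c3 := b1 hR hγ' hγ (by rwa [Set.inter_comm]) hL.symm.swap1.swap2
  have hdis : ∀ i j, γ i ≠ γ' j := fun i j hc => not_bdd hR hY hE hγ hγ' hne hc c1
  have h1 := hE γ γ' hγ hγ' c1
  have h2 : ∀ k, bus ω (rev γ) (γ' k) + bus ω γ' (γ' k) = bus ω (rev γ) (rev γ' 0) := fun k => by
    have e := hE _ _ (hγ.rev h0) (hγ'.rev h0) c2 (-k)
    rw [rev_apply γ' (-k), neg_neg, bus_rev h0 hγ' k] at e
    linarith
  have h3 := hE γ' γ hγ' hγ c3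
  have hk := kappa_ge hR hγ hγ' (fun k => (hdis 0 k).symm) hD h1 h2
  obtain ⟨ω', e1, e2, hR', hE'⟩ := hfe {s(γ 0, γ 1)}
    (fun e => Set.Ioo (ω e - (bus ω γ (γ' 0) + bus ω (rev γ) (rev γ' 0))) (ω e))
    fun e _ => ⟨measurableSet_Ioo, hA e _ (hη.trans_le hk)⟩
  have e3 := e2 _ (Finset.mem_singleton_self _)
  exact b2_det hR hγ hγ' hdis h1 h2 h3 (fun e he => e1 e (by simpa using he)) e3.1 e3.2 hR' hE' 


theorem goodae_past (γ : ℤ → V) : Set.range (past γ) ⊆ Set.range γ := by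
  rintro _ ⟨n, rfl⟩
  exact ⟨_, rfl⟩

theorem goodae_fut (γ : ℤ → V) : Set.range (past (rev γ)) ⊆ Set.range γ := by
  rintro _ ⟨n, rfl⟩
  exact ⟨_, rfl⟩

theorem goodae_ends {γ : ℤ → V} (hγ : Function.Injective γ) :
    (Set.range (past γ) ∩ Set.range (past (rev γ))).Finite := by
  refine (Set.finite_singleton (γ 0)).subset ?_
  rintro _ ⟨⟨n, rfl⟩, m, hm⟩
  have e : -(-(m : ℤ)) = -(n : ℤ) := hγ hm
  have e2 : -(n : ℤ) = 0 := by omega
  show γ (-(n : ℤ)) = γ 0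
  rw [e2]

theorem pb_of (hR : Reg h ω) (hY : NoY ω) (hE : PE ω) (hA : Acc G ω)
    (hfe : ∀ (S : Finset E) (I : E → Set ℝ), (∀ e ∈ S, MeasurableSet (I e) ∧ 0 < G (I e)) →
      ∃ ω' : Om, (∀ e ∉ S, ω' e = ω e) ∧ (∀ e ∈ S, ω' e ∈ I e) ∧ (Reg h ω' ∧ PE ω')) :
    PB ω := by
  intro η γ γ' hη hγ hγ' hD hne
  have h0 := hR.nn
  have hf := finite_inter hR hY hγ hγ' hne
  have r1 := hγ.rayW hR.pos
  have r2 := hγ'.rayW hR.pos
  have r3 := (hγ.rev h0).rayW hR.pos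
  have r4 := (hγ'.rev h0).rayW hR.pos
  have hs := fun {A B : Set V} (a : A ⊆ Set.range γ) (b : B ⊆ Set.range γ') =>
    hf.subset (Set.inter_subset_inter a b)
  rcases altK_tri (key_ne r1 r2 (hs (goodae_past γ) (goodae_past γ')))
    (key_ne r1 r3 (goodae_ends (hγ.inj hR.pos)))
    (key_ne r1 r4 (hs (goodae_past γ) (goodae_fut γ')))
    (key_ne r3 r2 (hs (goodae_fut γ) (goodae_past γ'))).symm
    (key_ne r2 r4 (goodae_ends (hγ'.inj hR.pos)))
    (key_ne r3 r4 (hs (goodae_fut γ) (goodae_fut γ'))) with hc | hc | hc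
  · exact hc
  · exact (pb_core hR hY hE hA hfe hη hγ hγ' hD hne (linked_of_alt r1 r3 r4 r2 hc)).elim
  · exact (pb_core hR hY hE hA hfe hη hγ (hγ'.rev h0) hD (by rwa [range_rev])
      (by rw [rev_rev]; exact linked_of_alt r1 r3 r2 r4 hc)).elim

theorem good_ae [IsProbabilityMeasure G] (hp : Par G h g) : ∀ᵐ ω ∂mu G, Good h ω := by
  filter_upwards [reg_ae hp, noY_ae hp, pe_ae hp, acc_ae hp,
    fe_ae G ((reg_ae hp).and (pe_ae hp))] with ω h1 h2 h3 h4 h5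
  exact ⟨h1, h2, h3, pb_of h1 h2 h3 h4 h5⟩

end Vale.Agent.P158
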