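import Vale.Agent.P158.Basic

/-!
TASK Inv: invariance under lattice symmetries.
Plan. act φ is precomposition with the equivalence Sym2.map φ of E (build the Equiv), so it is a
MeasurableEquiv preserving infinitePi (Measure.infinitePi_map_piCongrLeft or Measure.eq_infinitePi);
MeasurableEquiv.map_apply holds for all sets. cost_act: Walk.edges_map. T_act: le_antisymm is awkward without sign
assumptions; rather use that p to p.map φ is a bijection of walk types (inverse: map φ.symm and copy) and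
Equiv.iInf_comp / Function.Surjective.iInf_comp. The covariance lemmas unfold the definitions; for Det
transport the walk by (tr a).symm; mem_box and omega for boxes (Prod.fst_add ...).
For BadNear the direction is reversed: translate the two lines back by -v.
-/

namespace Vale.Agent.P158

open MeasureTheory SimpleGraph

/-- the action of a symmetry on unordered pairs. -/
def inv_eq (φ : grid ≃g grid) : E ≃ E where
  toFun := Sym2.map φ
  invFun := Sym2.map φ.symm
  left_inv e := by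
    rw [Sym2.map_map]
    simp
  right_inv e := by
    rw [Sym2.map_map]
    simp

theorem inv_act_eq (φ : grid ≃g grid) :
    act φ = MeasurableEquiv.piCongrLeft (fun _ : E => ℝ) (inv_eq φ).symm := by
  funext ω e
  obtain ⟨e, rfl⟩ := (inv_eq φ).symm.surjective e
  rw [MeasurableEquiv.piCongrLeft_apply_apply]
  exact congrArg ω ((inv_eq φ).apply_symm_apply e)

theorem mu_act (G : Measure ℝ) [IsProbabilityMeasure G] (φ : grid ≃g grid) (A : Set Om) :
    mu G (act φ ⁻¹' A) = mu G A := by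
  rw [inv_act_eq, ← MeasurableEquiv.map_apply]
  exact congrArg (fun m : Measure Om => m A)
    (Measure.infinitePi_map_piCongrLeft (fun _ : E => G) (inv_eq φ).symm)

theorem act_mk (φ : grid ≃g grid) (ω : Om) (x y : V) : act φ ω s(x, y) = ω s(φ x, φ y) := rfl

theorem cost_act (φ : grid ≃g grid) (ω : Om) {x y : V} (p : grid.Walk x y) :
    cost (act φ ω) p = cost ω (p.map φ.toHom) := by
  unfold cost
  rw [Walk.edges_map, List.map_map]
  rfl

theorem inv_lift (φ : grid ≃g grid) {a b : V} (q : grid.Walk a b) :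
    ∀ x y : V, φ x = a → φ y = b → ∃ p : grid.Walk x y,
      (∀ ω : Om, cost (act φ ω) p = cost ω q) ∧ ∀ z ∈ p.support, φ z ∈ q.support := by
  intro x y hx hy
  obtain rfl : x = φ.symm a := by rw [← hx]; simp
  obtain rfl : y = φ.symm b := by rw [← hy]; simp
  refine ⟨q.map φ.symm.toHom, fun ω => ?_, fun z hz => ?_⟩
  · unfold cost
    rw [Walk.edges_map, List.map_map]
    congr 1
    refine List.map_congr_left fun e _ => ?_
    exact congrArg ω ((inv_eq φ).apply_symm_apply e)
  · rw [Walk.support_map, List.mem_map] at hz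
    obtain ⟨u, hu, rfl⟩ := hz
    have : φ (φ.symm.toHom u) = u := φ.apply_symm_apply u
    rwa [this]

theorem T_act (φ : grid ≃g grid) (ω : Om) (x y : V) : T (act φ ω) x y = T ω (φ x) (φ y) := by
  unfold T iInf
  congr 1
  ext c
  constructor
  · rintro ⟨p, rfl⟩
    exact ⟨p.map φ.toHom, (cost_act φ ω p).symm⟩
  · rintro ⟨q, rfl⟩
    obtain ⟨p, hp, -⟩ := inv_lift φ q x y rfl rfl
    exact ⟨p, hp ω⟩

theorem inv_step (φ : grid ≃g grid) (ω : Om) (x y z : V) :
    Step (act φ ω) x y z ↔ Step ω (φ x) (φ y) (φ z) := by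
  unfold Step
  rw [T_act, T_act, act_mk, φ.map_adj_iff]

theorem isLine_act (φ : grid ≃g grid) (ω : Om) (γ : ℤ → V) :
    IsLine (act φ ω) γ ↔ IsLine ω (fun i => φ (γ i)) := by
  unfold IsLine
  simp only [inv_step]

theorem inv_box (a v z : V) (r : ℕ) : z + a ∈ box (v + a) r ↔ z ∈ box v r := by
  simp only [mem_box, Prod.fst_add, Prod.snd_add]
  omega

theorem det_act (a : V) (ω : Om) (γ : ℤ → V) (r : ℕ) (w : ℝ) :
    Det (act (tr a) ω) γ r w ↔ Det ω (fun i => γ i + a) r w := by
  constructor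
  · intro h i j x y q hi hj hx hy hq
    obtain ⟨p, hp, hs⟩ := inv_lift (tr a) q (γ i) (γ j) hx hy
    have h1 := h i j _ _ p hi hj rfl rfl fun z hz hb => hq _ (hs z hz) ((inv_box a _ z r).2 hb)
    rw [T_act, hp] at h1
    subst hx hy
    exact h1
  · intro h i j x y p hi hj hx hy hp
    rw [T_act, cost_act]
    refine h i j _ _ (p.map (tr a).toHom) hi hj (by rw [← hx]; rfl) (by rw [← hy]; rfl)
      fun z hz hb => ?_
    rw [Walk.support_map, List.mem_map] at hz
    obtain ⟨u, hu, rfl⟩ := hz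
    exact hp u hu ((inv_box a _ u r).1 hb)

theorem vc_iff (ω : Om) (a b c d : ℤ) (M : ℝ) :
    VC ω a b c d M ↔ HC (act sw ω) c d a b M := by
  constructor
  · rintro ⟨p, q, W, hp, hq, hs, hc⟩
    obtain ⟨W', h1, h2⟩ := inv_lift sw W p.swap q.swap rfl rfl
    refine ⟨p.swap, q.swap, W', hp, hq, fun z hz => ?_, (h1 ω).le.trans hc⟩
    obtain ⟨k1, k2, k3, k4⟩ := hs _ (h2 z hz)
    exact ⟨k3, k4, k1, k2⟩
  · rintro ⟨p, q, W, hp, hq, hs, hc⟩
    refine ⟨sw p, sw q, W.map sw.toHom, hp, hq, fun z hz => ?_, (cost_act sw ω W).ge.trans hc⟩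
    rw [Walk.support_map, List.mem_map] at hz
    obtain ⟨u, hu, rfl⟩ := hz
    obtain ⟨k1, k2, k3, k4⟩ := hs u hu
    exact ⟨k3, k4, k1, k2⟩

theorem yev_act {ω : Om} {v : V} (h : Yev (act (tr v) ω) 0) : Yev ω v := by
  obtain ⟨γ, γ', h1, h2, h3, h4, h5⟩ := h
  refine ⟨fun i => γ i + v, fun i => γ' i + v, (isLine_act _ _ _).1 h1, (isLine_act _ _ _).1 h2,
    by simp [h3], fun i hi => by simp only [h4 i hi], fun he => h5 (add_right_cancel he)⟩

theorem inv_wit {ω : Om} {v : V} {t : ℕ} {w : ℝ} {γ γ' : ℤ → V}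
    (h : Wit (act (tr v) ω) t w γ γ') : Wit ω t w (fun i => γ i + v) (fun i => γ' i + v) := by
  obtain ⟨i, i', j, j', a1, a2, a3, a4, a5, a6, a7, a8⟩ := h
  rw [T_act, T_act, T_act] at a8
  exact ⟨i, i', j, j', a1, a2, a3, a4, a5, a6, by simp only [a7], a8⟩

theorem goodAt_act {ω : Om} {v : V} {k r t : ℕ} {η w M0 : ℝ}
    (h : GoodAt (act (tr v) ω) 0 k η r w t M0) : GoodAt ω v k η r w t M0 := by
  obtain ⟨⟨f, hf, hf'⟩, hb, hl⟩ := h
  have hbox : ∀ (z : V) (s : ℕ), z + v ∈ box v s ↔ z ∈ box 0 s := fun z s => by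
    have := inv_box v 0 z s
    rwa [zero_add] at this
  refine ⟨⟨fun i n => f i n + v, fun i => ?_, fun i j hij a b he => ?_⟩, ?_, ?_⟩
  · obtain ⟨k1, k2, k3, k4⟩ := hf i
    exact ⟨(isLine_act _ _ _).1 k1, by simp [k2], (det_act _ _ _ _ _).1 k3,
      (det_act _ _ _ _ _).1 k4⟩
  · exact (hbox _ _).2 (hf' i j hij a b (add_right_cancel he))
  · rintro ⟨γ, γ', k1, k2, k3, k4, k5, k6, k7⟩
    have e1 : (fun i => γ i - v + v) = γ := funext fun i => sub_add_cancel _ _
    have e2 : (fun i => γ' i - v + v) = γ' := funext fun i => sub_add_cancel _ _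
    refine hb ⟨fun i => γ i - v, fun i => γ' i - v, (isLine_act _ _ _).2 ?_,
      (isLine_act _ _ _).2 ?_, by simp [k3], (det_act _ _ _ _ _).2 ?_, ?_, fun n hn => ?_,
      fun hw => k7 ?_⟩
    · exact e1.symm ▸ k1
    · exact e2.symm ▸ k2
    · exact e1.symm ▸ k4
    · rw [← hbox, sub_add_cancel]
      exact k5
    · exact k6 n (sub_eq_zero.1 hn)
    · have := inv_wit hw
      rwa [e1, e2] at this
  · intro e he
    induction e using Sym2.ind with
    | _ x y =>
      rw [mk_mem_ebox] at he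
      have h1 := hl s(x - v, y - v) (mk_mem_ebox.2
        ⟨by rw [← hbox, sub_add_cancel]; exact he.1, by rw [← hbox, sub_add_cancel]; exact he.2⟩)
      rwa [act_mk, tr_apply, tr_apply, sub_add_cancel, sub_add_cancel] at h1

theorem ml_act {ω : Om} {γ : ℤ → V} {η : ℝ} (hγ : IsLine ω γ) (hD : Det ω γ 0 η) :
    ML (act (tr (γ 0)) ω) η (fun i => γ i - γ 0) := by
  have e1 : (fun i => γ i - γ 0 + γ 0) = γ := funext fun i => sub_add_cancel _ _
  refine ⟨(isLine_act _ _ _).2 ?_, sub_self _, (det_act _ _ _ _ _).2 ?_⟩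
  · exact e1.symm ▸ hγ
  · exact e1.symm ▸ hD

end Vale.Agent.P158
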