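import Mathlib

/-!
TASK Proj: analytic sets are universally measurable; projections of Borel sets.
Plan. analytic_null: A = range f with f : (ℕ → ℕ) → Ω continuous (AnalyticSet def; empty case trivial).
Fix ε. Choose recursively N 0, N 1, ... with μ (f '' {x : x i ≤ N i for i < k}) > μ A - ε for all k
(outer measure is continuous from below on monotone unions: Monotone.measure_iUnion / measure_iUnion_eq_iSup,
tendsto_measure_iUnion_atTop need no measurability). Let C k be the closure of that image; μ (⋂ C k) ≥ μ A - ε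
(tendsto_measure_iInter_atTop). ⋂ C k ⊆ f '' K with K = {x : ∀ i, x i ≤ N i} ⊆ A: if y in all C k, pick x_k in the k-th
set with dist (f x_k) y < 1/(k+1) (upgradeIsCompletelyMetrizable or a compatible metric); a subsequence (ultrafilter limit,
coordinatewise eventually constant as x_k i ≤ N i for k > i) converges to x in K, and f x = y. So there is
a measurable set inside A of measure ≥ μ A - ε. Union over ε = 1/(n+1): measurable B ⊆ A ⊆ toMeasurable A with equal finite
measure, so A is a.e. equal to B. proj_null: MeasurableSet.analyticSet and AnalyticSet.image_of_continuous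
with continuous_fst.
-/

namespace Vale.Agent.P158

open MeasureTheory

open Filter Topology in
theorem proj_inner {Ω : Type*} [TopologicalSpace Ω] [T2Space Ω] [MeasurableSpace Ω]
    [BorelSpace Ω] (μ : Measure Ω) [IsFiniteMeasure μ] {f : (ℕ → ℕ) → Ω} (hf : Continuous f)
    {c : ENNReal} (hc : c < μ (Set.range f)) :
    ∃ B, MeasurableSet B ∧ B ⊆ Set.range f ∧ c ≤ μ B := by
  have step : ∀ (k : ℕ) (D : {D : Set (ℕ → ℕ) // c < μ (f '' D)}),
      ∃ n, c < μ (f '' (D.1 ∩ {x | x k ≤ n})) := by
    intro k D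
    have h1 : f '' D.1 = ⋃ n, f '' (D.1 ∩ {x | x k ≤ n}) := by
      rw [← Set.image_iUnion, ← Set.inter_iUnion]
      have : (⋃ n, {x : ℕ → ℕ | x k ≤ n}) = Set.univ :=
        Set.eq_univ_of_forall fun x => Set.mem_iUnion.2 ⟨x k, le_refl (x k)⟩
      rw [this, Set.inter_univ]
    have h2 : Monotone fun n => f '' (D.1 ∩ {x | x k ≤ n}) := fun a b hab =>
      Set.image_mono (Set.inter_subset_inter_right _ fun x hx => le_trans hx hab)
    have h3 := D.2
    rw [h1, h2.measure_iUnion] at h3
    exact lt_iSup_iff.1 h3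
  choose g hg using step
  let D : ℕ → {D : Set (ℕ → ℕ) // c < μ (f '' D)} := fun k =>
    Nat.rec ⟨Set.univ, by rwa [Set.image_univ]⟩
      (fun k D => ⟨D.1 ∩ {x | x k ≤ g k D}, hg k D⟩) k
  have hD : Antitone fun k => (D k).1 := antitone_nat_of_succ_le fun k => Set.inter_subset_left
  have hA : Antitone fun k => closure (f '' (D k).1) := fun a b hab =>
    closure_mono (Set.image_mono (hD hab))
  refine ⟨⋂ k, closure (f '' (D k).1), MeasurableSet.iInter fun k => isClosed_closure.measurableSet,
    fun y hy => ?_, ?_⟩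
  · have h1 : ∀ k, (𝓟 (D k).1 ⊓ comap f (𝓝 y)).NeBot := fun k => by
      have := mem_closure_iff_clusterPt.1 (Set.mem_iInter.1 hy k)
      rw [← map_neBot_iff f, Filter.push_pull, map_principal, inf_comm]
      exact this
    have h2 : (⨅ k, 𝓟 (D k).1 ⊓ comap f (𝓝 y)).NeBot :=
      iInf_neBot_of_directed' (Antitone.directed_ge fun a b hab =>
        inf_le_inf_right _ (principal_mono.2 (hD hab))) h1
    let U := Ultrafilter.of (⨅ k, 𝓟 (D k).1 ⊓ comap f (𝓝 y))
    have hU : ∀ k, (U : Filter (ℕ → ℕ)) ≤ 𝓟 (D k).1 ⊓ comap f (𝓝 y) := fun k =>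
      (Ultrafilter.of_le _).trans (iInf_le _ k)
    have h3 : ∀ i, ∃ a, ∀ᶠ x in (U : Filter (ℕ → ℕ)), x i = a := fun i => by
      have h4 : ∀ᶠ x in (U : Filter (ℕ → ℕ)), ∃ a ∈ Set.Iic (g i (D i)), x i = a :=
        mem_of_superset (le_principal_iff.1 ((hU (i + 1)).trans inf_le_left)) fun x hx =>
          ⟨x i, hx.2, rfl⟩
      obtain ⟨a, -, ha⟩ := (Ultrafilter.eventually_exists_mem_iff (Set.finite_Iic _)).1 h4
      exact ⟨a, ha⟩
    choose a ha using h3
    have h5 : Tendsto id (U : Filter (ℕ → ℕ)) (𝓝 a) :=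
      tendsto_pi_nhds.2 fun i => tendsto_const_nhds.congr' ((ha i).mono fun x hx => hx.symm)
    have h6 : Tendsto f (U : Filter (ℕ → ℕ)) (𝓝 y) :=
      tendsto_iff_comap.2 ((hU 0).trans inf_le_right)
    exact ⟨a, tendsto_nhds_unique ((hf.tendsto a).comp h5) h6⟩
  · rw [hA.measure_iInter (fun k => isClosed_closure.measurableSet.nullMeasurableSet)
      ⟨0, measure_ne_top _ _⟩]
    exact le_iInf fun k => (D k).2.le.trans (measure_mono subset_closure)

theorem analytic_null {Ω : Type*} [TopologicalSpace Ω] [PolishSpace Ω] [MeasurableSpace Ω]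
    [BorelSpace Ω] (μ : Measure Ω) [IsFiniteMeasure μ] {A : Set Ω} (hA : AnalyticSet A) :
    NullMeasurableSet A μ := by
  rw [AnalyticSet] at hA
  rcases hA with rfl | ⟨f, hf, rfl⟩
  · exact nullMeasurableSet_empty
  by_cases h0 : μ (Set.range f) = 0
  · exact NullMeasurableSet.of_null h0
  obtain ⟨u, -, hu, hlim⟩ := exists_seq_strictMono_tendsto' (pos_iff_ne_zero.2 h0)
  choose B h1 h2 h3 using fun n => proj_inner μ hf (hu n).2
  have h4 : μ (Set.range f) ≤ μ (⋃ n, B n) :=
    le_of_tendsto' hlim fun n => (h3 n).trans (measure_mono (Set.subset_iUnion B n))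
  have h5 : NullMeasurableSet (⋃ n, B n) μ := (MeasurableSet.iUnion h1).nullMeasurableSet
  exact h5.congr (ae_eq_of_subset_of_measure_ge (Set.iUnion_subset h2) h4 h5 (measure_ne_top _ _))

theorem proj_null {Ω X : Type*} [TopologicalSpace Ω] [PolishSpace Ω] [MeasurableSpace Ω]
    [BorelSpace Ω] [TopologicalSpace X] [PolishSpace X] [MeasurableSpace X] [BorelSpace X]
    (μ : Measure Ω) [IsFiniteMeasure μ] {P : Ω → X → Prop}
    (hP : MeasurableSet {p : Ω × X | P p.1 p.2}) : NullMeasurableSet {ω | ∃ x, P ω x} μ := by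
  have h := analytic_null μ (hP.analyticSet.image_of_continuous continuous_fst)
  have e : Prod.fst '' {p : Ω × X | P p.1 p.2} = {ω | ∃ x, P ω x} := by
    ext ω
    simp
  rwa [e] at h

end Vale.Agent.P158
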