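import Vale.Agent.P158.Basic
import Vale.Agent.P158.Proj

/-!
TASK Meas1: measurability, part 1 (joint measurability in the configuration and countable parameters).
Plan: cost of a fixed walk: induction. T: Measurable.iInf over the countable type of walks. For random end points
use that V is countable with measurable singletons: the map (y, x) to F (g y) x is measurable by
measurable_from_prod_countable_left / right, compose with y to (y, a y). Props: Measurable.and, .or, .not, .imp,
.forall, .exists (countable index), measurableSet_setOf. fwd: Measurable.ite. Iterates: induction with meas_fwd.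
Back: proj_null with X = ℕ → V. For the events built from Back, work with NullMeasurableSet.iInter, iUnion,
compl, inter (Set.setOf_forall, setOf_exists, setOf_and), or with Measurable Props on NullMeasurableSpace Om (mu G);
random arguments such as Back ω x ((fwd ω x)^[n] u) are rewritten as ∃ z, (fwd ω x)^[n] u = z ∧ Back ω x z.
HC: ∃ over the countable sigma type of (p, q, W).
-/

namespace Vale.Agent.P158

open MeasureTheory

theorem meas1_par {Y Z W ι : Type*} [MeasurableSpace Y] [MeasurableSpace Z] [MeasurableSpace W]
    [MeasurableSpace ι] [Countable ι] [MeasurableSingletonClass ι] {F : ι → W → Z}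
    (hF : ∀ i, Measurable (F i)) {g : Y → W} {a : Y → ι} (hg : Measurable g) (ha : Measurable a) :
    Measurable fun y => F (a y) (g y) := by
  have h1 : Measurable fun p : W × ι => F p.2 p.1 := measurable_from_prod_countable_left hF
  exact h1.comp (hg.prodMk ha)

theorem meas1_cnt {Y α : Type*} [MeasurableSpace Y] (s : Finset α) {P : Y → α → Prop}
    (hP : ∀ a, Measurable fun y => P y a) : Measurable fun y => cnt s (P y) := by
  classical
  have h1 : (fun y => cnt s (P y)) = fun y => ∑ a ∈ s, if P y a then 1 else 0 := by
    funext y
    rw [cnt_eq, Finset.card_filter]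
  rw [h1]
  exact Finset.measurable_sum _ fun a _ =>
    Measurable.ite (hP a).setOf measurable_const measurable_const

section
variable {Y : Type*} [MeasurableSpace Y] {f : Y → V → V} {B : Y → V → Prop}

theorem meas1_iter (hf : ∀ v, Measurable fun y => f y v) (n : ℕ) (v : V) :
    Measurable fun y => (f y)^[n] v := by
  induction n with
  | zero => exact measurable_const
  | succ n ih =>
    simp only [Function.iterate_succ_apply']
    exact meas1_par (F := fun u y => f y u) hf measurable_id ih

theorem meas1_inj (hf : ∀ v, Measurable fun y => f y v) (R : ℕ) (u : V) :
    Measurable fun y => Inj (f y) R u := by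
  unfold Inj
  exact Measurable.forall fun i => Measurable.forall fun j => measurable_const.imp <|
    measurable_const.imp <| ((meas1_iter hf i u).eq (meas1_iter hf j u)).imp measurable_const

theorem meas1_root (hf : ∀ v, Measurable fun y => f y v) (K R : ℕ) (w : V) :
    Measurable fun y => Root (f y) K R w := by
  unfold Root
  exact (meas1_inj hf R w).and <| Measurable.forall fun i => Measurable.forall fun z =>
    Measurable.forall fun d => measurable_const.imp <| measurable_const.imp <|
      ((meas1_iter hf d z).eq (meas1_iter hf i w)).imp <|
        (measurable_const.or ((meas1_iter hf (d - 1) z).eq (meas1_iter hf (i - 1) w)).not).imp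
          measurable_const

theorem meas1_merge (hf : ∀ v, Measurable fun y => f y v) (hB : ∀ v, Measurable fun y => B y v)
    (u : V) : Measurable fun y => Merge (f y) (B y) u := by
  unfold Merge
  exact Measurable.exists fun y1 => Measurable.exists fun y2 => (hB y1).and <| (hB y2).and <|
    measurable_const.and <| measurable_const.and <| measurable_const.and <|
      ((hf y1).eq measurable_const).and ((hf y2).eq measurable_const)

theorem meas1_clean (hf : ∀ v, Measurable fun y => f y v) (hB : ∀ v, Measurable fun y => B y v)
    (R : ℕ) (u : V) : Measurable fun y => Clean (f y) (B y) R u := by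
  unfold Clean
  exact Measurable.forall fun n => measurable_const.imp <| measurable_const.imp <|
    (meas1_par (F := fun z y => Merge (f y) (B y) z) (meas1_merge hf hB) measurable_id
      (meas1_iter hf n u)).not

theorem meas1_spoil (hf : ∀ v, Measurable fun y => f y v) (hB : ∀ v, Measurable fun y => B y v)
    (K R : ℕ) (u : V) : Measurable fun y => Spoil (f y) (B y) K R u := by
  unfold Spoil
  exact (hB u).and <| (meas1_clean hf hB R u).and <| (meas1_inj hf R u).and <|
    Measurable.exists fun n => Measurable.exists fun z => Measurable.exists fun d =>
      measurable_const.and <| measurable_const.and <|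
        ((meas1_iter hf d z).eq (meas1_iter hf n u)).and <|
          (meas1_par (F := fun z y => B y z) hB measurable_id (meas1_iter hf (d - 1) z)).not.and
            measurable_const

theorem meas1_cmp (hf : ∀ v, Measurable fun y => f y v) (u u' : V) :
    Measurable fun y => Cmp (f y) u u' := by
  unfold Cmp
  exact Measurable.exists fun n => ((meas1_iter hf n u).eq measurable_const).or
    ((meas1_iter hf n u').eq measurable_const)

theorem meas1_lone (hf : ∀ v, Measurable fun y => f y v) (hB : ∀ v, Measurable fun y => B y v)
    (D : ℕ) (u : V) : Measurable fun y => Lone (f y) (B y) D u := by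
  unfold Lone
  exact (hB u).and <| Measurable.forall fun u2 => measurable_const.imp <|
    (hB u2).imp (meas1_cmp hf u u2)

end

section
variable {Y : Type*} [MeasurableSpace Y] {g : Y → Om} {a b c : Y → V}

theorem meas_cost {x y : V} (p : grid.Walk x y) : Measurable fun ω : Om => cost ω p := by
  induction p with
  | nil => exact measurable_const
  | cons h p ih =>
    simp only [cost_cons]
    exact (measurable_pi_apply _).add ih

theorem meas_wt (hg : Measurable g) (ha : Measurable a) (hb : Measurable b) :
    Measurable fun y => g y s(a y, b y) := by
  exact meas1_par (F := fun (q : V × V) (ω : Om) => ω s(q.1, q.2))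
    (fun q => measurable_pi_apply _) hg (ha.prodMk hb)

theorem meas_T (hg : Measurable g) (ha : Measurable a) (hb : Measurable b) :
    Measurable fun y => T (g y) (a y) (b y) := by
  exact meas1_par (F := fun (q : V × V) (ω : Om) => T ω q.1 q.2)
    (fun q => Measurable.iInf fun p => meas_cost p) hg (ha.prodMk hb)

theorem meas_step (hg : Measurable g) (ha : Measurable a) (hb : Measurable b)
    (hc : Measurable c) : Measurable fun y => Step (g y) (a y) (b y) (c y) := by
  unfold Step
  refine Measurable.and ?_ ((meas_T hg hb ha).eq ((meas_wt hg hb hc).add (meas_T hg hc ha)))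
  exact meas1_par (F := fun (q : V × V) (_ : Om) => grid.Adj q.1 q.2)
    (fun q => measurable_const) hg (hb.prodMk hc)

theorem meas_fwd (hg : Measurable g) (ha : Measurable a) (hb : Measurable b) :
    Measurable fun y => fwd (g y) (a y) (b y) := by
  have h0 : ∀ q : V × V, Measurable fun ω : Om => fwd ω q.1 q.2 := by
    intro q
    have h1 : ∀ z : V, MeasurableSet {ω : Om | Step ω q.1 q.2 z} := fun z =>
      (meas_step measurable_id measurable_const measurable_const measurable_const).setOf
    unfold fwd
    exact Measurable.ite (h1 _) measurable_const <| Measurable.ite (h1 _) measurable_const <|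
      Measurable.ite (h1 _) measurable_const <| Measurable.ite (h1 _) measurable_const
        measurable_const
  have h2 := meas1_par (F := fun (q : V × V) (ω : Om) => fwd ω q.1 q.2) h0 hg (ha.prodMk hb)
  exact h2

end

theorem meas_iter (x y : V) (n : ℕ) : Measurable fun ω : Om => (fwd ω x)^[n] y := by
  exact meas1_iter (f := fun ω : Om => fwd ω x)
    (fun v => meas_fwd measurable_id measurable_const measurable_const) n y

theorem meas_HC (a b c d : ℤ) (M : ℝ) : MeasurableSet {ω | HC ω a b c d M} := by
  unfold HC
  exact Measurable.setOf <| Measurable.exists fun p => Measurable.exists fun q =>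
    Measurable.exists fun W => measurable_const.and <| measurable_const.and <|
      measurable_const.and (measurableSet_setOfPred.1 (measurableSet_le (meas_cost W)
        measurable_const))

theorem meas_VC (a b c d : ℤ) (M : ℝ) : MeasurableSet {ω | VC ω a b c d M} := by
  unfold VC
  exact Measurable.setOf <| Measurable.exists fun p => Measurable.exists fun q =>
    Measurable.exists fun W => measurable_const.and <| measurable_const.and <|
      measurable_const.and (measurableSet_setOfPred.1 (measurableSet_le (meas_cost W)
        measurable_const))

theorem meas_loc (v : V) (r : ℕ) (M : ℝ) : MeasurableSet {ω | Loc ω v r M} := by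
  have h1 : {ω | Loc ω v r M} = ⋂ e ∈ ebox v r, {ω : Om | ω e ≤ M} := by
    ext ω
    simp [Loc]
  rw [h1]
  exact Finset.measurableSet_biInter _ fun e _ =>
    measurableSet_le (measurable_pi_apply e) measurable_const

theorem meas_len (v : V) (ρ L : ℕ) : MeasurableSet {ω | Len ω v ρ L} := by
  unfold Len
  refine Measurable.setOf <| Measurable.forall fun x => Measurable.forall fun y =>
    measurable_const.imp <| measurable_const.imp <| measurableSet_setOfPred.1 <|
      measurableSet_le (meas1_cnt _ fun z => ?_) measurable_const
  exact (meas_T measurable_id measurable_const measurable_const).eq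
    ((meas_T measurable_id measurable_const measurable_const).add
      (meas_T measurable_id measurable_const measurable_const))

theorem meas_root (x w : V) (K R : ℕ) : MeasurableSet {ω | Root (fwd ω x) K R w} := by
  exact (meas1_root (f := fun ω : Om => fwd ω x)
    (fun v => meas_fwd measurable_id measurable_const measurable_const) K R w).setOf

variable (G : Measure ℝ) [IsProbabilityMeasure G]

omit [IsProbabilityMeasure G] in
theorem meas1_id : @Measurable (NullMeasurableSpace Om (mu G)) Om _ _ fun ω => ω :=
  fun _ hs => hs.nullMeasurableSet

omit [IsProbabilityMeasure G] in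
theorem meas1_nf (x v : V) :
    @Measurable (NullMeasurableSpace Om (mu G)) V _ _ fun ω => fwd ω x v :=
  meas_fwd (meas1_id G) measurable_const measurable_const

theorem null_back (x u : V) : NullMeasurableSet {ω | Back ω x u} (mu G) := by
  refine proj_null (X := ℕ → V) (mu G)
    (P := fun ω γ => γ 0 = u ∧ ∀ n, Step ω x (γ (n + 1)) (γ n)) (Measurable.setOf ?_)
  have h1 : ∀ n, Measurable fun p : Om × (ℕ → V) => p.2 n := fun n =>
    (measurable_pi_apply n).comp measurable_snd
  exact ((h1 0).eq measurable_const).and <| Measurable.forall fun n =>
    meas_step measurable_fst measurable_const (h1 _) (h1 _)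

theorem meas1_nb (x v : V) :
    @Measurable (NullMeasurableSpace Om (mu G)) Prop _ _ fun ω => Back ω x v :=
  (@measurableSet_setOfPred (NullMeasurableSpace Om (mu G)) _ _).1 (null_back G x v)

theorem null_merge (x y : V) :
    NullMeasurableSet {ω | Merge (fwd ω x) (Back ω x) y} (mu G) := by
  exact (meas1_merge (meas1_nf G x) (meas1_nb G x) y).setOf

theorem null_clean (x u : V) (R : ℕ) :
    NullMeasurableSet {ω | Clean (fwd ω x) (Back ω x) R u} (mu G) := by
  exact (meas1_clean (meas1_nf G x) (meas1_nb G x) R u).setOf

theorem null_spoil (x u : V) (K R : ℕ) :
    NullMeasurableSet {ω | Spoil (fwd ω x) (Back ω x) K R u} (mu G) := by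
  exact (meas1_spoil (meas1_nf G x) (meas1_nb G x) K R u).setOf

theorem null_lone (x u : V) (D : ℕ) :
    NullMeasurableSet {ω | Lone (fwd ω x) (Back ω x) D u} (mu G) := by
  exact (meas1_lone (meas1_nf G x) (meas1_nb G x) D u).setOf

end Vale.Agent.P158
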