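import Vale.Agent.P158.Core

/-!
TASK Pw: resampling a set of coordinates; finite energy; independence.
Plan. pw_mp: the map (ω, ω') to S.piecewise ω' ω is measurable (measurable_pi_lambda, by_cases) and pushes
mu × mu to mu: Measure.eq_infinitePi (check on boxes Set.pi s t for a finset s: the preimage is the product of
the box over s \ S and the box over s ∩ S; Measure.prod_prod, Measure.infinitePi_pi, Finset.prod_filter_mul_prod_filter_not).
mu_cyl: infinitePi_pi. fe_ae: for fixed S pull back the a.e. statement along pw_mp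
(QuasiMeasurePreserving.ae), Measure.ae_ae_of_ae_prod, and the cylinder has positive measure so it meets the full
measure set (frequently_ae / exists_mem_of_measure_ne_zero_of_ae); countably many S (ae_all_iff; Finset E is countable).
fe_le: replace B by toMeasurable; C = preimage is measurable, mu B = ∫ (measure of the section) ≥ s * mu {section ≥ s}
(Measure.prod_apply, mul_meas_ge_le_lintegral) and A ⊆ {section ≥ s}. indep: preimage of A ∩ B is B ×ˢ A or A ×ˢ B.
atom_null: S = {e}: preimage of {ω e = F ω} has sections of measure G {F ω} = 0.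
-/

namespace Vale.Agent.P158

open MeasureTheory

variable (G : Measure ℝ) [IsProbabilityMeasure G]

theorem pw_meas (S : Set E) [∀ e, Decidable (e ∈ S)] :
    Measurable (fun p : Om × Om => S.piecewise p.2 p.1) := by
  refine measurable_pi_lambda _ fun e => ?_
  by_cases he : e ∈ S
  · simp only [Set.piecewise_eq_of_mem _ _ _ he]
    exact (measurable_pi_apply e).comp measurable_snd
  · simp only [Set.piecewise_eq_of_notMem _ _ _ he]
    exact (measurable_pi_apply e).comp measurable_fst

theorem pw_mp (S : Set E) [∀ e, Decidable (e ∈ S)] :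
    MeasurePreserving (fun p : Om × Om => S.piecewise p.2 p.1) ((mu G).prod (mu G)) (mu G) := by
  refine ⟨pw_meas S, ?_⟩
  refine Measure.eq_infinitePi (fun _ : E => G) ?_
  intro s t ht
  rw [Measure.map_apply (pw_meas S) (MeasurableSet.pi s.countable_toSet fun i _ => ht i)]
  have e : (fun p : Om × Om => S.piecewise p.2 p.1) ⁻¹' Set.pi (s : Set E) t =
      Set.pi ((s.filter fun e => ¬ e ∈ S : Finset E) : Set E) t ×ˢ
        Set.pi ((s.filter fun e => e ∈ S : Finset E) : Set E) t := by
    ext p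
    simp only [Set.mem_preimage, Set.mem_pi, Finset.mem_coe, Set.mem_prod, Finset.mem_filter]
    constructor
    · intro h
      refine ⟨fun i hi => ?_, fun i hi => ?_⟩
      · have := h i hi.1
        rwa [Set.piecewise_eq_of_notMem _ _ _ hi.2] at this
      · have := h i hi.1
        rwa [Set.piecewise_eq_of_mem _ _ _ hi.2] at this
    · rintro ⟨h1, h2⟩ i hi
      by_cases he : i ∈ S
      · rw [Set.piecewise_eq_of_mem _ _ _ he]; exact h2 i ⟨hi, he⟩
      · rw [Set.piecewise_eq_of_notMem _ _ _ he]; exact h1 i ⟨hi, he⟩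
  rw [e, Measure.prod_prod]
  unfold mu
  rw [Measure.infinitePi_pi _ fun i _ => ht i, Measure.infinitePi_pi _ fun i _ => ht i, mul_comm,
    Finset.prod_filter_mul_prod_filter_not]

theorem mu_eval (e : E) {I : Set ℝ} (hI : MeasurableSet I) : mu G {ω | ω e ∈ I} = G I :=
  (measurePreserving_eval_infinitePi (fun _ : E => G) e).measure_preimage hI.nullMeasurableSet

theorem mu_cyl (S : Finset E) (I : E → Set ℝ) (hI : ∀ e ∈ S, MeasurableSet (I e)) :
    mu G {ω | ∀ e ∈ S, ω e ∈ I e} = ∏ e ∈ S, G (I e) :=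
  Measure.infinitePi_pi (fun _ : E => G) hI

/-- qualitative finite energy: the targets may depend on the configuration. -/
theorem fe_ae {P : Om → Prop} (hP : ∀ᵐ ω ∂mu G, P ω) :
    ∀ᵐ ω ∂mu G, ∀ (S : Finset E) (I : E → Set ℝ), (∀ e ∈ S, MeasurableSet (I e) ∧ 0 < G (I e)) →
      ∃ ω' : Om, (∀ e ∉ S, ω' e = ω e) ∧ (∀ e ∈ S, ω' e ∈ I e) ∧ P ω' := by
  classical
  rw [ae_all_iff]
  intro S
  have h1 := (pw_mp G (S : Set E)).quasiMeasurePreserving.ae hP
  filter_upwards [Measure.ae_ae_of_ae_prod h1] with ω hω I hI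
  have hpos : mu G {ω | ∀ e ∈ S, ω e ∈ I e} ≠ 0 := by
    rw [mu_cyl G S I fun e he => (hI e he).1]
    exact Finset.prod_ne_zero_iff.2 fun e he => (hI e he).2.ne'
  obtain ⟨ω', h2, h3⟩ := Measure.exists_mem_of_measure_ne_zero_of_ae hpos (ae_restrict_of_ae hω)
  refine ⟨_, fun e he => ?_, fun e he => ?_, h3⟩
  · exact Set.piecewise_eq_of_notMem _ _ _ (by simpa using he)
  · rw [Set.piecewise_eq_of_mem _ _ _ (by simpa using he)]
    exact h2 e he

/-- quantitative finite energy, for arbitrary sets (outer measure). -/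
theorem fe_le (S : Finset E) {I : Set ℝ} (hI : MeasurableSet I) (A B : Set Om)
    (h : ∀ ω ∈ A, ∀ ω' : Om, (∀ e ∉ S, ω' e = ω e) → (∀ e ∈ S, ω' e ∈ I) → ω' ∈ B) :
    G I ^ S.card * mu G A ≤ mu G B := by
  classical
  have hB := measurableSet_toMeasurable (mu G) B
  have hC : MeasurableSet ((fun p : Om × Om => (S : Set E).piecewise p.2 p.1) ⁻¹'
      toMeasurable (mu G) B) := pw_meas _ hB
  rw [← measure_toMeasurable B, ← (pw_mp G (S : Set E)).measure_preimage hB.nullMeasurableSet,
    Measure.prod_apply hC]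
  refine le_trans ?_ (mul_meas_ge_le_lintegral (measurable_measure_prodMk_left hC) (G I ^ S.card))
  refine mul_le_mul_right (measure_mono fun ω hω => ?_) _
  have e1 : G I ^ S.card = mu G {ω | ∀ e ∈ S, ω e ∈ I} := by
    rw [mu_cyl G S (fun _ => I) fun _ _ => hI, Finset.prod_const]
  show G I ^ S.card ≤ _
  rw [e1]
  refine measure_mono fun ω' hω' => ?_
  refine subset_toMeasurable _ _ (h ω hω _ (fun e he => ?_) fun e he => ?_)
  · exact Set.piecewise_eq_of_notMem _ _ _ (by simpa using he)
  · show (S : Set E).piecewise ω' ω e ∈ I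
    rw [Set.piecewise_eq_of_mem _ _ _ (by simpa using he)]
    exact hω' e he

theorem indep_mul (S : Set E) {A B : Set Om} (hA : MeasurableSet A) (hB : MeasurableSet B)
    (hAS : ∀ ω ω' : Om, (∀ e ∈ S, ω e = ω' e) → ω ∈ A → ω' ∈ A)
    (hBS : ∀ ω ω' : Om, (∀ e ∉ S, ω e = ω' e) → ω ∈ B → ω' ∈ B) :
    mu G (A ∩ B) = mu G A * mu G B := by
  classical
  rw [← (pw_mp G S).measure_preimage (hA.inter hB).nullMeasurableSet, mul_comm,
    ← Measure.prod_prod]
  congr 1
  ext p
  simp only [Set.mem_preimage, Set.mem_inter_iff, Set.mem_prod]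
  have k1 : ∀ e ∈ S, S.piecewise p.2 p.1 e = p.2 e := fun e he =>
    Set.piecewise_eq_of_mem _ _ _ he
  have k2 : ∀ e ∉ S, S.piecewise p.2 p.1 e = p.1 e := fun e he =>
    Set.piecewise_eq_of_notMem _ _ _ he
  constructor
  · rintro ⟨h1, h2⟩
    exact ⟨hBS _ _ k2 h2, hAS _ _ k1 h1⟩
  · rintro ⟨h1, h2⟩
    exact ⟨hAS _ _ (fun e he => (k1 e he).symm) h2, hBS _ _ (fun e he => (k2 e he).symm) h1⟩

theorem atom_null (hG : ∀ t, G {t} = 0) (e : E) {F : Om → ℝ} (hF : Measurable F)
    (hFe : ∀ ω ω' : Om, (∀ e', e' ≠ e → ω e' = ω' e') → F ω = F ω') :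
    ∀ᵐ ω ∂mu G, ω e ≠ F ω := by
  classical
  have hC : MeasurableSet {ω : Om | ω e = F ω} := measurableSet_eq_fun (measurable_pi_apply e) hF
  rw [ae_iff]
  simp only [not_not]
  rw [← (pw_mp G ({e} : Set E)).measure_preimage hC.nullMeasurableSet,
    Measure.prod_apply (pw_meas _ hC)]
  refine (lintegral_congr fun ω => ?_).trans lintegral_zero
  rw [← hG (F ω), ← mu_eval G e (measurableSet_singleton (F ω))]
  congr 1
  ext ω'
  simp only [Set.mem_preimage, Set.mem_setOf_eq, Set.mem_singleton_iff]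
  rw [Set.piecewise_eq_of_mem _ _ _ (Set.mem_singleton e),
    hFe (({e} : Set E).piecewise ω' ω) ω fun e' he' => Set.piecewise_eq_of_notMem _ _ _ he']

end Vale.Agent.P158
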