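import Vale.Agent.P158.Walks
import Vale.Agent.P158.Pw

/-!
TASK PeiProb: Peierls estimate and local bounds.
Plan. For a fixed path p with n edges (distinct), if 2 * hi < n then the set of low edges (ω e ≤ h) is a subset S of
the edge finset with 2 * card S > n; mu_cyl gives probability ≤ (1/256)^(card S) ≤ 16^(-n); there are at most 2^n
subsets. The number of walks of length n from x is at most 4^n (encode a walk by a list or function of directions:
e.g. the set of supports is contained in the image of (Fin n → Fin 4); or induct with a finset of lists).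
Total (4 * 2 / 16)^n = 2^(-n); sum over lengths ≥ n0 (measure_iUnion_le, geometric series). pei_ae: the
intersection over n of the bad events has measure ≤ 2 (1/2)^n for all n. pei_box: union bound,
(2ρ+1)^2 2^(-ρ) tends to 0. loc_prob: union bound with mu_eval, card_ebox, G (Ioi M) tends to 0 (tendsto_measure_iInter).
-/

namespace Vale.Agent.P158

open MeasureTheory

variable {G : Measure ℝ} [IsProbabilityMeasure G] {h g : ℝ}

/-- edge lists of the walks of length n from x. -/
noncomputable def peiprob_L : ℕ → V → Finset (List E)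
  | 0, _ => {[]}
  | n + 1, x => ({(x.1 + 1, x.2), (x.1 - 1, x.2), (x.1, x.2 + 1), (x.1, x.2 - 1)} : Finset V).biUnion
      fun y => (peiprob_L n y).image fun l => s(x, y) :: l

theorem peiprob_card (n : ℕ) : ∀ x, (peiprob_L n x).card ≤ 4 ^ n := by
  induction n with
  | zero => intro x; simp [peiprob_L]
  | succ n ih =>
    intro x
    rw [peiprob_L, pow_succ']
    exact (Finset.card_biUnion_le_card_mul _ _ _ fun y _ => Finset.card_image_le.trans (ih y)).trans
      (Nat.mul_le_mul_right _ Finset.card_le_four)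

theorem peiprob_mem {x y : V} (p : grid.Walk x y) : p.edges ∈ peiprob_L p.length x := by
  induction p with
  | nil => simp [peiprob_L]
  | @cons x z y hxz p ih =>
    rw [SimpleGraph.Walk.length_cons, SimpleGraph.Walk.edges_cons, peiprob_L]
    refine Finset.mem_biUnion.2 ⟨z, ?_, Finset.mem_image_of_mem _ ih⟩
    rw [adj_iff] at hxz
    simp only [Finset.mem_insert, Finset.mem_singleton, Prod.ext_iff]
    exact hxz

theorem peiprob_len (n : ℕ) : ∀ x, ∀ l ∈ peiprob_L n x, l.length = n := by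
  induction n with
  | zero => intro x l hl; simpa [peiprob_L] using hl
  | succ n ih =>
    intro x l hl
    rw [peiprob_L] at hl
    obtain ⟨y, -, hl⟩ := Finset.mem_biUnion.1 hl
    obtain ⟨l', hl', rfl⟩ := Finset.mem_image.1 hl
    rw [List.length_cons, ih y l' hl']

theorem peiprob_list (hp : Par G h g) (l : List E) :
    (mu G).real {ω | l.Nodup ∧ 2 * (l.countP fun e => decide (h < ω e)) < l.length} ≤
      (1 / 8) ^ l.length := by
  classical
  have h1 : {ω : Om | l.Nodup ∧ 2 * (l.countP fun e => decide (h < ω e)) < l.length} ⊆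
      ⋃ S ∈ l.toFinset.powerset.filter fun S => l.length ≤ 2 * S.card,
        {ω | ∀ e ∈ S, ω e ∈ Set.Iic h} := by
    rintro ω ⟨hn, hc⟩
    have h2 := List.length_eq_countP_add_countP (fun e => decide (h < ω e)) (l := l)
    have h3 := List.toFinset_card_of_nodup (hn.filter fun e => decide ¬ decide (h < ω e) = true)
    rw [← List.countP_eq_length_filter] at h3
    refine Set.mem_iUnion₂.2 ⟨(l.filter fun e => decide ¬ decide (h < ω e) = true).toFinset,
      Finset.mem_filter.2 ⟨Finset.mem_powerset.2 fun e he => List.mem_toFinset.2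
        (List.mem_filter.1 (List.mem_toFinset.1 he)).1, by omega⟩, fun e he => ?_⟩
    simpa using (List.mem_filter.1 (List.mem_toFinset.1 he)).2
  have h4 : G.real (Set.Iic h) ≤ 1 / 256 :=
    ENNReal.toReal_le_of_le_ofReal (by norm_num) (hp.low.trans_eq (by
      rw [ENNReal.ofReal_div_of_pos (by norm_num)]; simp))
  refine (measureReal_mono h1 (measure_ne_top _ _)).trans ((measureReal_biUnion_finset_le _ _).trans
    ((Finset.sum_le_card_nsmul _ _ ((1 / 16 : ℝ) ^ l.length) fun S hS => ?_).trans ?_))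
  · rw [Measure.real, mu_cyl G S (fun _ => Set.Iic h) fun _ _ => measurableSet_Iic,
      Finset.prod_const, ENNReal.toReal_pow]
    refine (pow_le_pow_left₀ ENNReal.toReal_nonneg h4 _).trans ?_
    rw [show (1 / 256 : ℝ) = (1 / 16) ^ 2 by norm_num, ← pow_mul]
    exact pow_le_pow_of_le_one (by norm_num) (by norm_num) (Finset.mem_filter.1 hS).2
  · have h5 : ((l.toFinset.powerset.filter fun S => l.length ≤ 2 * S.card).card : ℝ) ≤
        2 ^ l.length := by
      exact_mod_cast (Finset.card_filter_le _ _).trans ((Finset.card_powerset _).trans_le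
        (Nat.pow_le_pow_right (by norm_num) l.toFinset_card_le))
    rw [nsmul_eq_mul, show (1 / 8 : ℝ) = 2 * (1 / 16) by norm_num, mul_pow]
    exact mul_le_mul_of_nonneg_right h5 (by positivity)

theorem peiprob_union (hp : Par G h g) (s : Finset V) (n : ℕ) {A : Set Om}
    (hA : A ⊆ ⋃ z ∈ s, {ω | ¬ Pei ω h z n}) (hb : ∀ x, (mu G).real {ω | ¬ Pei ω h x n} ≤
      2 * (1 / 2) ^ n) : (mu G).real A ≤ s.card * (2 * (1 / 2) ^ n) := by
  have _ := hp
  refine (measureReal_mono hA (measure_ne_top _ _)).trans ((measureReal_biUnion_finset_le _ _).trans ?_)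
  exact (Finset.sum_le_card_nsmul _ _ _ fun z _ => hb z).trans_eq (nsmul_eq_mul _ _)

theorem pei_prob (hp : Par G h g) (x : V) (n : ℕ) :
    (mu G).real {ω | ¬ Pei ω h x n} ≤ 2 * (1 / 2) ^ n := by
  have h1 : ∀ m, (mu G).real (⋃ l ∈ peiprob_L m x,
      {ω | l.Nodup ∧ 2 * (l.countP fun e => decide (h < ω e)) < l.length}) ≤ (1 / 2) ^ m := by
    intro m
    refine (measureReal_biUnion_finset_le _ _).trans ((Finset.sum_le_card_nsmul _ _
      ((1 / 8 : ℝ) ^ m) fun l hl => (peiprob_list hp l).trans_eq ?_).trans ?_)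
    · rw [peiprob_len m x l hl]
    · have h2 : ((peiprob_L m x).card : ℝ) ≤ 4 ^ m := by exact_mod_cast peiprob_card m x
      rw [nsmul_eq_mul, show (1 / 2 : ℝ) = 4 * (1 / 8) by norm_num, mul_pow]
      exact mul_le_mul_of_nonneg_right h2 (by positivity)
  have h2 : {ω | ¬ Pei ω h x n} ⊆ ⋃ k, ⋃ l ∈ peiprob_L (n + k) x,
      {ω | l.Nodup ∧ 2 * (l.countP fun e => decide (h < ω e)) < l.length} := by
    intro ω hω
    simp only [Pei, Set.mem_ofPred_eq, not_forall, not_le] at hω
    obtain ⟨y, p, h3, h4, h5⟩ := hω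
    obtain ⟨k, hk⟩ := Nat.exists_eq_add_of_le h4
    refine Set.mem_iUnion.2 ⟨k, Set.mem_biUnion (Finset.mem_coe.2 (hk ▸ peiprob_mem p))
      ⟨h3.isTrail.edges_nodup, ?_⟩⟩
    rwa [SimpleGraph.Walk.length_edges]
  have h3 : HasSum (fun k => (1 / 2 : ℝ) ^ (n + k)) (2 * (1 / 2) ^ n) := by
    simpa only [pow_add, mul_comm (2 : ℝ)] using hasSum_geometric_two.mul_left ((1 / 2 : ℝ) ^ n)
  refine ENNReal.toReal_le_of_le_ofReal (by positivity) ((measure_mono h2).trans
    ((measure_iUnion_le _).trans ?_))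
  rw [← h3.tsum_eq, ENNReal.ofReal_tsum_of_nonneg (fun _ => by positivity) h3.summable]
  exact ENNReal.tsum_le_tsum fun k =>
    (ENNReal.le_ofReal_iff_toReal_le (measure_ne_top _ _) (by positivity)).2 (h1 _)

theorem pei_ae (hp : Par G h g) : ∀ᵐ ω ∂mu G, ∀ x, ∃ n, Pei ω h x n := by
  refine ae_all_iff.2 fun x => ?_
  rw [ae_iff, ← measureReal_eq_zero_iff]
  have h1 : Filter.Tendsto (fun n : ℕ => 2 * (1 / 2 : ℝ) ^ n) Filter.atTop (nhds (2 * 0)) :=
    (tendsto_pow_atTop_nhds_zero_of_lt_one (by norm_num) (by norm_num)).const_mul 2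
  rw [mul_zero] at h1
  refine le_antisymm (ge_of_tendsto' h1 fun n => le_trans ?_ (pei_prob hp x n)) measureReal_nonneg
  exact measureReal_mono (fun ω hω hn => hω ⟨n, hn⟩) (measure_ne_top _ _)

theorem pei_box (hp : Par G h g) {ε : ℝ} (hε : 0 < ε) :
    ∃ ρ0 : ℕ, ∀ ρ, ρ0 ≤ ρ → ∀ v, (mu G).real {ω | ∃ z ∈ box v ρ, ¬ Pei ω h z ρ} ≤ ε := by
  have h0 : ∀ k : ℕ, Filter.Tendsto (fun n : ℕ => (n : ℝ) ^ k * (1 / 2 : ℝ) ^ n) Filter.atTop
      (nhds 0) := fun k => tendsto_pow_const_mul_const_pow_of_abs_lt_one k (by norm_num [abs_of_pos])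
  have h1 := (((h0 2).const_mul 8).add ((h0 1).const_mul 8)).add ((h0 0).const_mul 2)
  simp only [mul_zero, add_zero] at h1
  obtain ⟨ρ0, h2⟩ := Filter.eventually_atTop.1 (h1.eventually (ge_mem_nhds hε))
  refine ⟨ρ0, fun ρ hρ v => (peiprob_union hp (box v ρ) ρ (fun ω hω => ?_)
    fun x => pei_prob hp x ρ).trans (le_of_eq_of_le ?_ (h2 ρ hρ))⟩
  · obtain ⟨z, hz, h3⟩ := hω
    exact Set.mem_biUnion (Finset.mem_coe.2 hz) h3
  · rw [card_box]
    push_cast
    ring

theorem pei_box' (hp : Par G h g) (D : ℕ) {ε : ℝ} (hε : 0 < ε) :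
    ∃ s0 : ℕ, ∀ s, s0 ≤ s → ∀ v, (mu G).real {ω | ∃ z ∈ box v D, ¬ Pei ω h z s} ≤ ε := by
  have h1 : Filter.Tendsto (fun n : ℕ => (((2 * D + 1) ^ 2 : ℕ) : ℝ) * (2 * (1 / 2 : ℝ) ^ n))
      Filter.atTop (nhds (_ * (2 * 0))) :=
    ((tendsto_pow_atTop_nhds_zero_of_lt_one (by norm_num) (by norm_num)).const_mul 2).const_mul _
  simp only [mul_zero] at h1
  obtain ⟨s0, h2⟩ := Filter.eventually_atTop.1 (h1.eventually (ge_mem_nhds hε))
  refine ⟨s0, fun s hs v => (peiprob_union hp (box v D) s (fun ω hω => ?_)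
    fun x => pei_prob hp x s).trans (le_of_eq_of_le ?_ (h2 s hs))⟩
  · obtain ⟨z, hz, h3⟩ := hω
    exact Set.mem_biUnion (Finset.mem_coe.2 hz) h3
  · rw [card_box]

theorem loc_prob (G : Measure ℝ) [IsProbabilityMeasure G] (r : ℕ) {ε : ℝ} (hε : 0 < ε) :
    ∃ M : ℝ, 0 < M ∧ ∀ v, (mu G).real {ω | ¬ Loc ω v r M} ≤ ε := by
  have h1 : Filter.Tendsto (fun M : ℝ => ((ebox 0 r).card : ℝ) * (1 - ProbabilityTheory.cdf G M))
      Filter.atTop (nhds (_ * (1 - 1))) :=
    ((ProbabilityTheory.tendsto_cdf_atTop G).const_sub 1).const_mul _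
  rw [sub_self, mul_zero] at h1
  obtain ⟨M, h2, h3⟩ := ((h1.eventually (ge_mem_nhds hε)).and (Filter.eventually_gt_atTop 0)).exists
  refine ⟨M, h3, fun v => le_trans ?_ h2⟩
  have h4 : {ω | ¬ Loc ω v r M} ⊆ ⋃ e ∈ ebox v r, {ω : Om | ω e ∈ Set.Ioi M} := by
    intro ω hω
    simp only [Loc, Set.mem_ofPred_eq, not_forall, not_le] at hω
    obtain ⟨e, he, h5⟩ := hω
    exact Set.mem_biUnion (Finset.mem_coe.2 he) h5
  refine (measureReal_mono h4 (measure_ne_top _ _)).trans ((measureReal_biUnion_finset_le _ _).trans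
    ((Finset.sum_le_card_nsmul _ _ (1 - ProbabilityTheory.cdf G M) fun e _ => le_of_eq ?_).trans_eq
      (by rw [nsmul_eq_mul, card_ebox v 0])))
  rw [Measure.real, mu_eval G e measurableSet_Ioi, ProbabilityTheory.cdf_eq_real,
    ← probReal_compl_eq_one_sub measurableSet_Iic, Set.compl_Iic, Measure.real]

end Vale.Agent.P158
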