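import Vale.Agent.P158.RegDet
import Vale.Agent.P158.PeiProb

/-!
TASK RegAE: almost sure regularity.
Plan. exists_par: t to G (Iic t) has no jumps: G (Iic 0) = 0; let m = sInf {t : G (Iic t) > 0} or argue directly:
the sets Iic t decrease to Iic m (measure zero) as t decreases to m, so some h > m has G (Iic h) ≤ 1/256, and
G (Iic t) > 0 for m < t < h; take h - g = a point above such t. (cdf is available: ProbabilityTheory.cdf, continuity from
no atoms is not needed if you argue with tendsto_measure_iInter.) pos: G (Iic 0) = 0, mu_eval, ae_all_iff.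
sums: for S ≠ S' pick e in one and not the other, atom_null with F = sum over S' minus sum over S.erase e.
acc: D = {t : some κ > 0 has G (Ioo (t-κ) t) = 0} is G-null: D is the union over rationals q of
D q = {t > q : G (Ioo q t) = 0}, and D q is covered by the null intervals Ioo q r (r rational in D q) and at most one
more point (its maximum). D need not be shown measurable: use toMeasurable or measure_mono_null with mu_eval on a measurable null
superset (exists_measurable_superset_of_null).
-/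

namespace Vale.Agent.P158

open MeasureTheory

variable {G : Measure ℝ} [IsProbabilityMeasure G] {h g : ℝ}

omit [IsProbabilityMeasure G] in
theorem regae_Iic {m : ℝ} (hatom : ∀ t, G {t} = 0) (hm : G (Set.Iio m) = 0) :
    G (Set.Iic m) = 0 := by
  rw [← Set.Iio_union_right]
  exact measure_union_null hm (hatom m)

/-- an almost sure property of the law holds for all weights. -/
theorem regae_all {P : ℝ → Prop} (hP : G {t | ¬ P t} = 0) : ∀ᵐ ω ∂mu G, ∀ e, P (ω e) := by
  rw [ae_all_iff]
  intro e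
  obtain ⟨D, h1, h2, h3⟩ := exists_measurable_superset_of_null hP
  rw [ae_iff]
  refine measure_mono_null (t := {ω : Om | ω e ∈ D}) (fun ω hω => h1 hω) ?_
  rw [mu_eval G e h2, h3]

theorem exists_par (hatom : ∀ t, G {t} = 0) (hneg : G (Set.Iio 0) = 0) : ∃ h g, Par G h g := by
  have h0 := regae_Iic hatom hneg
  set A : Set ℝ := {t | 0 < G (Set.Iic t)} with hA
  have hne : A.Nonempty := by
    by_contra hc
    have h1 : ∀ n : ℕ, G (Set.Iic (n : ℝ)) = 0 := fun n => by
      by_contra h2
      exact hc ⟨n, pos_iff_ne_zero.2 h2⟩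
    have h2 : G Set.univ = 0 := by
      refine measure_mono_null (fun t _ => ?_) (measure_iUnion_null h1)
      obtain ⟨n, hn⟩ := exists_nat_ge t
      exact Set.mem_iUnion.2 ⟨n, hn⟩
    simp at h2
  have hbd : BddBelow A := ⟨0, fun t ht => by
    by_contra hc
    exact (ne_of_gt ht) (measure_mono_null (Set.Iic_subset_Iic.2 (not_le.1 hc).le) h0)⟩
  set m := sInf A with hm
  have hm0 : G (Set.Iic m) = 0 := by
    refine regae_Iic hatom ?_
    have h1 : ∀ q : ℚ, G {t | t ≤ (q : ℝ) ∧ (q : ℝ) < m} = 0 := fun q => by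
      by_cases hq : (q : ℝ) < m
      · by_contra h2
        have h3 : (q : ℝ) ∈ A := pos_iff_ne_zero.2 fun h4 =>
          h2 (measure_mono_null (fun t ht => ht.1) h4)
        exact absurd (csInf_le hbd h3) (not_le.2 hq)
      · simp [hq]
    refine measure_mono_null (fun t ht => ?_) (measure_iUnion_null h1)
    obtain ⟨q, h2, h3⟩ := exists_rat_btwn (show t < m from ht)
    exact Set.mem_iUnion.2 ⟨q, h2.le, h3⟩
  have ht := tendsto_measure_biInter_gt (μ := G) (s := fun r : ℝ => Set.Iic r) (a := m)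
    (fun r _ => measurableSet_Iic.nullMeasurableSet)
    (fun i j _ hij => Set.Iic_subset_Iic.2 hij) ⟨m + 1, by linarith, measure_ne_top _ _⟩
  have e : (⋂ r > m, Set.Iic r) = Set.Iic m := by
    ext t
    simp only [Set.mem_iInter, Set.mem_Iic]
    exact ⟨fun h => le_of_forall_gt_imp_ge_of_dense h, fun h r hr => h.trans (le_of_lt hr)⟩
  rw [e, hm0] at ht
  have h1 : ∀ᶠ r in nhdsWithin m (Set.Ioi m), G (Set.Iic r) < 1 / 256 :=
    ht.eventually (gt_mem_nhds (by simp))
  obtain ⟨h, hh1, hh2⟩ := (h1.and self_mem_nhdsWithin).exists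
  obtain ⟨t, ht1, ht2⟩ := exists_lt_of_csInf_lt hne (show sInf A < h from hh2)
  refine ⟨h, (h - t) / 2, hatom, hneg, by linarith, hh1.le, pos_iff_ne_zero.2 fun hc => ?_⟩
  refine (ne_of_gt ht1) (measure_mono_null (fun x hx => ?_) (measure_union_null h0 hc))
  have hx' : x ≤ t := hx
  rcases le_or_gt x 0 with h2 | h2
  · exact Or.inl h2
  · exact Or.inr ⟨h2, by linarith⟩

theorem pos_ae (hp : Par G h g) : ∀ᵐ ω ∂mu G, ∀ e, 0 < ω e := by
  refine regae_all (P := fun t => 0 < t) ?_
  simp only [not_lt]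
  exact regae_Iic hp.atom hp.neg

theorem regae_sum (hp : Par G h g) {S S' : Finset E} {e : E} (h1 : e ∈ S) (h2 : e ∉ S') :
    ∀ᵐ ω ∂mu G, ∑ e ∈ S, ω e ≠ ∑ e ∈ S', ω e := by
  classical
  have k := atom_null G hp.atom e
    (F := fun ω => ∑ e' ∈ S', ω e' - ∑ e' ∈ S.erase e, ω e') (by fun_prop) (fun ω ω' hω => by
      have a1 : ∑ e' ∈ S', ω e' = ∑ e' ∈ S', ω' e' :=
        Finset.sum_congr rfl fun e' he' => hω e' (fun c => h2 (c ▸ he'))
      have a2 : ∑ e' ∈ S.erase e, ω e' = ∑ e' ∈ S.erase e, ω' e' :=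
        Finset.sum_congr rfl fun e' he' => hω e' (Finset.ne_of_mem_erase he')
      simp only [a1, a2])
  filter_upwards [k] with ω hω hc
  apply hω
  rw [← hc, ← Finset.add_sum_erase S _ h1]
  ring

theorem sums_ae (hp : Par G h g) :
    ∀ᵐ ω ∂mu G, ∀ S S' : Finset E, ∑ e ∈ S, ω e = ∑ e ∈ S', ω e → S = S' := by
  rw [ae_all_iff]
  intro S
  rw [ae_all_iff]
  intro S'
  by_cases hS : S = S'
  · exact Filter.Eventually.of_forall fun _ _ => hS
  · have : ∃ e, (e ∈ S ∧ e ∉ S') ∨ (e ∈ S' ∧ e ∉ S) := by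
      by_contra hc
      apply hS
      ext e
      by_contra h1
      exact hc ⟨e, by tauto⟩
    obtain ⟨e, h1 | h1⟩ := this
    · filter_upwards [regae_sum hp h1.1 h1.2] with ω hω hc using absurd hc hω
    · filter_upwards [regae_sum hp h1.1 h1.2] with ω hω hc using absurd hc.symm hω

theorem reg_ae (hp : Par G h g) : ∀ᵐ ω ∂mu G, Reg h ω := by
  filter_upwards [pos_ae hp, pei_ae hp, sums_ae hp] with ω h1 h2 h3
  exact reg_of hp.h_pos h1 h2 h3

theorem acc_ae (hp : Par G h g) : ∀ᵐ ω ∂mu G, Acc G ω := by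
  haveI : NullSingletonClass G := ⟨hp.atom⟩
  refine regae_all (P := fun t => ∀ κ : ℝ, 0 < κ → 0 < G (Set.Ioo (t - κ) t)) ?_
  have h1 := (countable_setOfPred_isolated_left_within (s := G.support)).measure_zero G
  refine measure_mono_null (fun t ht => ?_)
    (measure_union_null (Measure.measure_compl_support (μ := G)) h1)
  by_cases hs : t ∈ G.support
  · refine Or.inr ⟨hs, ?_⟩
    simp only [Set.mem_setOf_eq, not_forall, not_lt, nonpos_iff_eq_zero] at ht
    obtain ⟨κ, hκ, h2⟩ := ht
    have h3 := Measure.subset_compl_support_of_isOpen isOpen_Ioo h2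
    rw [← Filter.empty_mem_iff_bot, mem_nhdsWithin]
    refine ⟨Set.Ioi (t - κ), isOpen_Ioi, by simpa using hκ, fun x hx => ?_⟩
    exact h3 ⟨hx.1, hx.2.2⟩ hx.2.1
  · exact Or.inl hs

end Vale.Agent.P158
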