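import Vale.Agent.P158.Glue
import Vale.Agent.P158.Inv
import Vale.Agent.P158.Meas1
import Vale.Agent.P158.RegAE

/-!
TASK HCProb: cheap crossings at all scales, without moments (multi-scale recursion).
Say P n n' c p if for all a, c0 the probability of not HC ω a (a+n') c0 (c0+n) c is at most p (width n', height n).
By vc_iff and mu_act sw the same bound holds for VC ω a (a+n) c0 (c0+n') c.
hc_step: the strip lemma with m+1 rectangles (N2 wide, N1 high, cost c1) and m vertical crossings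
(N0 wide, N1 high, cost c0, VC.mono into the overlap square) gives HC of width N3 = m (N2-N1) + N2, height N1,
cost (m+1) c1 + m c0 off an event of probability ≤ (m+1) p1 + m p0 (on pos_ae). Two such strips at heights c0 and
c0 + N1 + 1 lie in the rectangle of height N2 (HC.mono) and are independent: indep_mul with S = pairs having both
ends at height ≤ c0 + N1 (HC only depends on edges with both ends in the rectangle: cost_congr).
hc_prob: N 0 = 1, N 1 = 3, N 2 = 12 say, N (k+3) = m k (N (k+2) - N (k+1)) + N (k+2), m k = 4^(k+2). Base cases k = 0, 1 by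
loc_prob (straight path, box_walk or seqWalk, cost ≤ length * M). Invariants: p k = ε 64^(-k) or 16^(-k) with ε tiny
(((m+1) 2 p k)^2 ≤ p (k+2)), and cost c k = C (N (k+1) - 3 N k) for k ≥ 1, c 0 ≤ C N 1:
(m+1) c (k+1) + m c k ≤ (m+1) C (N(k+2) - 2 N(k+1)) ≤ C (N(k+3) - 3 N(k+2)) as long as
N (k+3) ≥ (m+1)(N(k+2) - N(k+1)) and (m+1) N(k+1) ≥ 3 N(k+2), which holds since N(k+2) ≤ (m(k-1)+1) N(k+1).
You may choose other sequences.
-/

namespace Vale.Agent.P158

open MeasureTheory Filter Topology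

variable {G : Measure ℝ} [IsProbabilityMeasure G] {h g : ℝ}

theorem vc_prob {n n' : ℤ} {c p : ℝ}
    (hP : ∀ a c0 : ℤ, (mu G).real {ω | ¬ HC ω a (a + n') c0 (c0 + n) c} ≤ p) (a c0 : ℤ) :
    (mu G).real {ω | ¬ VC ω a (a + n) c0 (c0 + n') c} ≤ p := by
  have h1 : {ω | ¬ VC ω a (a + n) c0 (c0 + n') c}
      = act sw ⁻¹' {ω | ¬ HC ω c0 (c0 + n') a (a + n) c} := by
    ext ω
    simp only [Set.mem_ofPred_eq, Set.mem_preimage, vc_iff]
  rw [h1, Measure.real, mu_act]
  exact hP c0 a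

theorem hcprob_ae {A B : Set Om} (hAB : ∀ᵐ ω ∂mu G, ω ∈ A → ω ∈ B) :
    (mu G).real A ≤ (mu G).real B :=
  ENNReal.toReal_mono (measure_ne_top _ _) (measure_mono_ae hAB)

theorem strip_prob (hp : Par G h g) {N0 N1 N2 : ℤ} (h0 : 0 ≤ N0) (h01 : N0 ≤ N1) (h1 : 0 < N1)
    (h12 : N1 ≤ N2) {c0 c1 p0 p1 : ℝ}
    (hP0 : ∀ a c : ℤ, (mu G).real {ω | ¬ HC ω a (a + N1) c (c + N0) c0} ≤ p0)
    (hP1 : ∀ a c : ℤ, (mu G).real {ω | ¬ HC ω a (a + N2) c (c + N1) c1} ≤ p1) (m : ℕ) (a c : ℤ) :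
    (mu G).real {ω | ¬ HC ω a (a + m * (N2 - N1) + N2) c (c + N1) ((m + 1) * c1 + m * c0)}
      ≤ (m + 1) * p1 + m * p0 := by
  have hV := vc_prob hP0
  have hsub : (mu G).real
      {ω | ¬ HC ω a (a + m * (N2 - N1) + N2) c (c + N1) ((m + 1) * c1 + m * c0)} ≤
      (mu G).real ((⋃ i ∈ Finset.range (m + 1),
        {ω | ¬ HC ω (a + (i : ℕ) * (N2 - N1)) (a + (i : ℕ) * (N2 - N1) + N2) c (c + N1) c1}) ∪
       (⋃ i ∈ Finset.Icc 1 m,
        {ω | ¬ VC ω (a + (i : ℕ) * (N2 - N1)) (a + (i : ℕ) * (N2 - N1) + N0) c (c + N1) c0})) := by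
    refine hcprob_ae ?_
    filter_upwards [pos_ae hp] with ω hω hA
    by_contra hB
    simp only [Set.mem_union, Set.mem_iUnion, Set.mem_ofPred_eq, not_or, not_exists, not_not,
      Finset.mem_range, Finset.mem_Icc] at hB
    refine hA (strip (fun e => (hω e).le) h1 h12 a c m (fun i hi => hB.1 i (by omega))
      fun i hi hi' => ?_)
    exact VC.mono (fun e => (hω e).le) (hB.2 i ⟨hi, hi'⟩) le_rfl (by omega) le_rfl (by omega)
      le_rfl le_rfl
  refine hsub.trans ((measureReal_union_le _ _).trans (add_le_add ?_ ?_))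
  · refine (measureReal_biUnion_finset_le _ _).trans ?_
    refine (Finset.sum_le_card_nsmul _ _ p1 fun i _ => hP1 _ _).trans ?_
    simp
  · refine (measureReal_biUnion_finset_le _ _).trans ?_
    refine (Finset.sum_le_card_nsmul _ _ p0 fun i _ => hV _ _).trans ?_
    simp

theorem hcprob_congr {ω ω' : Om} {a b c d : ℤ} {M : ℝ}
    (he : ∀ x y : V, InR a b c d x → InR a b c d y → ω s(x, y) = ω' s(x, y))
    (hH : HC ω a b c d M) : HC ω' a b c d M := by
  obtain ⟨p, q, W, hp, hq, hW, hc⟩ := hH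
  refine ⟨p, q, W, hp, hq, hW, ?_⟩
  rw [← cost_congr W (ω := ω)]
  · exact hc
  · intro e hmem
    induction e using Sym2.ind with
    | h x y =>
      exact he x y (hW x (W.fst_mem_support_of_mem_edges hmem))
        (hW y (W.snd_mem_support_of_mem_edges hmem))

theorem hc_step (hp : Par G h g) {N0 N1 N2 : ℤ} (h0 : 0 ≤ N0) (h01 : N0 ≤ N1) (h1 : 0 < N1)
    (h12 : 2 * N1 + 1 ≤ N2) {c0 c1 p0 p1 : ℝ}
    (hP0 : ∀ a c : ℤ, (mu G).real {ω | ¬ HC ω a (a + N1) c (c + N0) c0} ≤ p0)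
    (hP1 : ∀ a c : ℤ, (mu G).real {ω | ¬ HC ω a (a + N2) c (c + N1) c1} ≤ p1) (m : ℕ) (a c : ℤ) :
    (mu G).real {ω | ¬ HC ω a (a + (m * (N2 - N1) + N2)) c (c + N2) ((m + 1) * c1 + m * c0)}
      ≤ ((m + 1) * p1 + m * p0) ^ 2 := by
  have hS := strip_prob hp h0 h01 h1 (by omega) hP0 hP1 m a
  have hW : 0 ≤ (m : ℤ) * (N2 - N1) := mul_nonneg (by positivity) (by omega)
  have hsub : (mu G).real
      {ω | ¬ HC ω a (a + (m * (N2 - N1) + N2)) c (c + N2) ((m + 1) * c1 + m * c0)} ≤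
      (mu G).real
        ({ω | ¬ HC ω a (a + m * (N2 - N1) + N2) c (c + N1) ((m + 1) * c1 + m * c0)} ∩
        {ω | ¬ HC ω a (a + m * (N2 - N1) + N2) (c + N1 + 1) (c + N1 + 1 + N1)
          ((m + 1) * c1 + m * c0)}) := by
    refine hcprob_ae ?_
    filter_upwards [pos_ae hp] with ω hω hA
    constructor
    · intro hH
      exact hA (HC.mono (fun e => (hω e).le) hH le_rfl (by omega) (by omega) le_rfl (by omega)
        le_rfl)
    · intro hH
      exact hA (HC.mono (fun e => (hω e).le) hH le_rfl (by omega) (by omega) (by omega) (by omega)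
        le_rfl)
  refine hsub.trans ?_
  have hm : ∀ (a b c d : ℤ) (M : ℝ), MeasurableSet {ω | ¬ HC ω a b c d M} :=
    fun a b c d M => (meas_HC a b c d M).compl
  rw [Measure.real, indep_mul G {e : E | ∀ z ∈ e, z.2 ≤ c + N1} (hm _ _ _ _ _)
    (hm _ _ _ _ _), ENNReal.toReal_mul, sq]
  · exact mul_le_mul (hS c) (hS (c + N1 + 1)) ENNReal.toReal_nonneg
      (measureReal_nonneg.trans (hS c))
  · intro ω ω' he hA hH
    refine hA (hcprob_congr (fun x y hx hy => (he _ ?_).symm) hH)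
    intro z hz
    rcases Sym2.mem_iff.1 hz with rfl | rfl
    · exact hx.2.2.2
    · exact hy.2.2.2
  · intro ω ω' he hA hH
    refine hA (hcprob_congr (fun x y hx hy => (he _ ?_).symm) hH)
    intro hz
    have h2 := hz x (Sym2.mem_mk_left x y)
    have h3 := hx.2.2.1
    omega

/-- the scales. -/
def hcprob_N : ℕ → ℕ
  | 0 => 1
  | 1 => 4
  | 2 => 16
  | (k + 3) => (4 ^ (k + 2) - 1) * (hcprob_N (k + 2) - hcprob_N (k + 1)) + hcprob_N (k + 2)

theorem hcprob_N_succ (k : ℕ) : hcprob_N (k + 3) =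
    (4 ^ (k + 2) - 1) * (hcprob_N (k + 2) - hcprob_N (k + 1)) + hcprob_N (k + 2) := rfl

theorem hcprob_pow (k : ℕ) : 16 ≤ 4 ^ (k + 2) := by
  have : 1 ≤ 4 ^ k := Nat.one_le_pow _ _ (by norm_num)
  rw [pow_add]
  omega

theorem hcprob_grow (k : ℕ) : 1 ≤ hcprob_N k ∧ 4 * hcprob_N k ≤ hcprob_N (k + 1) := by
  induction k with
  | zero => decide
  | succ k ih =>
    refine ⟨by omega, ?_⟩
    rcases k with _ | k
    · decide
    · rw [show k + 1 + 1 + 1 = k + 3 from rfl, hcprob_N_succ]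
      have h1 := hcprob_pow k
      have h2 : 15 * (hcprob_N (k + 2) - hcprob_N (k + 1)) ≤
          (4 ^ (k + 2) - 1) * (hcprob_N (k + 2) - hcprob_N (k + 1)) :=
        Nat.mul_le_mul_right _ (by omega)
      have h3 : 4 * hcprob_N (k + 1) ≤ hcprob_N (k + 2) := ih.2
      show 4 * hcprob_N (k + 2) ≤ _
      omega

theorem hcprob_ratio (k : ℕ) : hcprob_N (k + 2) ≤ 4 ^ (k + 1) * hcprob_N (k + 1) := by
  rcases k with _ | k
  · decide
  · rw [show k + 1 + 2 = k + 3 from rfl, hcprob_N_succ]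
    have h1 := hcprob_pow k
    have h2 : (4 ^ (k + 2) - 1) * (hcprob_N (k + 2) - hcprob_N (k + 1)) ≤
        (4 ^ (k + 2) - 1) * hcprob_N (k + 2) := Nat.mul_le_mul_left _ (Nat.sub_le _ _)
    obtain ⟨m, hm⟩ : ∃ m, 4 ^ (k + 2) = m + 1 := ⟨4 ^ (k + 2) - 1, by omega⟩
    show _ ≤ 4 ^ (k + 2) * hcprob_N (k + 2)
    rw [hm] at h2 ⊢
    rw [Nat.add_sub_cancel] at h2 ⊢
    rw [Nat.add_mul]
    omega

theorem hcprob_base {ω : Om} {M : ℝ} (hM : 0 ≤ M) {a c : ℤ} (hL : Loc ω (a, c) 16 M) {n : ℕ}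
    (hn : n ≤ 16) {d : ℤ} (hd : c ≤ d) {M' : ℝ} (hM' : 16 * M ≤ M') : HC ω a (a + n) c d M' := by
  obtain ⟨p, hl, hs, he⟩ := seqWalk (fun k : ℕ => ((a + k, c) : V)) n (by
    intro k _
    rw [adj_iff]
    left
    constructor
    · push_cast
      ring
    · rfl)
  refine ⟨_, _, p, by simp, rfl, ?_, ?_⟩
  · intro z hz
    rw [hs] at hz
    obtain ⟨k, hk, rfl⟩ := List.mem_map.1 hz
    have := List.mem_range.1 hk
    refine ⟨?_, ?_, le_rfl, hd⟩
    · show a ≤ a + k
      omega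
    · show a + k ≤ a + n
      omega
  · refine (cost_le_length p (M := M) ?_).trans ?_
    · intro e hmem
      rw [he] at hmem
      obtain ⟨k, hk, rfl⟩ := List.mem_map.1 hmem
      have := List.mem_range.1 hk
      refine hL _ (mk_mem_ebox.2 ⟨mem_box.2 ?_, mem_box.2 ?_⟩)
      · dsimp only
        omega
      · dsimp only
        omega
    · rw [hl]
      have : (n : ℝ) ≤ 16 := by exact_mod_cast hn
      nlinarith

theorem hc_prob (hp : Par G h g) : ∃ C : ℝ, 0 < C ∧ ∃ N : ℕ → ℕ, 0 < N 0 ∧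
    (∀ k, 2 * N k + 1 ≤ N (k + 1)) ∧ ∃ p : ℕ → ℝ, Tendsto p atTop (𝓝 0) ∧ ∀ (k : ℕ) (a c : ℤ),
      (mu G).real {ω | ¬ HC ω a (a + N (k + 1)) c (c + N k) (C * N (k + 1))} ≤ p k := by
  obtain ⟨M, hM, hL⟩ := loc_prob G 16 (ε := 1 / 2 ^ 22) (by positivity)
  have hbase : ∀ (n : ℕ) (H : ℤ) (M' : ℝ), n ≤ 16 → 0 ≤ H → 16 * M ≤ M' → ∀ a c : ℤ,
      (mu G).real {ω | ¬ HC ω a (a + n) c (c + H) M'} ≤ 1 / 2 ^ 22 := by
    intro n H M' hn hH hM' a c
    refine le_trans (measureReal_mono ?_) (hL (a, c))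
    intro ω hω hloc
    exact hω (hcprob_base hM.le hloc hn (by omega) hM')
  have key : ∀ k : ℕ, ∀ a c : ℤ, (mu G).real {ω | ¬ HC ω a (a + hcprob_N (k + 1)) c
      (c + hcprob_N k) (16 * M * (hcprob_N (k + 1) - 3 * hcprob_N k))}
        ≤ 1 / 2 ^ 18 * (1 / 16) ^ k := by
    intro k
    induction k using Nat.twoStepInduction with
    | zero =>
      intro a c
      refine (hbase _ _ _ (by decide) (by positivity) ?_ a c).trans (by norm_num)
      simp only [hcprob_N]
      push_cast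
      linarith
    | one =>
      intro a c
      refine (hbase _ _ _ (by decide) (by positivity) ?_ a c).trans (by norm_num)
      simp only [hcprob_N]
      push_cast
      linarith
    | more k ih0 ih1 =>
      intro a c
      have g0 := hcprob_grow k
      have g1 := hcprob_grow (k + 1)
      have g2 := hcprob_ratio k
      have g3 := hcprob_pow k
      obtain ⟨m, hm⟩ : ∃ m, 4 ^ (k + 2) = m + 1 := ⟨4 ^ (k + 2) - 1, by omega⟩
      have hN : hcprob_N (k + 3) =
          m * (hcprob_N (k + 2) - hcprob_N (k + 1)) + hcprob_N (k + 2) := by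
        rw [hcprob_N_succ, hm, Nat.add_sub_cancel]
      have hle : hcprob_N (k + 1) ≤ hcprob_N (k + 2) := by
        have := g1.2
        show _ ≤ hcprob_N (k + 1 + 1)
        omega
      have hNz : (hcprob_N (k + 3) : ℤ) =
          m * ((hcprob_N (k + 2) : ℤ) - hcprob_N (k + 1)) + hcprob_N (k + 2) := by
        rw [hN]
        push_cast [hle]
        rfl
      have hNr : (hcprob_N (k + 3) : ℝ) =
          m * ((hcprob_N (k + 2) : ℝ) - hcprob_N (k + 1)) + hcprob_N (k + 2) := by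
        exact_mod_cast hNz
      have hst := hc_step hp (N0 := hcprob_N k) (N1 := hcprob_N (k + 1)) (N2 := hcprob_N (k + 2))
        (by positivity) (by omega) (by omega)
        (by have := g1.2; have e : hcprob_N (k + 1 + 1) = hcprob_N (k + 2) := rfl; omega)
        ih0 ih1 m a c
      rw [← hNz] at hst
      refine le_trans (hcprob_ae ?_) (hst.trans ?_)
      · filter_upwards [pos_ae hp] with ω hω hA hH
        refine hA (HC.mono (fun e => (hω e).le) hH le_rfl (by omega) le_rfl le_rfl le_rfl ?_)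
        have e1 : hcprob_N (k + 1 + 1) = hcprob_N (k + 2) := rfl
        have e2 : hcprob_N (k + 2 + 1) = hcprob_N (k + 3) := rfl
        rw [e1, e2, hNr]
        have h3 : 3 * hcprob_N (k + 2) ≤ (m + 1) * hcprob_N (k + 1) := by
          rw [← hm, pow_succ 4 (k + 1), Nat.mul_comm (4 ^ (k + 1)) 4, Nat.mul_assoc]
          omega
        have h3' : 3 * (hcprob_N (k + 2) : ℝ) ≤ (m + 1) * hcprob_N (k + 1) := by
          exact_mod_cast h3
        have h4 : (0 : ℝ) ≤ m * hcprob_N k := by positivity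
        have h5 : (0 : ℝ) ≤ hcprob_N (k + 1) := by positivity
        have h6 : ((m : ℝ) + 1) * (hcprob_N (k + 2) - 3 * hcprob_N (k + 1)) +
            m * (hcprob_N (k + 1) - 3 * hcprob_N k) ≤
            m * ((hcprob_N (k + 2) : ℝ) - hcprob_N (k + 1)) + hcprob_N (k + 2) -
              3 * hcprob_N (k + 2) := by
          nlinarith
        have h7 := mul_le_mul_of_nonneg_left h6 (by positivity : 0 ≤ 16 * M)
        linarith
      · have hmr : (m : ℝ) + 1 = 4 ^ (k + 2) := by exact_mod_cast hm.symm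
        have hq : (0 : ℝ) < (1 / 16) ^ k := by positivity
        have h1 : ((m : ℝ) + 1) * (1 / 2 ^ 18 * (1 / 16) ^ (k + 1)) +
            m * (1 / 2 ^ 18 * (1 / 16) ^ k) ≤ 4 ^ (k + 2) * (1 / 2 ^ 17 * (1 / 16) ^ k) := by
          rw [← hmr, pow_succ (1 / 16 : ℝ) k]
          generalize ((1 : ℝ) / 16) ^ k = q at hq
          have : (0 : ℝ) ≤ m * q := by positivity
          linarith
        refine (pow_le_pow_left₀ (by positivity) h1 2).trans (le_of_eq ?_)
        have h2 : ((4 : ℝ) ^ k) ^ 2 * (1 / 16) ^ k = 1 := by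
          rw [← pow_mul, mul_comm k 2, pow_mul, ← mul_pow]
          norm_num
        rw [pow_add, pow_add]
        linear_combination (1 / 2 ^ 26 * (1 / 16) ^ k) * h2
  refine ⟨16 * M, by positivity, hcprob_N, by decide, fun k => ?_,
    fun k => 1 / 2 ^ 18 * (1 / 16) ^ k, ?_, fun k a c => ?_⟩
  · have := hcprob_grow k
    omega
  · have := (tendsto_pow_atTop_nhds_zero_of_lt_one (r := (1 / 16 : ℝ)) (by norm_num)
      (by norm_num)).const_mul (1 / 2 ^ 18)
    rwa [mul_zero] at this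
  · refine le_trans (hcprob_ae ?_) (key k a c)
    filter_upwards [pos_ae hp] with ω hω hA hH
    refine hA (HC.mono (fun e => (hω e).le) hH le_rfl (by omega) le_rfl le_rfl le_rfl ?_)
    have h5 : (0 : ℝ) ≤ hcprob_N k := by positivity
    nlinarith

end Vale.Agent.P158
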