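import Vale.Agent.P158.Walks

/-!
TASK J1: discrete Jordan lemma in a rectangle (pure parity argument, no topology).
Plan. (1) Cut lemma: for any decidable set S of vertices and any walk W from p to q, the number of darts
of W with exactly one end in S is congruent mod 2 to [p in S] + [q in S] (induction on W; work in ZMod 2,
sum over darts of 1_S(fst) + 1_S(snd)).
(2) For a vertex v let phi v (in ZMod 2) count the darts of W that are horizontal, join the columns v.1 and
v.1+1, at height > v.2. For x in {p,q} let cc x v = [a < x.1 and x.1 ≤ v.1 and (v.2 < x.2 or x.2 = d)].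
psi v = phi v + cc p v + cc q v. If v, v' are adjacent, in the rectangle and not on W then psi v = psi v':
vertical move: a dart counted for one but not the other has v or v' as an end; horizontal move
v=(s,y), v'=(s+1,y): cut lemma for S = {(s+1,y') : y' > y} (the vertical boundary dart contains v').
Do everything dart by dart: an identity in ZMod 2 for each dart by adj_iff cases, split_ifs, omega.
(3) For v on the boundary and not on W: psi v = [rpos p < rpos v] + [rpos q < rpos v] + [p.1 = a] + [q.1 = a].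
Top or right side: phi v = 0. Bottom side (a < v.1 < b): cut lemma for S = {x.1 ≤ v.1}. Left side
(v.2 < d): cut lemma for S = {x.1 = a, x.2 > v.2}. (4) psi is constant along W' if W, W' are disjoint,
but differs at p2 and p4.
J0: p left, q right, p' bottom, q' top. If two of these points coincide across the walks we are done;
otherwise rpos p < rpos q' < rpos q < rpos p' or (p' = (a,c)) rpos p' < rpos p < rpos q' < rpos q; use J1
with reversed walks as needed.
-/

namespace Vale.Agent.P158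

open SimpleGraph

open Classical in
/-- indicator in the field with two elements. -/
noncomputable def j1_i (P : Prop) : ZMod 2 := if P then 1 else 0

theorem j1_add {A B C D : Prop} (h : (A ↔ B) ↔ (C ↔ D)) : j1_i A + j1_i B = j1_i C + j1_i D := by
  by_cases hA : A <;> by_cases hB : B <;> by_cases hC : C <;> by_cases hD : D <;>
    simp only [j1_i, hA, hB, hC, hD, if_true, if_false] at h ⊢ <;>
    first | decide | simp at h

theorem j1_add' {A B C : Prop} (h : C ↔ ¬ (A ↔ B)) : j1_i C = j1_i A + j1_i B := by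
  by_cases hA : A <;> by_cases hB : B <;> by_cases hC : C <;>
    simp only [j1_i, hA, hB, hC, if_true, if_false] at h ⊢ <;>
    first | decide | simp at h

theorem j1_pos {A : Prop} (h : A) : j1_i A = 1 := if_pos h

theorem j1_neg {A : Prop} (h : ¬ A) : j1_i A = 0 := if_neg h

theorem j1_tele (k : V → V → ZMod 2) (F : V → ZMod 2) {p q : V} (W : grid.Walk p q)
    (h : ∀ x ∈ W.support, ∀ y ∈ W.support, grid.Adj x y → k x y = F x + F y) :
    (W.darts.map fun e => k e.fst e.snd).sum = F p + F q := by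
  induction W with
  | nil => simp [CharTwo.add_self_eq_zero]
  | cons hxy W ih =>
    rw [Walk.darts_cons, List.map_cons, List.sum_cons, ih fun x hx y hy =>
      h x (by simp [hx]) y (by simp [hy])]
    rw [h _ (by simp) _ (by simp) hxy, add_assoc, ← add_assoc (F _) (F _) (F _),
      CharTwo.add_self_eq_zero, zero_add]

/-- the dart crosses the vertical half line above v. -/
def j1_cr (v x y : V) : Prop :=
  v.2 < x.2 ∧ ((x.1 = v.1 ∧ y.1 = v.1 + 1) ∨ (y.1 = v.1 ∧ x.1 = v.1 + 1))

noncomputable def j1_phi {p q : V} (W : grid.Walk p q) (v : V) : ZMod 2 :=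
  (W.darts.map fun e => j1_i (j1_cr v e.fst e.snd)).sum

def j1_cc (a d : ℤ) (x v : V) : Prop := a < x.1 ∧ x.1 ≤ v.1 ∧ (v.2 < x.2 ∨ x.2 = d)

noncomputable def j1_psi (a d : ℤ) {p q : V} (W : grid.Walk p q) (v : V) : ZMod 2 :=
  j1_phi W v + (j1_i (j1_cc a d p v) + j1_i (j1_cc a d q v))

theorem j1_ne {x y : V} (h : x ≠ y) : x.1 ≠ y.1 ∨ x.2 ≠ y.2 := by
  by_contra c
  exact h (Prod.ext (by omega) (by omega))

theorem j1_move {a b c d : ℤ} {p q v v' : V} (W : grid.Walk p q) (hp : OnB a b c d p)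
    (hq : OnB a b c d q) (hv : InR a b c d v) (hv' : InR a b c d v') (h : grid.Adj v v')
    (n : v ∉ W.support) (n' : v' ∉ W.support) : j1_psi a d W v = j1_psi a d W v' := by
  let F : V → Prop := fun x => v.2 < x.2 ∧ ((v'.1 = v.1 + 1 ∧ x.1 = v'.1) ∨
    (v.1 = v'.1 + 1 ∧ x.1 = v.1))
  have e1 : j1_phi W v + j1_phi W v' = j1_i (F p) + j1_i (F q) := by
    rw [j1_phi, j1_phi, ← List.sum_map_add]
    refine j1_tele (fun x y => j1_i (j1_cr v x y) + j1_i (j1_cr v' x y)) (fun x => j1_i (F x)) W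
      fun x hx y hy hxy => j1_add ?_
    have h1 := j1_ne (ne_of_mem_of_not_mem hx n)
    have h2 := j1_ne (ne_of_mem_of_not_mem hx n')
    have h3 := j1_ne (ne_of_mem_of_not_mem hy n)
    have h4 := j1_ne (ne_of_mem_of_not_mem hy n')
    simp only [j1_cr, F]
    rw [adj_iff] at h hxy
    rcases h with h | h | h | h <;> rcases hxy with hxy | hxy | hxy | hxy <;> omega
  have e2 : ∀ x ∈ W.support, OnB a b c d x →
      j1_i (F x) = j1_i (j1_cc a d x v) + j1_i (j1_cc a d x v') := by
    intro x hx hb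
    have h1 := j1_ne (ne_of_mem_of_not_mem hx n)
    have h2 := j1_ne (ne_of_mem_of_not_mem hx n')
    refine j1_add' ?_
    simp only [j1_cc, F]
    rw [adj_iff] at h
    obtain ⟨⟨b1, b2, b3, b4⟩, hb⟩ := hb
    obtain ⟨c1, c2, c3, c4⟩ := hv
    obtain ⟨d1, d2, d3, d4⟩ := hv'
    rcases h with h | h | h | h <;> rcases hb with hb | hb | hb | hb <;> omega
  rw [e2 p W.start_mem_support hp, e2 q W.end_mem_support hq] at e1
  unfold j1_psi
  revert e1
  generalize j1_phi W v = x1
  generalize j1_phi W v' = x2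
  generalize j1_i (j1_cc a d p v) = x3
  generalize j1_i (j1_cc a d p v') = x4
  generalize j1_i (j1_cc a d q v) = x5
  generalize j1_i (j1_cc a d q v') = x6
  revert x1 x2 x3 x4 x5 x6
  decide

theorem j1_const {a b c d : ℤ} {p q p' q' : V} (W : grid.Walk p q) (hp : OnB a b c d p)
    (hq : OnB a b c d q) (W' : grid.Walk p' q') (hW' : ∀ z ∈ W'.support, InR a b c d z)
    (n : ∀ z ∈ W'.support, z ∉ W.support) : j1_psi a d W p' = j1_psi a d W q' := by
  induction W' with
  | nil => rfl
  | cons hxy W' ih =>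
    rw [← ih (fun z hz => hW' z (by simp [hz])) fun z hz => n z (by simp [hz])]
    exact j1_move W hp hq (hW' _ (by simp)) (hW' _ (by simp)) hxy (n _ (by simp)) (n _ (by simp))

theorem j1_bd {a b c d : ℤ} (hab : a < b) (hcd : c < d) {p q v : V} (W : grid.Walk p q)
    (hp : OnB a b c d p) (hq : OnB a b c d q) (hv : OnB a b c d v)
    (hW : ∀ z ∈ W.support, InR a b c d z) (n : v ∉ W.support) :
    j1_psi a d W v = (j1_i (rpos a b c d p < rpos a b c d v) + j1_i (p.1 = a)) +
      (j1_i (rpos a b c d q < rpos a b c d v) + j1_i (q.1 = a)) := by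
  let F : V → Prop := fun x => v.1 < b ∧ v.2 < d ∧
    ((v.1 = a ∧ x.1 = a ∧ v.2 < x.2) ∨ (a < v.1 ∧ v.1 < x.1))
  obtain ⟨⟨c1, c2, c3, c4⟩, hv⟩ := hv
  have e1 : j1_phi W v = j1_i (F p) + j1_i (F q) := by
    refine j1_tele (fun x y => j1_i (j1_cr v x y)) (fun x => j1_i (F x)) W
      fun x hx y hy hxy => j1_add' ?_
    have h1 := j1_ne (ne_of_mem_of_not_mem hx n)
    have h3 := j1_ne (ne_of_mem_of_not_mem hy n)
    obtain ⟨b1, b2, b3, b4⟩ := hW x hx
    obtain ⟨d1, d2, d3, d4⟩ := hW y hy
    simp only [j1_cr, F]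
    rw [adj_iff] at hxy
    rcases hv with h | h | h | h <;> rcases hxy with hxy | hxy | hxy | hxy <;> omega
  have e2 : ∀ x ∈ W.support, OnB a b c d x → j1_i (F x) + j1_i (j1_cc a d x v) =
      j1_i (rpos a b c d x < rpos a b c d v) + j1_i (x.1 = a) := by
    intro x hx hb
    have h1 := j1_ne (ne_of_mem_of_not_mem hx n)
    refine j1_add ?_
    obtain ⟨⟨b1, b2, b3, b4⟩, hb⟩ := hb
    simp only [j1_cc, F, rpos]
    split_ifs <;> omega
  rw [j1_psi, e1, ← e2 p W.start_mem_support hp, ← e2 q W.end_mem_support hq, add_add_add_comm]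

theorem J1 {a b c d : ℤ} (hab : a < b) (hcd : c < d) {p1 p2 p3 p4 : V}
    (h1 : OnB a b c d p1) (h2 : OnB a b c d p2) (h3 : OnB a b c d p3) (h4 : OnB a b c d p4)
    (h12 : rpos a b c d p1 < rpos a b c d p2) (h23 : rpos a b c d p2 < rpos a b c d p3)
    (h34 : rpos a b c d p3 < rpos a b c d p4)
    (W : grid.Walk p1 p3) (W' : grid.Walk p2 p4)
    (hW : ∀ z ∈ W.support, InR a b c d z) (hW' : ∀ z ∈ W'.support, InR a b c d z) :
    ∃ z ∈ W.support, z ∈ W'.support := by
  by_contra hc
  have n : ∀ z ∈ W'.support, z ∉ W.support := fun z hz hz' => hc ⟨z, hz', hz⟩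
  have e := j1_const W h1 h3 W' hW' n
  rw [j1_bd hab hcd W h1 h3 h2 hW (n _ W'.start_mem_support),
    j1_bd hab hcd W h1 h3 h4 hW (n _ W'.end_mem_support), j1_pos h12, j1_neg (not_lt.2 h23.le),
    j1_pos (h12.trans (h23.trans h34)), j1_pos h34] at e
  revert e
  generalize j1_i (p1.1 = a) = x1
  generalize j1_i (p3.1 = a) = x2
  revert x1 x2
  decide

theorem rpos_inj {a b c d : ℤ} (hab : a < b) (hcd : c < d) {x y : V} (hx : OnB a b c d x)
    (hy : OnB a b c d y) (h : rpos a b c d x = rpos a b c d y) : x = y := by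
  obtain ⟨⟨b1, b2, b3, b4⟩, hx⟩ := hx
  obtain ⟨⟨c1, c2, c3, c4⟩, hy⟩ := hy
  unfold rpos at h
  refine Prod.ext ?_ ?_ <;> split_ifs at h <;> omega

theorem J0 {a b c d : ℤ} (hab : a < b) (hcd : c < d) {p q p' q' : V}
    (W : grid.Walk p q) (W' : grid.Walk p' q') (hp : p.1 = a) (hq : q.1 = b) (hp' : p'.2 = c)
    (hq' : q'.2 = d) (hW : ∀ z ∈ W.support, InR a b c d z)
    (hW' : ∀ z ∈ W'.support, InR a b c d z) : ∃ z ∈ W.support, z ∈ W'.support := by
  by_contra hc
  have n : ∀ z ∈ W'.support, z ∉ W.support := fun z hz hz' => hc ⟨z, hz', hz⟩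
  have i1 := hW p W.start_mem_support
  have i2 := hW q W.end_mem_support
  have i3 := hW' p' W'.start_mem_support
  have i4 := hW' q' W'.end_mem_support
  have o1 : OnB a b c d p := ⟨i1, Or.inl hp⟩
  have o2 : OnB a b c d q := ⟨i2, Or.inr (Or.inl hq)⟩
  have o3 : OnB a b c d p' := ⟨i3, Or.inr (Or.inr (Or.inl hp'))⟩
  have o4 : OnB a b c d q' := ⟨i4, Or.inr (Or.inr (Or.inr hq'))⟩
  have n1 := j1_ne (ne_of_mem_of_not_mem W.start_mem_support (n _ W'.start_mem_support))
  have n2 := j1_ne (ne_of_mem_of_not_mem W.start_mem_support (n _ W'.end_mem_support))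
  have n3 := j1_ne (ne_of_mem_of_not_mem W.end_mem_support (n _ W'.start_mem_support))
  have n4 := j1_ne (ne_of_mem_of_not_mem W.end_mem_support (n _ W'.end_mem_support))
  obtain ⟨b1, b2, b3, b4⟩ := i1
  obtain ⟨c1, c2, c3, c4⟩ := i2
  obtain ⟨d1, d2, d3, d4⟩ := i3
  obtain ⟨e1, e2, e3, e4⟩ := i4
  have r1 : rpos a b c d p < rpos a b c d q' := by unfold rpos; split_ifs <;> omega
  have r2 : rpos a b c d q' < rpos a b c d q := by unfold rpos; split_ifs <;> omega
  by_cases r3 : p'.1 = a
  · have r4 : rpos a b c d p' < rpos a b c d p := by unfold rpos; split_ifs; omega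
    obtain ⟨z, hz, hz'⟩ := J1 hab hcd o3 o1 o4 o2 r4 r1 r2 W' W hW' hW
    exact n z hz hz'
  · have r4 : rpos a b c d q < rpos a b c d p' := by unfold rpos; split_ifs <;> omega
    obtain ⟨z, hz, hz'⟩ := J1 hab hcd o1 o4 o2 o3 r1 r2 r4 W W'.reverse hW
      (by simpa using hW')
    exact n z (by simpa using hz') hz

end Vale.Agent.P158
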