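import Vale.Agent.P158.FMain
import Vale.Agent.P158.Same

/-!
TASK NoYP: almost surely no two lines share a half line.
yev_merge: the past of γ leaves box 0 ρ (escape_int); let n ≥ 1 be the first time γ (-n) is outside, x = γ (-n) is in the
ring. For j ≥ -n, Step ω x (γ (j+1)) (γ j) (from IsLine.rev, or T_add and T_succ), same for γ'. So γ 1, γ' 1 are in Back ω x,
fwd_eq gives fwd x (γ 1) = z.
noY_ae: p = μ (Yev 0). For z in box 0 ρ: p ≤ μ (Yev z) (yev_act, mu_act) ≤ sum over x in the ring of μ (Merge x z) (reg_ae).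
For fixed x: ρ * sum_z μ (Merge x z) ≤ sum over u in box 0 (2ρ) of μ (Back x u) ≤ ε (2ρ)^2 (count_master, merge_cnt_sum,
null_merge, lemmaF). So (2ρ+1)^2 p ρ ≤ 8 (ρ+1) 4 ε ρ^2, p ≤ 16 ε. Then μ (Yev z) = 0 for all z: apply the covariance with
act (tr (-z)), or rerun with the inequality reversed (Yev ω z implies Yev (act (tr z) ω) 0 through isLine_act); noY_of_not_yev.
-/

namespace Vale.Agent.P158

open MeasureTheory

theorem noyp_step {ω : Om} (h0 : ∀ e, 0 ≤ ω e) {γ : ℤ → V} (hγ : IsLine ω γ) {i j : ℤ}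
    (hij : i ≤ j) : Step ω (γ i) (γ (j + 1)) (γ j) := by
  have := hγ.rev h0 (-(j + 1)) (-i) (by omega)
  rwa [rev_apply, rev_apply, rev_apply, neg_neg, neg_neg, show -(-(j + 1) + 1) = j by ring] at this

theorem noyp_back {ω : Om} (h0 : ∀ e, 0 ≤ ω e) {γ : ℤ → V} (hγ : IsLine ω γ) {i : ℤ}
    (hi : i ≤ 0) : Back ω (γ i) (γ 1) := by
  refine ⟨fun n => γ (1 + n), by simp, fun n => ?_⟩
  have := noyp_step h0 hγ (show i ≤ 1 + (n : ℤ) by omega)
  rwa [add_assoc, ← Nat.cast_succ] at this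

theorem noyp_act {ω : Om} {u v : V} (h : Yev (act (tr v) ω) u) : Yev ω (u + v) := by
  obtain ⟨γ, γ', h1, h2, h3, h4, h5⟩ := h
  refine ⟨_, _, (isLine_act _ _ _).1 h1, (isLine_act _ _ _).1 h2, by rw [h3, tr_apply],
    fun i hi => by rw [h4 i hi], fun e => h5 ((tr v).injective e)⟩

theorem yev_merge {h : ℝ} {ω : Om} (hR : Reg h ω) {z : V} {ρ : ℕ} (hz : z ∈ box 0 ρ)
    (hY : Yev ω z) : ∃ x ∈ box 0 (ρ + 1) \ box 0 ρ, Merge (fwd ω x) (Back ω x) z := by
  classical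
  obtain ⟨γ, γ', h1, h2, rfl, h4, h5⟩ := hY
  have hex : ∃ n : ℕ, γ (-(n : ℤ)) ∉ box 0 ρ := by
    obtain ⟨n, hn⟩ := escape_int (h1.inj hR.pos) (box 0 ρ).finite_toSet
    exact ⟨n, hn _ (by simp)⟩
  have hn := Nat.find_spec hex
  obtain ⟨m, hm⟩ : ∃ m, Nat.find hex = m + 1 :=
    Nat.exists_eq_succ_of_ne_zero fun e => hn (by rw [e]; simpa using hz)
  have hm' : γ (-(m : ℤ)) ∈ box 0 ρ := not_not.1 (Nat.find_min hex (by omega))
  rw [hm] at hn
  have ha := h1.adj (-((m + 1 : ℕ) : ℤ))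
  rw [show -((m + 1 : ℕ) : ℤ) + 1 = -(m : ℤ) by push_cast; ring] at ha
  have hi : -((m + 1 : ℕ) : ℤ) ≤ 0 := by omega
  have s1 := noyp_step hR.nn h1 hi
  have s2 := noyp_step hR.nn h2 hi
  have b2 := noyp_back hR.nn h2 hi
  rw [← h4 _ hi] at s2 b2
  rw [← h4 0 le_rfl] at s2
  rw [zero_add] at s1 s2
  exact ⟨_, Finset.mem_sdiff.2 ⟨box_trans hm' (adj_mem_box ha.symm), hn⟩, γ 1, γ' 1,
    noyp_back hR.nn h1 hi, b2, h5, s1.1.ne, s2.1.ne, hR.fwd_eq s1, hR.fwd_eq s2⟩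

theorem noyp_le {G : Measure ℝ} [IsProbabilityMeasure G] {h g : ℝ} (hp : Par G h g) (z0 : V)
    {ε : ℝ} (hε : 0 < ε) : (mu G).real {ω | Yev ω z0} ≤ 16 * ε := by
  obtain ⟨l0, hl⟩ := lemmaF hp hε
  set ρ := l0 + 1 with hρ
  have a1 : ∀ z ∈ box 0 ρ, (mu G).real {ω | Yev ω z0} ≤
      ∑ x ∈ box 0 (ρ + 1) \ box 0 ρ, (mu G).real {ω | Merge (fwd ω x) (Back ω x) z} := by
    intro z hz
    refine le_trans ?_ (measureReal_biUnion_finset_le _ _)
    rw [measureReal_def, ← mu_act G (tr (z - z0)), measureReal_def]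
    refine ENNReal.toReal_mono (measure_ne_top _ _) (measure_mono_ae ?_)
    filter_upwards [reg_ae hp] with ω hR hω
    have hY : Yev ω (z0 + (z - z0)) := noyp_act hω
    rw [add_sub_cancel] at hY
    obtain ⟨x, hx, hM⟩ := yev_merge hR hz hY
    exact Set.mem_biUnion hx hM
  have a2 : ∀ x : V, (ρ : ℝ) * ∑ z ∈ box 0 ρ, (mu G).real {ω | Merge (fwd ω x) (Back ω x) z} ≤
      ε * ((2 * ρ : ℕ) : ℝ) ^ 2 := by
    intro x
    have h1 := count_master (mu G) (box 0 ρ) (box 0 (2 * ρ))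
      (fun z => {ω | Merge (fwd ω x) (Back ω x) z}) (fun u => {ω | Back ω x u})
      (fun z _ => null_merge G x z) ρ 1 0 zero_le_one (by
        filter_upwards [reg_ae hp] with ω hR
        rw [one_mul, add_zero]
        exact_mod_cast merge_cnt_sum (hR.forest x) ρ)
    rw [one_mul, add_zero] at h1
    exact h1.trans (hl (2 * ρ) (by omega) x)
  have a3 := Finset.sum_le_sum a1
  rw [Finset.sum_comm, Finset.sum_const, card_box, nsmul_eq_mul] at a3
  have a4 := Finset.sum_le_sum fun x (_ : x ∈ box 0 (ρ + 1) \ box 0 ρ) => a2 x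
  rw [← Finset.mul_sum, Finset.sum_const, card_ring, nsmul_eq_mul] at a4
  have hr : (1 : ℝ) ≤ ρ := by exact_mod_cast Nat.le_add_left 1 l0
  have hp0 : 0 ≤ (mu G).real {ω | Yev ω z0} := measureReal_nonneg
  have a5 := (mul_le_mul_of_nonneg_left a3 (by positivity : (0 : ℝ) ≤ ρ)).trans a4
  push_cast at a5
  generalize (mu G).real {ω | Yev ω z0} = p at *
  generalize (ρ : ℝ) = r at *
  have hr3 : 0 < r ^ 3 := by positivity
  refine le_of_mul_le_mul_left ?_ hr3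
  have b1 : r ^ 3 * p * 4 ≤ r * ((2 * r + 1) ^ 2 * p) := by
    have : 0 ≤ r * (4 * r + 1) * p := by positivity
    nlinarith
  have b2 : 8 * (r + 1) * (ε * (2 * r) ^ 2) ≤ r ^ 3 * (16 * ε) * 4 := by
    have : 0 ≤ (r - 1) * (ε * r ^ 2) := mul_nonneg (by linarith) (by positivity)
    nlinarith
  linarith

theorem noY_ae {G : Measure ℝ} [IsProbabilityMeasure G] {h g : ℝ} (hp : Par G h g) :
    ∀ᵐ ω ∂mu G, NoY ω := by
  have h1 : ∀ z : V, ∀ᵐ ω ∂mu G, ¬ Yev ω z := by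
    intro z
    have h2 : (mu G).real {ω | Yev ω z} ≤ 0 :=
      le_of_forall_pos_le_add fun ε hε => by linarith [noyp_le hp z (show 0 < ε / 16 by positivity)]
    rw [ae_iff]
    simpa [measureReal_eq_zero_iff] using le_antisymm h2 measureReal_nonneg
  filter_upwards [ae_all_iff.2 h1] with ω hω
  exact noY_of_not_yev hω

end Vale.Agent.P158
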