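import Vale.Agent.P158.Bus
import Vale.Agent.P158.Low
import Vale.Agent.P158.NoYP

/-!
TASK LemE: Lemma E. e k = bus γ (l k) - bus l (l k) is antitone (e_anti).
lemE_det: nonconstant gives k0 with e (k0+1) < e k0. k1 = k0 + 1, Λ = e k1 - c + 1. Pei at l k1: choose n with g n / 2 > Λ,
k2 = k1 + n, S = high edges of the segment k1..k2 (IsLine.seg). Let ω' be regular, Γ > Λ the total gain, l is a line of ω'
(IsLine.low). Write ρ n = γ (-n). For n large and every k ≥ k2: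
T' (ρ n) (l k) ≤ T (ρ n) (l k1) + T (l k1) (l k) - Γ < T (ρ n) (l k) (exists_lt_bus_add with θ = 1, bus_le, bus_line, lower bound c),
so T_low_lt gives q = l i, k1 ≤ i ≤ k2, between; hence T' (ρ n) (l k) = T' (ρ n) (l k2) + T' (l k2) (l k).
For n large l k0 is not between ρ n and l k2 for T': otherwise T' (ρ n) (l k1) = T' (ρ n) (l k0) + ω s(l k0, l k1), and
T' (ρ n) (l k0) = T (ρ n) (l k0) (else T_low_lt gives l i, i ≥ k1, between ρ n and l k0, impossible since l k0 is between ρ n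
and l i and T' (l k0) (l i) > 0); so T (ρ n) (l k1) ≥ T (ρ n) (l k0) + T (l k0) (l k1), which fails for large n as e k1 < e k0.
π n i = (fwd ω' (ρ n))^[i] (l k2); ulim gives π; for each i, eventually π n i ≠ ρ n (escape), so π is an IsRay of ω'
(for a < b use T_iter at a, a+1, b towards ρ n), avoids l k0, and T' (π a) (l k) = T' (π a) (l k2) + T' (l k2) (l k).
concat_line with the future of l from k2, NoY.fut_eq: the new line is l, so π (k2 - k0) = l k0. Contradiction.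
pe_ae: fe_ae for Reg and NoY with I e = Ioo 0 (h-g).
-/

namespace Vale.Agent.P158

open MeasureTheory

theorem leme_step {h : ℝ} {ω : Om} (hR : Reg h ω) {γ l : ℤ → V} (hγ : IsLine ω γ)
    (hl : IsLine ω l) (hn : ∃ k, bus ω γ (l k) - bus ω l (l k) ≠ bus ω γ (l 0)) :
    ∃ k0, bus ω γ (l (k0 + 1)) - bus ω l (l (k0 + 1)) < bus ω γ (l k0) - bus ω l (l k0) := by
  by_contra hc
  push Not at hc
  obtain ⟨k, hk⟩ := hn
  apply hk
  have heq : ∀ k0, bus ω γ (l (k0 + 1)) - bus ω l (l (k0 + 1)) =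
      bus ω γ (l k0) - bus ω l (l k0) := fun k0 =>
    le_antisymm (e_anti hR.nn hγ hl (by omega)) (hc k0)
  clear hk
  induction k using Int.induction_on with
  | zero => rw [bus_zero hR.nn hl, sub_zero]
  | succ i ih => rw [heq]; exact ih
  | pred i ih =>
    have := heq (-(i : ℤ) - 1)
    rw [sub_add_cancel] at this
    rw [← this]; exact ih

theorem leme_hyper {P : ℕ → Prop} (h : ∃ N, ∀ m, N ≤ m → P m) :
    ∀ᶠ m in (Filter.hyperfilter ℕ : Filter ℕ), P m := by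
  apply Filter.hyperfilter_le_cofinite
  rw [Nat.cofinite_eq_atTop]
  exact Filter.eventually_atTop.2 h

/-- the limit step: geodesics from far points landing on a line inside a bounded window give a Y. -/
theorem leme_limit {h : ℝ} {ω : Om} (hR : Reg h ω) {l : ℤ → V} (hl : IsLine ω l) {ρ : ℕ → V}
    (hρ : Function.Injective ρ) {k0 k2 : ℤ} (hk : k0 ≤ k2)
    (h1 : ∃ N, ∀ m, N ≤ m → ∀ k, k2 ≤ k → T ω (ρ m) (l k) = T ω (ρ m) (l k2) + T ω (l k2) (l k))
    (h2 : ∃ N, ∀ m, N ≤ m → T ω (ρ m) (l k2) ≠ T ω (ρ m) (l k0) + T ω (l k0) (l k2)) :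
    ¬ NoY ω := by
  intro hY
  have h0 := hR.nn
  obtain ⟨π, hπ⟩ := ulim (fun m (i : ℕ) => (fwd ω (ρ m))^[i] (l k2))
    (fun i => ⟨box (l k2) i, fun m => iter_mem_box (fwd_mem_box ω (ρ m)) _ _⟩)
  have hfar : ∀ i : ℕ, ∀ᶠ m in (Filter.hyperfilter ℕ : Filter ℕ),
      (fwd ω (ρ m))^[i] (l k2) ≠ ρ m := by
    intro i
    obtain ⟨N, hN⟩ := escape_nat hρ (box (l k2) i).finite_toSet
    refine leme_hyper ⟨N, fun m hm he => hN m hm ?_⟩
    rw [← he]
    exact iter_mem_box (fwd_mem_box ω (ρ m)) _ _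
  have hπ0 : π 0 = l k2 := by
    obtain ⟨m, hm⟩ := (hπ 0).exists
    simpa using hm.symm
  have hray : IsRay ω π := by
    intro a b hab
    obtain ⟨m, ⟨ha, ha1⟩, hb, hf⟩ := (((hπ a).and (hπ (a + 1))).and ((hπ b).and (hfar a))).exists
    have hs := hR.fwd_step hf
    rw [← Function.iterate_succ_apply' (fwd ω (ρ m)) a] at hs
    have e1 := hR.T_iter (ρ m) ((fwd ω (ρ m))^[a] (l k2)) (b - a)
    have e2 := hR.T_iter (ρ m) ((fwd ω (ρ m))^[a + 1] (l k2)) (b - (a + 1))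
    rw [← Function.iterate_add_apply] at e1 e2
    rw [show b - a + a = b by omega] at e1
    rw [show b - (a + 1) + (a + 1) = b by omega] at e2
    simp only [Nat.succ_eq_add_one] at hs
    rw [ha, hb] at e1
    rw [ha1, hb] at e2
    rw [ha, ha1] at hs
    exact ⟨hs.1, by have := hs.2; linarith⟩
  have hT : ∀ a b : ℕ, T ω (π a) (l (k2 + b)) = T ω (π a) (π 0) + T ω (l (k2 + (0 : ℕ))) (l (k2 + b)) := by
    intro a b
    obtain ⟨m, ha, hm⟩ := ((hπ a).and (leme_hyper h1)).exists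
    have e1 := hR.T_iter (ρ m) (l k2) a
    rw [ha] at e1
    have e2 := hm (k2 + b) (by omega)
    have e3 := T_triangle h0 (ρ m) (π a) (l (k2 + b))
    have e4 := T_triangle h0 (π a) (l k2) (l (k2 + b))
    have e5 := T_comm ω (ρ m) (l k2)
    have e6 := T_comm ω (ρ m) (π a)
    have e7 := T_comm ω (π a) (l k2)
    simp only [Nat.cast_zero, add_zero, hπ0]
    linarith
  obtain ⟨κ, hκ, hκ1, hκ2⟩ := concat_line h0 hray (hl.isRay_fut k2) (by simp [hπ0]) hT
  have heq := hY.fut_eq h0 hκ hl (i := 0) (j := k2) (fun n => by rw [zero_add, hκ2])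
  have h3 : π (k2 - k0).toNat = l k0 := by
    rw [← hκ1]
    have := heq (k0 - k2)
    rw [zero_add, show k2 + (k0 - k2) = k0 by ring] at this
    rw [← this]
    congr 1
    omega
  obtain ⟨m, ha, hm⟩ := ((hπ (k2 - k0).toNat).and (leme_hyper h2)).exists
  apply hm
  have e1 := hR.T_iter (ρ m) (l k2) (k2 - k0).toNat
  rw [ha, h3] at e1
  rw [T_comm ω (ρ m) (l k2), e1, T_comm ω (ρ m) (l k0), T_comm ω (l k0) (l k2)]
  ring

theorem lemE_det {h g : ℝ} {ω : Om} (hR : Reg h ω) (hg : 0 < g) {γ l : ℤ → V} (hγ : IsLine ω γ)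
    (hl : IsLine ω l) {c : ℝ} (hc : ∀ k, c ≤ bus ω γ (l k) - bus ω l (l k))
    (hn : ∃ k, bus ω γ (l k) - bus ω l (l k) ≠ bus ω γ (l 0)) :
    ∃ S : Finset E, ∀ ω' : Om, (∀ e ∉ S, ω' e = ω e) → (∀ e ∈ S, ω' e ∈ Set.Ioo 0 (h - g)) →
      Reg h ω' → ¬ NoY ω' := by
  classical
  have h0 := hR.nn
  obtain ⟨k0, hk0⟩ := leme_step hR hγ hl hn
  obtain ⟨n0, hn0⟩ := hR.pei (l (k0 + 1))
  set Λ : ℝ := bus ω γ (l (k0 + 1)) - bus ω l (l (k0 + 1)) - c + 1 with hΛ
  obtain ⟨n1, hn1⟩ := exists_nat_gt (2 * Λ / g)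
  set n : ℕ := max n0 n1 with hnn
  obtain ⟨p, hp, hpc, hpl, -, hpe⟩ := hl.seg hR.pos (i := k0 + 1) (j := k0 + 1 + n) (by omega)
  have hpl' : p.length = n := by omega
  refine ⟨p.edges.toFinset.filter (fun e => h < ω e), fun ω' hS hI hR' => ?_⟩
  set S := p.edges.toFinset.filter (fun e => h < ω e) with hSdef
  have hSe : ∀ e ∈ S, e ∈ p.edges ∧ h < ω e := by
    intro e he
    simpa [hSdef] using he
  have hle : ∀ e, ω' e ≤ ω e := by
    intro e
    by_cases he : e ∈ S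
    · have := (hSe e he).2
      have := (hI e he).2
      linarith
    · exact (hS e he).le
  have h0' := hR'.nn
  have hcard : S.card = hi ω h p := by
    unfold hi
    rw [List.countP_eq_length_filter, ← List.toFinset_card_of_nodup (hp.edges_nodup.filter _)]
    congr 1
    ext e
    simp [hSdef]
  have hΓ : Λ < ∑ e ∈ S, (ω e - ω' e) := by
    have e1 : (S.card : ℝ) * g ≤ ∑ e ∈ S, (ω e - ω' e) := by
      have := Finset.card_nsmul_le_sum S (fun e => ω e - ω' e) g (fun e he => by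
        have := (hSe e he).2
        have := (hI e he).2
        linarith)
      simpa using this
    have e2 := hn0 _ p hp (by omega)
    rw [← hcard, hpl'] at e2
    have e3 : (n1 : ℝ) ≤ 2 * S.card := by exact_mod_cast (le_max_right n0 n1).trans e2
    rw [div_lt_iff₀ hg] at hn1
    nlinarith
  have hl' : IsLine ω' l := hl.low hR.pos h0' hle hS (fun e he => by
    obtain ⟨k, -, -, hk⟩ := (hpe e).1 (hSe e he).1
    exact ⟨k, hk⟩)
  have hq : ∀ q q' : V, s(q, q') ∈ S → ∃ i, k0 + 1 ≤ i ∧ i ≤ k0 + 1 + n ∧ q = l i := by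
    intro q q' he
    obtain ⟨k, h1, h2, hk⟩ := (hpe _).1 (hSe _ he).1
    rcases Sym2.eq_iff.1 hk with ⟨h3, -⟩ | ⟨h3, -⟩
    · exact ⟨k, h1, by omega, h3⟩
    · exact ⟨k + 1, by omega, by omega, h3⟩
  have hseg : T ω' (l (k0 + 1)) (l (k0 + 1 + n)) ≤
      T ω (l (k0 + 1)) (l (k0 + 1 + n)) - ∑ e ∈ S, (ω e - ω' e) := by
    rw [← hpc, ← cost_low_path hS p hp (fun e he => (hSe e he).1)]
    exact T_le_cost h0' p
  refine leme_limit hR' hl' (ρ := past γ) (hγ.rayW hR.pos).2 (k0 := k0) (k2 := k0 + 1 + n)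
    (by omega) ?_ ?_
  · obtain ⟨N, hN⟩ := exists_lt_bus_add h0 hγ (l (k0 + 1)) one_pos
    refine ⟨N, fun m hm k hk => ?_⟩
    have a1 := hN m hm
    have a2 := bus_le h0 hγ (l k) m
    have a3 := hc k
    have a4 := bus_line h0 hl (i := k0 + 1) (j := k) (by omega)
    have a5 := hl.T_add h0 (i := k0 + 1) (j := k0 + 1 + n) (k := k) (by omega) hk
    have a6 := T_triangle h0' (past γ m) (l (k0 + 1)) (l k)
    have a7 := T_triangle h0' (l (k0 + 1)) (l (k0 + 1 + n)) (l k)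
    have a8 := T_mono h0' hle (past γ m) (l (k0 + 1))
    have a9 := T_mono h0' hle (l (k0 + 1 + n)) (l k)
    simp only [past_apply] at *
    have hlt : T ω' (γ (-(m : ℤ))) (l k) < T ω (γ (-(m : ℤ))) (l k) := by linarith
    obtain ⟨q, q', he, hb⟩ := T_low_lt hR' hle hS hlt
    obtain ⟨i, hi1, hi2, rfl⟩ := hq q q' he
    have b1 := hl'.T_add h0' (i := i) (j := k0 + 1 + n) (k := k) hi2 hk
    have b2 := T_triangle h0' (γ (-(m : ℤ))) (l i) (l (k0 + 1 + n))
    have b3 := T_triangle h0' (γ (-(m : ℤ))) (l (k0 + 1 + n)) (l k)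
    linarith
  · obtain ⟨N, hN⟩ := exists_lt_bus_add h0 hγ (l (k0 + 1)) (sub_pos.2 hk0)
    refine ⟨N, fun m hm hb => ?_⟩
    simp only [past_apply] at hb
    have hbt : ∀ i, k0 ≤ i → i ≤ k0 + 1 + n →
        T ω' (γ (-(m : ℤ))) (l i) = T ω' (γ (-(m : ℤ))) (l k0) + T ω' (l k0) (l i) := by
      intro i h1 h2
      have b1 := hl'.T_add h0' h1 h2
      have b2 := T_triangle h0' (γ (-(m : ℤ))) (l i) (l (k0 + 1 + n))
      have b3 := T_triangle h0' (γ (-(m : ℤ))) (l k0) (l i)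
      linarith
    have c1 : T ω (γ (-(m : ℤ))) (l k0) ≤ T ω' (γ (-(m : ℤ))) (l k0) := by
      by_contra hlt
      obtain ⟨q, q', he, hb'⟩ := T_low_lt hR' hle hS (not_le.1 hlt)
      obtain ⟨i, hi1, hi2, rfl⟩ := hq q q' he
      have d1 := hbt i (by omega) hi2
      have d2 := hR'.T_pos (x := l k0) (y := l i) (fun he => by
        have := hl.inj hR.pos he
        omega)
      have d3 := T_comm ω' (l i) (l k0)
      linarith
    have c2 : T ω' (l k0) (l (k0 + 1)) = T ω (l k0) (l (k0 + 1)) := by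
      rw [hl'.T_succ h0', hl.T_succ h0]
      apply hS
      intro he
      obtain ⟨i, hi1, -, hi3⟩ := hq _ _ he
      have := hl.inj hR.pos hi3
      omega
    have c3 := hbt (k0 + 1) (by omega) (by omega)
    have c4 := T_mono h0' hle (γ (-(m : ℤ))) (l (k0 + 1))
    have c5 := hN m hm
    have c6 := bus_le h0 hγ (l k0) m
    have c7 := bus_line h0 hl (i := k0) (j := k0 + 1) (by omega)
    linarith

theorem pe_ae {G : Measure ℝ} [IsProbabilityMeasure G] {h g : ℝ} (hp : Par G h g) :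
    ∀ᵐ ω ∂mu G, PE ω := by
  filter_upwards [reg_ae hp, fe_ae G ((reg_ae hp).and (noY_ae hp))] with ω hR hfe
  rintro γ l hγ hl ⟨c, hc⟩
  by_contra hn
  push Not at hn
  obtain ⟨S, hS⟩ := lemE_det hR hp.g_pos hγ hl hc hn
  obtain ⟨ω', h1, h2, h3, h4⟩ := hfe S (fun _ => Set.Ioo 0 (h - g))
    (fun _ _ => ⟨measurableSet_Ioo, hp.tgt⟩)
  exact hS ω' h1 h2 h3 h4

end Vale.Agent.P158
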