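import Vale.Agent.P158.Fwd

/-!
TASK Line: basic facts on lines (IsLine only records that γ i to γ (i+1) is a Step towards γ j, i < j).
Plan: T_sum by induction on the length (Step unfolds one edge). T_succ is the case j = i+1 with T_self.
T_add from T_sum. Injective by positivity. rev: T (γ (-i)) (γ (-j)) via T_comm, T_add, T_succ.
isLine_of_add is the converse. seg: seqWalk with f k = γ (i + k), Walk.copy. concat: use isLine_of_add;
additivity for i ≤ j ≤ k in the three regimes follows from hT, the ray additivity (a ray is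
additive by the same induction) and T_comm. Det_rev: reverse the walk. frame_hit: escape_int gives j0 ≥ i
with γ j0 outside the doubled box, apply IsFr to the segment walk. frame_T: hits j1 ≤ i ≤ j2 and
T (γ i) (γ j2) ≤ T (γ j1) (γ j2) ≤ cost W.
-/

namespace Vale.Agent.P158

open SimpleGraph

variable {h : ℝ} {ω : Om} {γ : ℤ → V}

theorem IsLine.adj (hγ : IsLine ω γ) (i : ℤ) : grid.Adj (γ i) (γ (i + 1)) :=
  (hγ i (i + 1) (by omega)).1

theorem IsLine.T_succ (h0 : ∀ e, 0 ≤ ω e) (hγ : IsLine ω γ) (i : ℤ) :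
    T ω (γ i) (γ (i + 1)) = ω s(γ i, γ (i + 1)) := by
  rw [(hγ i (i + 1) (by omega)).2, T_self h0, add_zero]

theorem IsLine.T_sum (h0 : ∀ e, 0 ≤ ω e) (hγ : IsLine ω γ) {i j : ℤ} (hij : i ≤ j) :
    T ω (γ i) (γ j) = ∑ k ∈ Finset.Ico i j, ω s(γ k, γ (k + 1)) := by
  induction i, hij using Int.le_induction_down with
  | base => simp [T_self h0]
  | pred i hi ih =>
    rw [(hγ (i - 1) j (by omega)).2, ← Finset.insert_Ico_add_one_left_eq_Ico (by omega : i - 1 < j),
      Finset.sum_insert (by simp), sub_add_cancel, ih]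

theorem IsLine.T_add (h0 : ∀ e, 0 ≤ ω e) (hγ : IsLine ω γ) {i j k : ℤ} (hij : i ≤ j)
    (hjk : j ≤ k) : T ω (γ i) (γ k) = T ω (γ i) (γ j) + T ω (γ j) (γ k) := by
  rw [hγ.T_sum h0 hij, hγ.T_sum h0 hjk, hγ.T_sum h0 (hij.trans hjk),
    ← Finset.sum_union (Finset.Ico_disjoint_Ico_consecutive i j k),
    Finset.Ico_union_Ico_eq_Ico hij hjk]

theorem isLine_of_add (hadj : ∀ i, grid.Adj (γ i) (γ (i + 1)))
    (hsucc : ∀ i, T ω (γ i) (γ (i + 1)) = ω s(γ i, γ (i + 1)))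
    (hadd : ∀ i j k, i ≤ j → j ≤ k → T ω (γ i) (γ k) = T ω (γ i) (γ j) + T ω (γ j) (γ k)) :
    IsLine ω γ := by
  intro i j hij
  exact ⟨hadj i, by rw [hadd i (i + 1) j (by omega) (by omega), hsucc]⟩

theorem isLine_of_sum (h0 : ∀ e, 0 ≤ ω e) (hadj : ∀ i, grid.Adj (γ i) (γ (i + 1)))
    (hsum : ∀ i j, i < j → ∑ k ∈ Finset.Ico i j, ω s(γ k, γ (k + 1)) = T ω (γ i) (γ j)) :
    IsLine ω γ := by
  intro i j hij
  refine ⟨hadj i, ?_⟩
  rw [← hsum i j hij, ← Finset.insert_Ico_add_one_left_eq_Ico hij, Finset.sum_insert (by simp)]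
  rcases eq_or_lt_of_le (show i + 1 ≤ j from hij) with rfl | h
  · simp [T_self h0]
  · rw [hsum _ _ h]

theorem IsLine.inj (hpos : ∀ e, 0 < ω e) (hγ : IsLine ω γ) : Function.Injective γ := by
  have h0 := fun e => (hpos e).le
  refine Function.Injective.of_lt_imp_ne fun i j hij e => ?_
  have h1 := hγ.T_sum h0 hij.le
  rw [e, T_self h0] at h1
  exact (Finset.sum_pos (fun k _ => hpos _) (Finset.nonempty_Ico.2 hij)).ne h1

theorem IsLine.rev (h0 : ∀ e, 0 ≤ ω e) (hγ : IsLine ω γ) : IsLine ω (rev γ) := by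
  refine isLine_of_add (fun i => ?_) (fun i => ?_) fun i j k hij hjk => ?_
  · simpa using (hγ.adj (-(i + 1))).symm
  · have := hγ.T_succ h0 (-(i + 1))
    rw [show -(i + 1) + 1 = -i by ring] at this
    rw [rev_apply, rev_apply, T_comm, this, Sym2.eq_swap]
  · simp only [rev_apply]
    rw [T_comm, hγ.T_add h0 (neg_le_neg hjk) (neg_le_neg hij), T_comm, add_comm, T_comm]

theorem IsLine.sh (hγ : IsLine ω γ) (k : ℤ) : IsLine ω (sh k γ) := by
  intro i j hij
  simpa only [sh_apply, add_assoc] using hγ (k + i) (k + j) (by omega)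

theorem range_rev (γ : ℤ → V) : Set.range (rev γ) = Set.range γ := by
  exact neg_surjective.range_comp γ

theorem range_sh (k : ℤ) (γ : ℤ → V) : Set.range (sh k γ) = Set.range γ := by
  exact (add_left_surjective k).range_comp γ

theorem IsLine.mem_box (hγ : IsLine ω γ) (i j : ℤ) : γ j ∈ box (γ i) (j - i).natAbs := by
  have key : ∀ (i : ℤ) (n : ℕ), γ (i + n) ∈ box (γ i) n := fun i n => by
    simpa using seq_mem_box (f := fun k : ℕ => γ (i + k))
      (fun k => by simpa only [Nat.cast_succ, add_assoc] using adj_mem_box (hγ.adj (i + k))) 0 n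
  rcases le_total i j with h | h
  · have := key i (j - i).natAbs
    rwa [show i + (j - i).natAbs = j by omega] at this
  · have := key j (j - i).natAbs
    rw [show j + (j - i).natAbs = i by omega] at this
    exact box_symm this

theorem IsLine.rayW (hpos : ∀ e, 0 < ω e) (hγ : IsLine ω γ) : RayW (past γ) := by
  refine ⟨fun n => ?_, fun a b e => by simpa using hγ.inj hpos e⟩
  simpa using (hγ.adj (-(n + 1))).symm

theorem IsLine.isRay_fut (hγ : IsLine ω γ) (i : ℤ) : IsRay ω (fun n : ℕ => γ (i + n)) := by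
  intro a b hab
  simpa only [Nat.cast_succ, add_assoc] using hγ (i + a) (i + b) (by omega)

theorem IsLine.isRay_past (h0 : ∀ e, 0 ≤ ω e) (hγ : IsLine ω γ) (i : ℤ) :
    IsRay ω (fun n : ℕ => γ (i - n)) := by
  simpa only [rev_apply, neg_add, neg_neg, sub_eq_add_neg] using (hγ.rev h0).isRay_fut (-i)

/-- the segment of a line as a geodesic path. -/
theorem IsLine.seg (hpos : ∀ e, 0 < ω e) (hγ : IsLine ω γ) {i j : ℤ} (hij : i ≤ j) :
    ∃ p : grid.Walk (γ i) (γ j), p.IsPath ∧ cost ω p = T ω (γ i) (γ j) ∧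
      (p.length : ℤ) = j - i ∧ (∀ z, z ∈ p.support ↔ ∃ k, i ≤ k ∧ k ≤ j ∧ γ k = z) ∧
      (∀ e, e ∈ p.edges ↔ ∃ k, i ≤ k ∧ k < j ∧ e = s(γ k, γ (k + 1))) := by
  have h0 := fun e => (hpos e).le
  obtain ⟨n, rfl⟩ := Int.le.dest hij
  obtain ⟨p, h1, h2, h3⟩ := seqWalk (fun k : ℕ => γ (i + k)) n fun k _ => by
    simpa only [Nat.cast_succ, add_assoc] using hγ.adj (i + k)
  have key : ∀ n : ℕ, (((List.range n).map fun k : ℕ => s(γ (i + k), γ (i + (k + 1 : ℕ)))).map
      ω).sum = T ω (γ i) (γ (i + n)) := fun n => by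
    induction n with
    | zero => simp [T_self h0]
    | succ n ih =>
      rw [List.range_succ, List.map_append, List.map_append, List.sum_append, ih, Nat.cast_succ,
        hγ.T_add h0 (j := i + n) (k := i + (n + 1)) (by omega) (by omega), ← add_assoc,
        hγ.T_succ h0]
      simp [add_assoc]
  have h4 : cost ω (p.copy (by simp) rfl : grid.Walk (γ i) (γ (i + n))) =
      T ω (γ i) (γ (i + n)) := by
    rw [cost_copy, cost, h3, key]
  refine ⟨_, isPath_of_geo hpos _ h4, h4, by simp [h1], fun z => ?_, fun e => ?_⟩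
  · simp only [Walk.support_copy, h2, List.mem_map, List.mem_range]
    constructor
    · rintro ⟨k, hk, rfl⟩
      exact ⟨i + k, by omega, by omega, rfl⟩
    · rintro ⟨k, hk, hk', rfl⟩
      obtain ⟨m, rfl⟩ := Int.le.dest hk
      exact ⟨m, by omega, rfl⟩
  · simp only [Walk.edges_copy, h3, List.mem_map, List.mem_range, Nat.cast_succ, ← add_assoc]
    constructor
    · rintro ⟨k, hk, rfl⟩
      exact ⟨i + k, by omega, by omega, rfl⟩
    · rintro ⟨k, hk, hk', rfl⟩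
      obtain ⟨m, rfl⟩ := Int.le.dest hk
      exact ⟨m, by omega, rfl⟩

theorem IsLine.T_far (hR : Reg h ω) (hγ : IsLine ω γ) (v : V) (c : ℝ) :
    ∃ n0 : ℕ, ∀ i : ℤ, (n0 : ℤ) ≤ |i| → c ≤ T ω v (γ i) := by
  obtain ⟨n0, h1⟩ := escape_int (hγ.inj hR.pos) (hR.proper v c)
  exact ⟨n0, fun i hi => (not_le.1 (h1 i hi)).le⟩

theorem line_ray_add (h0 : ∀ e, 0 ≤ ω e) {α : ℕ → V} (hα : IsRay ω α) {a b c : ℕ} (hab : a ≤ b)
    (hbc : b ≤ c) : T ω (α a) (α c) = T ω (α a) (α b) + T ω (α b) (α c) := by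
  induction hab using Nat.decreasingInduction with
  | self => rw [T_self h0, zero_add]
  | of_succ a h ih => rw [(hα a c (by omega)).2, (hα a b h).2, ih, add_assoc]

/-- two rays from the same point whose concatenation is additive form a line. -/
theorem concat_line (h0 : ∀ e, 0 ≤ ω e) {α β : ℕ → V} (hα : IsRay ω α) (hβ : IsRay ω β)
    (h00 : α 0 = β 0)
    (hT : ∀ a b, T ω (α a) (β b) = T ω (α a) (α 0) + T ω (β 0) (β b)) :
    ∃ κ : ℤ → V, IsLine ω κ ∧ (∀ n : ℕ, κ (-(n : ℤ)) = α n) ∧ ∀ n : ℕ, κ n = β n := by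
  obtain ⟨κ, h1, h2⟩ : ∃ κ : ℤ → V, (∀ n : ℕ, κ (-(n : ℤ)) = α n) ∧ ∀ n : ℕ, κ n = β n := by
    refine ⟨fun i => if 0 ≤ i then β i.toNat else α (-i).toNat, fun n => ?_, fun n => by simp⟩
    cases n with
    | zero => simp [h00]
    | succ n => exact (if_neg (by omega)).trans (by rw [neg_neg, Int.toNat_natCast])
  obtain ⟨φ, h3, h4⟩ : ∃ φ : ℤ → ℝ, (∀ n : ℕ, φ (-(n : ℤ)) = -T ω (α 0) (α n)) ∧
      ∀ n : ℕ, φ n = T ω (β 0) (β n) := by
    refine ⟨fun i => if 0 ≤ i then T ω (β 0) (β i.toNat) else -T ω (α 0) (α (-i).toNat),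
      fun n => ?_, fun n => by simp⟩
    cases n with
    | zero => simp [T_self h0]
    | succ n => exact (if_neg (by omega)).trans (by rw [neg_neg, Int.toNat_natCast])
  have hneg : ∀ i : ℤ, i ≤ 0 → ∃ n : ℕ, i = -(n : ℤ) := fun i hi => ⟨(-i).toNat, by omega⟩
  have key : ∀ i j, i ≤ j → T ω (κ i) (κ j) = φ j - φ i := fun i j hij => by
    rcases le_total 0 i with hi | hi
    · lift i to ℕ using hi
      lift j to ℕ using by omega
      rw [h2, h2, h4, h4, line_ray_add h0 hβ (Nat.zero_le i) (by omega : i ≤ j)]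
      ring
    · obtain ⟨a, rfl⟩ := hneg i hi
      rcases le_total 0 j with hj | hj
      · lift j to ℕ using hj
        rw [h1, h2, h3, h4, hT, T_comm]
        ring
      · obtain ⟨b, rfl⟩ := hneg j hj
        rw [h1, h1, h3, h3, line_ray_add h0 hα (Nat.zero_le b) (by omega : b ≤ a), T_comm]
        ring
  have hs : ∀ i, grid.Adj (κ i) (κ (i + 1)) ∧ T ω (κ i) (κ (i + 1)) = ω s(κ i, κ (i + 1)) :=
    fun i => by
      rcases le_or_gt 0 i with hi | hi
      · lift i to ℕ using hi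
        have := hβ i (i + 1) (by omega)
        rw [← Nat.cast_succ, h2, h2]
        exact ⟨this.1, by rw [this.2, T_self h0, add_zero]⟩
      · obtain ⟨a, ha⟩ := hneg (i + 1) (by omega)
        have := hα a (a + 1) (by omega)
        rw [ha, show i = -((a + 1 : ℕ) : ℤ) by omega, h1, h1]
        exact ⟨this.1.symm, by rw [T_comm, this.2, T_self h0, add_zero, Sym2.eq_swap]⟩
  refine ⟨κ, isLine_of_add (fun i => (hs i).1) (fun i => (hs i).2) fun i j k hij hjk => ?_, h1, h2⟩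
  rw [key i j hij, key j k hjk, key i k (hij.trans hjk)]
  ring

theorem Det.rev {r : ℕ} {w : ℝ} (hD : Det ω γ r w) : Det ω (rev γ) r w := by
  intro i j x y p hi hj hx hy hp
  have := hD (-j) (-i) y x p.reverse (by omega) (by omega) hy hx (by simpa using hp)
  rwa [cost_reverse, T_comm] at this

theorem Det.mono {r r' : ℕ} {w w' : ℝ} (hD : Det ω γ r w) (hr : r ≤ r') (hw : w' ≤ w) :
    Det ω γ r' w' := by
  intro i j x y p hi hj hx hy hp
  have := hD i j x y p hi hj hx hy fun z hz hb => hp z hz (box_mono hb hr)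
  linarith

theorem IsLine.frame_hit (hpos : ∀ e, 0 < ω e) (hγ : IsLine ω γ) {v a b : V} {ρ : ℕ}
    {W : grid.Walk a b} (hW : IsFr v ρ W) {i : ℤ} (hi : γ i ∈ box v ρ) :
    (∃ j, i ≤ j ∧ γ j ∈ W.support) ∧ ∃ j, j ≤ i ∧ γ j ∈ W.support := by
  obtain ⟨n0, h1⟩ := escape_int (hγ.inj hpos) (box v (2 * ρ)).finite_toSet
  have ha := le_abs_self i
  have hb := neg_abs_le i
  have hc := abs_nonneg i
  constructor
  · obtain ⟨p, -, -, -, h2, -⟩ := hγ.seg hpos (i := i) (j := |i| + n0) (by omega)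
    obtain ⟨z, h3, h4⟩ := hW.2 _ _ p hi (h1 _ (le_abs.2 (Or.inl (by omega))))
    obtain ⟨k, h5, -, rfl⟩ := (h2 z).1 h3
    exact ⟨k, h5, h4⟩
  · obtain ⟨p, -, -, -, h2, -⟩ := hγ.seg hpos (i := -|i| - n0) (j := i) (by omega)
    obtain ⟨z, h3, h4⟩ := hW.2 _ _ p.reverse hi (h1 _ (le_abs.2 (Or.inr (by omega))))
    obtain ⟨k, -, h5, rfl⟩ := (h2 z).1 (by simpa using h3)
    exact ⟨k, h5, h4⟩

theorem IsLine.frame_T (hpos : ∀ e, 0 < ω e) (hγ : IsLine ω γ) {v a b : V} {ρ : ℕ}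
    {W : grid.Walk a b} (hW : IsFr v ρ W) {i : ℤ} (hi : γ i ∈ box v ρ) :
    (∃ j, i ≤ j ∧ γ j ∈ W.support ∧ T ω (γ i) (γ j) ≤ cost ω W) ∧
      ∃ j, j ≤ i ∧ γ j ∈ W.support ∧ T ω (γ i) (γ j) ≤ cost ω W := by
  have h0 := fun e => (hpos e).le
  obtain ⟨⟨j, h1, h2⟩, k, h3, h4⟩ := hγ.frame_hit hpos hW hi
  have h5 := T_le_of_mem_support h0 W h4 h2
  rw [hγ.T_add h0 h3 h1] at h5
  have h6 := T_nonneg h0 (γ k) (γ i)
  have h7 := T_nonneg h0 (γ i) (γ j)
  exact ⟨⟨j, h1, h2, by linarith⟩, k, h3, h4, by rw [T_comm]; linarith⟩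

/-- a line has few vertices in a box with the Len property. -/
theorem IsLine.cnt_le (hpos : ∀ e, 0 < ω e) (hγ : IsLine ω γ) {v : V} {ρ L : ℕ}
    (hL : Len ω v ρ L) : cnt (box v ρ) (fun z => z ∈ Set.range γ) ≤ L := by
  classical
  obtain ⟨n0, h1⟩ := escape_int (hγ.inj hpos) (box v (2 * ρ)).finite_toSet
  refine le_trans ?_ (hL (γ n0) (γ (-n0)) (h1 _ (by simp)) (h1 _ (by simp)))
  rw [cnt_eq, cnt_eq]
  refine Finset.card_le_card fun z hz => ?_
  rw [Finset.mem_filter] at hz ⊢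
  obtain ⟨h2, k, rfl⟩ := hz
  have h3 := abs_lt.1 (not_le.1 fun h => h1 k h (box_mono h2 (by omega)))
  exact ⟨h2, hγ.T_add (fun e => (hpos e).le) h3.1.le h3.2.le⟩

end Vale.Agent.P158
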