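import Vale.Agent.P158.Low
import Vale.Agent.P158.Same

/-!
TASK LocDet: deterministic part of the locality lemma. e = s(γ i, γ (i+1)), ω' = ω off e, δ = ω e - ω' e ≥ 0.
T_low_seg: if a ≤ i < b then T' (γ a) (γ b) = T - δ (T_sum for both, γ is a line of ω' by IsLine.low; edges of a line are distinct).
det0_low: a walk p from γ a to γ b avoiding γ 0, a < 0 < b. Extend it along γ (IsLine.seg, avoids γ 0 by injectivity) to
a' ≤ min a i, b' ≥ max b (i+1); bypass it; new cost ≥ old cost - δ (cost_low_path or cost_congr) ≥ T + η - δ = T' + η; subtract the extensions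
(T_add for ω'). det_shift: for r ≥ |i| + 1 the walk avoids e (γ i is in the box), and its end points γ a, γ b outside the box have
|a|, |b| > r (IsLine.mem_box), so a ≤ i < b. big_shift via Det.mono. pj_low: Big (x + δ) gives Big (x + g) (Big is antitone in x);
FinL: if not Big y for ω then not Big (y + δ) for ω', take a natural number above. ml_raise: IsLine.raise, cost_mono.
margin_of_low: walks avoiding γ 0 do not use s(γ 0, γ 1). exists_pj: the set of ML lines is finite (else Many), Pj 0 holds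
(1/(n+1) ≤ η), Pj (j g) fails for j g above all bounds; Nat.find. piv_cnt: if Many, every pivotal e is used by one of the M+1 lines;
otherwise the set of ML lines has at most M elements; a line uses at most L edges of ebox (s(γ i, γ (i+1)) is the image of the vertex γ i;
IsLine.cnt_le). hi_cnt: the segment 0..ρ is a path in box 0 ρ with at least ρ/2 high edges.
-/

namespace Vale.Agent.P158

variable {h : ℝ} {ω ω' : Om} {γ : ℤ → V}

theorem locdet_edge_inj (hinj : Function.Injective γ) {k i : ℤ}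
    (he : s(γ k, γ (k + 1)) = s(γ i, γ (i + 1))) : k = i := by
  rcases Sym2.eq_iff.1 he with ⟨h1, _⟩ | ⟨h1, h2⟩
  · exact hinj h1
  · have := hinj h1
    have := hinj h2
    omega

theorem locdet_le {e : E} (hω' : ∀ e', e' ≠ e → ω' e' = ω e') (hle : ω' e ≤ ω e) :
    ∀ e', ω' e' ≤ ω e' := by
  intro e'
  by_cases he : e' = e
  · rw [he]; exact hle
  · exact (hω' e' he).le

theorem locdet_line (hpos : ∀ e, 0 < ω e) (h0 : ∀ e, 0 ≤ ω' e) (hγ : IsLine ω γ) {i : ℤ}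
    (hω' : ∀ e, e ≠ s(γ i, γ (i + 1)) → ω' e = ω e)
    (hle : ω' s(γ i, γ (i + 1)) ≤ ω s(γ i, γ (i + 1))) : IsLine ω' γ := by
  refine IsLine.low (S := {s(γ i, γ (i + 1))}) hpos h0 (locdet_le hω' hle) ?_ hγ ?_
  · intro e he
    exact hω' e (by simpa using he)
  · intro e he
    exact ⟨i, by simpa using he⟩

theorem locdet_cost_path {e : E} (hω' : ∀ e', e' ≠ e → ω' e' = ω e') (hle : ω' e ≤ ω e)
    {x y : V} (p : grid.Walk x y) (hp : p.IsPath) :
    cost ω p - (ω e - ω' e) ≤ cost ω' p := by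
  by_cases he : e ∈ p.edges
  · have h1 := cost_low_path (ω := ω) (ω' := ω') (S := {e})
      (fun e' he' => hω' e' (by simpa using he')) p hp (fun e' he' => by
        have : e' = e := by simpa using he'
        rw [this]; exact he)
    rw [h1, Finset.sum_singleton]
  · have h1 : cost ω' p = cost ω p :=
      cost_congr p fun e' he' => hω' e' (fun hc => he (hc ▸ he'))
    linarith

theorem locdet_cost_avoid {a b : V} (hω' : ∀ e', e' ≠ s(a, b) → ω' e' = ω e')
    {x y : V} (p : grid.Walk x y) (ha : a ∉ p.support) : cost ω' p = cost ω p := by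
  refine cost_congr p fun e' he' => hω' e' fun hc => ha ?_
  rw [hc] at he'
  exact p.fst_mem_support_of_mem_edges he'

theorem locdet_big_anti {x y : ℝ} (hB : Big ω γ x) (hyx : y ≤ x) : Big ω γ y := by
  obtain ⟨r, n, hD⟩ := hB
  exact ⟨r, n, hD.mono le_rfl (by linarith)⟩

theorem locdet_finite {η : ℝ} {M : ℕ} (hM : ¬ Many ω η M) :
    {γ : ℤ → V | ML ω η γ}.Finite ∧ {γ : ℤ → V | ML ω η γ}.ncard ≤ M := by
  have key : ∀ t : Finset (ℤ → V), (∀ γ ∈ t, ML ω η γ) → t.card ≤ M := by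
    intro t ht
    by_contra hc
    obtain ⟨u, hu, hcard⟩ := Finset.exists_subset_card_eq (s := t) (n := M + 1) (by omega)
    apply hM
    let φ : Fin (M + 1) ≃ u := (Finset.equivFinOfCardEq hcard).symm
    refine ⟨fun i => (φ i : ℤ → V), ?_, fun i => ht _ (hu (φ i).2)⟩
    intro i j hij
    exact φ.injective (Subtype.ext hij)
  have hfin : {γ : ℤ → V | ML ω η γ}.Finite := by
    by_contra hinf
    obtain ⟨t, ht, hcard⟩ := Set.Infinite.exists_subset_card_eq hinf (M + 1)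
    have := key t fun γ hγ => ht hγ
    omega
  refine ⟨hfin, ?_⟩
  rw [Set.ncard_eq_toFinset_card _ hfin]
  exact key _ fun γ hγ => by simpa using hγ

theorem locdet_uses_cnt (hpos : ∀ e, 0 < ω e) (hγ : IsLine ω γ) {ρ L : ℕ} (hL : Len ω 0 ρ L) :
    cnt (ebox 0 ρ) (Uses γ) ≤ L := by
  classical
  refine le_trans ?_ (hγ.cnt_le hpos hL)
  rw [cnt_eq, cnt_eq]
  have hinj := hγ.inj hpos
  refine Finset.card_le_card_of_surjOn (fun z => s(z, γ (Function.invFun γ z + 1))) ?_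
  intro e he
  simp only [Finset.coe_filter, Set.mem_ofPred_eq] at he
  obtain ⟨he1, i, rfl⟩ := he
  refine ⟨γ i, ?_, ?_⟩
  · simp only [Finset.coe_filter, Set.mem_ofPred_eq]
    exact ⟨(mk_mem_ebox.1 he1).1, i, rfl⟩
  · simp only [Function.leftInverse_invFun hinj i]

theorem T_low_seg (hpos : ∀ e, 0 < ω e) (h0 : ∀ e, 0 ≤ ω' e) (hγ : IsLine ω γ) {i : ℤ}
    (hω' : ∀ e, e ≠ s(γ i, γ (i + 1)) → ω' e = ω e)
    (hle : ω' s(γ i, γ (i + 1)) ≤ ω s(γ i, γ (i + 1))) {a b : ℤ} (ha : a ≤ i) (hb : i < b) :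
    T ω' (γ a) (γ b) = T ω (γ a) (γ b) - (ω s(γ i, γ (i + 1)) - ω' s(γ i, γ (i + 1))) := by
  have hγ' := locdet_line hpos h0 hγ hω' hle
  have hinj := hγ.inj hpos
  rw [hγ'.T_sum h0 (by omega : a ≤ b), hγ.T_sum (fun e => (hpos e).le) (by omega : a ≤ b)]
  have hi : i ∈ Finset.Ico a b := Finset.mem_Ico.2 ⟨ha, hb⟩
  rw [← Finset.add_sum_erase _ _ hi, ← Finset.add_sum_erase _ _ hi]
  have : ∑ k ∈ (Finset.Ico a b).erase i, ω' s(γ k, γ (k + 1)) =
      ∑ k ∈ (Finset.Ico a b).erase i, ω s(γ k, γ (k + 1)) := by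
    refine Finset.sum_congr rfl fun k hk => hω' _ fun hc => ?_
    exact (Finset.mem_erase.1 hk).1 (locdet_edge_inj hinj hc)
  rw [this]; ring

theorem det0_low (hpos : ∀ e, 0 < ω e) (hpos' : ∀ e, 0 < ω' e) (hγ : IsLine ω γ) {i : ℤ}
    (hω' : ∀ e, e ≠ s(γ i, γ (i + 1)) → ω' e = ω e)
    (hle : ω' s(γ i, γ (i + 1)) ≤ ω s(γ i, γ (i + 1))) {η : ℝ} (hD : Det ω γ 0 η) :
    Det ω' γ 0 η := by
  classical
  have h0 : ∀ e, 0 ≤ ω' e := fun e => (hpos' e).le
  have hγ' := locdet_line hpos h0 hγ hω' hle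
  have hinj := hγ.inj hpos
  intro a b x y p ha hb hx hy hp
  subst hx hy
  obtain ⟨s1, _, hs1, _, hs1s, _⟩ := hγ'.seg hpos' (min_le_left a i)
  obtain ⟨s2, _, hs2, _, hs2s, _⟩ := hγ'.seg hpos' (le_max_left b (i + 1))
  let q := s1.append (p.append s2)
  have hq : ∀ z ∈ q.bypass.support, z ∉ box (γ 0) 0 := by
    intro z hz
    have hz' := q.support_bypass_subset_support hz
    simp only [q, SimpleGraph.Walk.mem_support_append_iff] at hz'
    rcases hz' with h1 | h1 | h1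
    · obtain ⟨k, _, hk, rfl⟩ := (hs1s z).1 h1
      rw [mem_box_zero]
      intro hc
      have := hinj hc
      omega
    · exact hp z h1
    · obtain ⟨k, hk, _, rfl⟩ := (hs2s z).1 h1
      rw [mem_box_zero]
      intro hc
      have := hinj hc
      omega
  have h1 := hD (min a i) (max b (i + 1)) _ _ q.bypass (by omega) (by omega) rfl rfl hq
  have h2 := locdet_cost_path hω' hle q.bypass q.bypass_isPath
  have h3 := cost_bypass_le h0 q
  have h4 : cost ω' q = cost ω' s1 + (cost ω' p + cost ω' s2) := by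
    simp only [q, cost_append]
  have h5 := T_low_seg hpos h0 hγ hω' hle (min_le_right a i) (b := max b (i + 1)) (by omega)
  have h6 := hγ'.T_add h0 (min_le_left a i) (k := max b (i + 1)) (by omega)
  have h7 := hγ'.T_add h0 (i := a) (j := b) (k := max b (i + 1)) (by omega) (le_max_left _ _)
  linarith

theorem det_shift (hpos : ∀ e, 0 < ω e) (h0 : ∀ e, 0 ≤ ω' e) (hγ : IsLine ω γ) {i : ℤ}
    (hω' : ∀ e, e ≠ s(γ i, γ (i + 1)) → ω' e = ω e)
    (hle : ω' s(γ i, γ (i + 1)) ≤ ω s(γ i, γ (i + 1))) {r : ℕ} (hr : |i| + 1 ≤ r) (w : ℝ) :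
    Det ω γ r w ↔ Det ω' γ r (w + (ω s(γ i, γ (i + 1)) - ω' s(γ i, γ (i + 1)))) := by
  have habs : |i| = i.natAbs := (Int.natCast_natAbs i).symm
  have key : ∀ (a b : ℤ) (p : grid.Walk (γ a) (γ b)), a < 0 → 0 < b →
      (∀ z ∈ p.support, z ∉ box (γ 0) r) → cost ω' p = cost ω p ∧
      T ω' (γ a) (γ b) = T ω (γ a) (γ b) - (ω s(γ i, γ (i + 1)) - ω' s(γ i, γ (i + 1))) := by
    intro a b p ha hb hp
    have hout : ∀ k, γ k ∈ p.support → r < k.natAbs := by
      intro k hk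
      by_contra hc
      have h1 := hγ.mem_box 0 k
      exact hp _ hk (box_mono h1 (by omega))
    refine ⟨locdet_cost_avoid hω' p fun hc => ?_, T_low_seg hpos h0 hγ hω' hle ?_ ?_⟩
    · have := hout i hc
      omega
    · have := hout a p.start_mem_support
      omega
    · have := hout b p.end_mem_support
      omega
  constructor
  · intro hD a b x y p ha hb hx hy hp
    subst hx hy
    obtain ⟨h1, h2⟩ := key a b p ha hb hp
    have := hD a b _ _ p ha hb rfl rfl hp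
    linarith
  · intro hD a b x y p ha hb hx hy hp
    subst hx hy
    obtain ⟨h1, h2⟩ := key a b p ha hb hp
    have := hD a b _ _ p ha hb rfl rfl hp
    linarith

theorem pj_low (hpos : ∀ e, 0 < ω e) (hpos' : ∀ e, 0 < ω' e) {η x g : ℝ} (hg : 0 ≤ g)
    (hγ : ML ω η γ) (hF : FinL ω γ) (hB : Big ω γ x) {e : E} (hu : Uses γ e)
    (hω' : ∀ e', e' ≠ e → ω' e' = ω e') (hle : ω' e ≤ ω e - g) :
    ML ω' η γ ∧ Pj ω' η (x + g) := by
  obtain ⟨i, rfl⟩ := hu
  have h0 : ∀ e, 0 ≤ ω' e := fun e => (hpos' e).le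
  have hle' : ω' s(γ i, γ (i + 1)) ≤ ω s(γ i, γ (i + 1)) := by linarith
  have hML : ML ω' η γ :=
    ⟨locdet_line hpos h0 hγ.1 hω' hle', hγ.2.1, det0_low hpos hpos' hγ.1 hω' hle' hγ.2.2⟩
  have habs : |i| = i.natAbs := (Int.natCast_natAbs i).symm
  refine ⟨hML, γ, hML, ?_, ?_⟩
  · obtain ⟨y, hy⟩ := hF
    refine ⟨⌈(y : ℝ) + (ω s(γ i, γ (i + 1)) - ω' s(γ i, γ (i + 1)))⌉₊, fun hc => hy ?_⟩
    obtain ⟨r, n, hD⟩ := hc
    refine ⟨max r (i.natAbs + 1), n, ?_⟩
    rw [det_shift hpos h0 hγ.1 hω' hle' (by omega)]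
    refine hD.mono (le_max_left _ _) ?_
    have := Nat.le_ceil ((y : ℝ) + (ω s(γ i, γ (i + 1)) - ω' s(γ i, γ (i + 1))))
    linarith
  · obtain ⟨r, n, hD⟩ := hB
    refine ⟨max r (i.natAbs + 1), n, ?_⟩
    have h1 := (det_shift hpos h0 hγ.1 hω' hle' (r := max r (i.natAbs + 1)) (by omega) _).1
      (hD.mono (le_max_left _ _) le_rfl)
    exact h1.mono le_rfl (by linarith)

theorem ml_raise (h0 : ∀ e, 0 ≤ ω' e) (hle : ∀ e, ω' e ≤ ω e) {e : E}
    (hω' : ∀ e', e' ≠ e → ω' e' = ω e') {η : ℝ} (hγ : ML ω' η γ) (hu : ¬ Uses γ e) :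
    ML ω η γ := by
  obtain ⟨h1, h2⟩ := IsLine.raise h0 hle hγ.1 fun e' he' => hω' e' fun hc => hu (hc ▸ he')
  refine ⟨h1, hγ.2.1, ?_⟩
  intro a b x y p ha hb hx hy hp
  subst hx hy
  have h3 := hγ.2.2 a b _ _ p ha hb rfl rfl hp
  have h4 := cost_mono (ω := ω') (ω' := ω) p fun e' _ => hle e'
  rw [h2]
  linarith

theorem margin_of_low (hpos : ∀ e, 0 < ω e) (h0 : ∀ e, 0 ≤ ω' e) (hγ : IsLine ω γ)
    (hω' : ∀ e, e ≠ s(γ 0, γ 1) → ω' e = ω e) (hle : ω' s(γ 0, γ 1) ≤ ω s(γ 0, γ 1)) :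
    IsLine ω' γ ∧ Det ω' γ 0 (ω s(γ 0, γ 1) - ω' s(γ 0, γ 1)) := by
  have hω'' : ∀ e, e ≠ s(γ 0, γ (0 + 1)) → ω' e = ω e := by simpa using hω'
  have hle' : ω' s(γ 0, γ (0 + 1)) ≤ ω s(γ 0, γ (0 + 1)) := by simpa using hle
  refine ⟨locdet_line hpos h0 hγ hω'' hle', ?_⟩
  intro a b x y p ha hb hx hy hp
  subst hx hy
  have h1 := locdet_cost_avoid hω' p fun hc => hp _ hc (self_mem_box _ _)
  have h2 := T_low_seg hpos h0 hγ hω'' hle' ha.le hb
  have h3 := T_le_cost (fun e => (hpos e).le) p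
  rw [zero_add] at h2
  linarith

theorem exists_pj {η g : ℝ} (hη : 0 < η) (hg : 0 < g) {M : ℕ} (hM : ¬ Many ω η M)
    (hγ : ML ω η γ) (hF : FinL ω γ) :
    ∃ j : ℕ, Pj ω η (j * g) ∧ ¬ Pj ω η (j * g + g) := by
  classical
  have hfin := (locdet_finite hM).1
  have h0 : Pj ω η ((0 : ℕ) * g) := by
    obtain ⟨n, hn⟩ := exists_nat_one_div_lt hη
    refine ⟨γ, hγ, hF, 0, n, hγ.2.2.mono le_rfl ?_⟩
    simp only [Nat.cast_zero, zero_mul, zero_add]
    exact hn.le
  have hex : ∃ j : ℕ, ¬ Pj ω η (j * g) := by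
    let Y : (ℤ → V) → ℕ := fun γ' => if hf : FinL ω γ' then hf.choose else 0
    obtain ⟨B, hB⟩ := (hfin.image Y).bddAbove
    obtain ⟨j, hj⟩ := exists_nat_ge ((B : ℝ) / g)
    refine ⟨j, ?_⟩
    rintro ⟨γ', h1, h2, h3⟩
    have h4 : Y γ' ≤ B := hB ⟨γ', h1, rfl⟩
    have h5 : Y γ' = h2.choose := dif_pos h2
    apply h2.choose_spec
    refine locdet_big_anti h3 ?_
    rw [← h5]
    have h6 : (Y γ' : ℝ) ≤ B := by exact_mod_cast h4
    rw [div_le_iff₀ hg] at hj
    linarith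
  have hpos : Nat.find hex ≠ 0 := fun hc => Nat.find_spec hex (hc ▸ h0)
  obtain ⟨j, hj⟩ := Nat.exists_eq_succ_of_ne_zero hpos
  refine ⟨j, ?_, ?_⟩
  · by_contra hc
    exact Nat.find_min hex (by omega : j < Nat.find hex) hc
  · have h1 := Nat.find_spec hex
    rw [hj] at h1
    have h2 : ((j.succ : ℕ) : ℝ) * g = j * g + g := by push_cast; ring
    rwa [h2] at h1

theorem piv_cnt (hpos : ∀ e, 0 < ω e) {ρ L : ℕ} (hL : Len ω 0 ρ L) (η : ℝ) (M : ℕ) :
    cnt (ebox 0 ρ) (Piv ω η M) ≤ (M + 1) * L := by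
  classical
  have key : ∃ F : Finset (ℤ → V), F.card ≤ M + 1 ∧ (∀ γ ∈ F, IsLine ω γ) ∧
      ∀ e, Piv ω η M e → ∃ γ ∈ F, Uses γ e := by
    by_cases hM : Many ω η M
    · obtain ⟨f, hf, hf2⟩ := hM
      refine ⟨Finset.univ.image f, ?_, ?_, ?_⟩
      · exact Finset.card_image_le.trans (by simp)
      · intro γ hγ
        obtain ⟨i, _, rfl⟩ := Finset.mem_image.1 hγ
        exact (hf2 i).1
      · intro e he
        by_contra hc
        refine he.2 ⟨f, hf, fun i => ⟨hf2 i, fun hu => hc ⟨f i, ?_, hu⟩⟩⟩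
        exact Finset.mem_image_of_mem _ (Finset.mem_univ _)
    · obtain ⟨hfin, hcard⟩ := locdet_finite hM
      refine ⟨hfin.toFinset, ?_, ?_, ?_⟩
      · rw [Set.ncard_eq_toFinset_card _ hfin] at hcard
        omega
      · intro γ hγ
        have : ML ω η γ := by simpa using hγ
        exact this.1
      · intro e he
        obtain ⟨γ, h1, h2⟩ := he.1
        exact ⟨γ, by simpa using h1, h2⟩
  obtain ⟨F, hF1, hF2, hF3⟩ := key
  rw [cnt_eq]
  have hsub : (ebox 0 ρ).filter (Piv ω η M) ⊆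
      F.biUnion fun γ => (ebox 0 ρ).filter (Uses γ) := by
    intro e he
    obtain ⟨h1, h2⟩ := Finset.mem_filter.1 he
    obtain ⟨γ, h3, h4⟩ := hF3 e h2
    exact Finset.mem_biUnion.2 ⟨γ, h3, Finset.mem_filter.2 ⟨h1, h4⟩⟩
  refine (Finset.card_le_card hsub).trans (Finset.card_biUnion_le.trans ?_)
  calc ∑ γ ∈ F, ((ebox 0 ρ).filter (Uses γ)).card ≤ ∑ _γ ∈ F, L := by
        refine Finset.sum_le_sum fun γ hγ => ?_
        rw [← cnt_eq]
        exact locdet_uses_cnt hpos (hF2 γ hγ) hL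
    _ = F.card * L := by simp
    _ ≤ (M + 1) * L := Nat.mul_le_mul_right _ hF1

theorem hi_cnt (hpos : ∀ e, 0 < ω e) (hγ : IsLine ω γ) (h0 : γ 0 = 0) {ρ : ℕ}
    (hP : Pei ω h 0 ρ) : ρ ≤ 2 * cnt (ebox 0 ρ) (fun e => Uses γ e ∧ h < ω e) := by
  classical
  obtain ⟨p, hp, _, hlen, _, hed⟩ := hγ.seg hpos (i := 0) (j := ρ) (by omega)
  have hP' : Pei ω h (γ 0) ρ := by rw [h0]; exact hP
  have h1 := hP' _ p hp (by omega)
  have h2 : hi ω h p ≤ cnt (ebox 0 ρ) (fun e => Uses γ e ∧ h < ω e) := by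
    unfold hi
    rw [cnt_eq, List.countP_eq_length_filter,
      ← List.toFinset_card_of_nodup (hp.isTrail.edges_nodup.filter _)]
    refine Finset.card_le_card fun e he => ?_
    rw [List.mem_toFinset, List.mem_filter] at he
    obtain ⟨k, hk0, hk1, rfl⟩ := (hed e).1 he.1
    refine Finset.mem_filter.2 ⟨mk_mem_ebox.2 ⟨?_, ?_⟩, ⟨k, rfl⟩, by simpa using he.2⟩
    · have := hγ.mem_box 0 k
      rw [h0] at this
      exact box_mono this (by omega)
    · have := hγ.mem_box 0 (k + 1)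
      rw [h0] at this
      exact box_mono this (by omega)
  omega

end Vale.Agent.P158
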