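import Vale.Agent.P158.LocDet
import Vale.Agent.P158.LenL
import Vale.Agent.P158.Count
import Vale.Agent.P158.Approx
import Vale.Agent.P158.Meas2

/-!
TASK LocProb: the locality lemma: finite detour costs do not occur.
loc_null: A = {Pj x, not Pj (x+g), not Many M}, null measurable; suppose q = μ A > 0. C from fr_prob (K = 1), CL with 3 C < (h/4) CL, CL ≥ 1;
s0 = G (Ioo 0 (h-g)); ε' < q/4 and (M+1) CL ε' / s0 < q / 8. approx_local gives S, A'. Choose ρ ≥ 4 card S + 4 with the frame at 0 and Pei on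
box 0 ρ failing with probability ≤ q/8 each. A0 = A ∩ A' ∩ Reg ∩ Fr ∩ Pei has μ ≥ q/2. For e in ebox 0 ρ \ S let
Ee e = {ω in A0 : e high and used by some γ with ML, FinL, Big x}, Be e = (A' \ A) ∩ {Piv e} ∩ {Len ω 0 ρ (CL ρ)}.
count_lower and hi_cnt: (ρ/2 - card S) μ A0 ≤ sum μ (Ee e). fe_le with S = {e} and target Be e ∪ {not Reg}: pj_low (so ω' is not in A,
ω' in A' as e is not in S), ml_raise and not Many for Piv, Fr.mono, Pei.peiT_update and len_of for Len. count_in with piv_cnt: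
sum μ (Be e) ≤ (M+1) CL ρ ε'. So (ρ/4)(q/2) ≤ (M+1) CL ρ ε' / s0, contradiction.
locality: countably many (j, M), exists_pj.
-/

namespace Vale.Agent.P158

open MeasureTheory

variable {G : Measure ℝ} [IsProbabilityMeasure G] {h g : ℝ}

theorem locprob_cnt_mono {α : Type*} {s t : Finset α} {P Q : α → Prop} (hst : s ⊆ t)
    (hPQ : ∀ a ∈ s, P a → Q a) : cnt s P ≤ cnt t Q := by
  classical
  rw [cnt_eq, cnt_eq]
  refine Finset.card_le_card fun a ha => ?_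
  obtain ⟨h1, h2⟩ := Finset.mem_filter.1 ha
  exact Finset.mem_filter.2 ⟨hst h1, hPQ a h1 h2⟩

theorem locprob_cnt_sdiff {α : Type*} [DecidableEq α] {s S : Finset α} {P Q : α → Prop}
    (hPQ : ∀ a, P a → Q a) : cnt s P ≤ cnt (s \ S) Q + S.card := by
  classical
  rw [cnt_eq, cnt_eq]
  refine le_trans (Finset.card_le_card ?_) (Finset.card_union_le _ _)
  intro a ha
  obtain ⟨h1, h2⟩ := Finset.mem_filter.1 ha
  by_cases hS : a ∈ S
  · exact Finset.mem_union_right _ hS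
  · exact Finset.mem_union_left _
      (Finset.mem_filter.2 ⟨Finset.mem_sdiff.2 ⟨h1, hS⟩, hPQ a h2⟩)

omit [IsProbabilityMeasure G] in
/-- the modification step. -/
theorem locprob_mod (hp : Par G h g) {η x C : ℝ} {M ρ CL : ℕ} (hρ : 4 ≤ ρ) (hCL : 1 ≤ CL)
    (hC : 3 * C < h / 4 * CL) {ω ω' : Om} {e : E} (hR : Reg h ω) (hR' : Reg h ω')
    (hM : ¬ Many ω η M) (hF : Fr ω 0 ρ (C * ρ)) (hP : ∀ z ∈ box 0 ρ, Pei ω h z ρ)
    (hhi : h < ω e) {γ : ℤ → V} (h1 : ML ω η γ) (h2 : FinL ω γ) (h3 : Big ω γ x) (h4 : Uses γ e)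
    (hω' : ∀ e', e' ≠ e → ω' e' = ω e') (hlow : ω' e < h - g) :
    Pj ω' η (x + g) ∧ Piv ω' η M e ∧ Len ω' 0 ρ (CL * ρ) := by
  have hg := hp.g_pos
  have hle : ∀ e', ω' e' ≤ ω e' := locdet_le hω' (by linarith)
  obtain ⟨a1, a2⟩ := pj_low hR.pos hR'.pos hg.le h1 h2 h3 h4 hω' (by linarith)
  refine ⟨a2, ⟨⟨γ, a1, h4⟩, ?_⟩, ?_⟩
  · rintro ⟨f, hf, hf2⟩
    exact hM ⟨f, hf, fun i => ml_raise hR'.nn hle hω' (hf2 i).1 (hf2 i).2⟩
  · have hh := hp.h_pos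
    have hρ' : (0 : ℝ) < ρ := by exact_mod_cast (by omega : 0 < ρ)
    refine len_of hR' (hF.mono hle le_rfl) (a := h / 4) (by positivity)
      (fun z hz => Pei.peiT_update hR'.nn hh.le e hω' hρ (hP z hz)) (by nlinarith) ?_
    push_cast
    nlinarith

theorem locprob_fe (hp : Par G h g) (e : E) (A B : Set Om)
    (hAB : ∀ ω ∈ A, ∀ ω' : Om, Reg h ω' → (∀ e', e' ≠ e → ω' e' = ω e') → ω' e < h - g →
      ω' ∈ B) : G.real (Set.Ioo 0 (h - g)) * (mu G).real A ≤ (mu G).real B := by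
  have h1 := fe_le G {e} (measurableSet_Ioo (a := 0) (b := h - g)) A (B ∪ {ω | ¬ Reg h ω}) (by
    intro ω hω ω' a1 a2
    by_cases hR : Reg h ω'
    · exact Or.inl (hAB ω hω ω' hR (fun e' he' => a1 e' (by simpa using he'))
        (a2 e (by simp)).2)
    · exact Or.inr hR)
  have h2 : mu G {ω | ¬ Reg h ω} = 0 := ae_iff.1 (reg_ae hp)
  have h3 : mu G (B ∪ {ω | ¬ Reg h ω}) ≤ mu G B := by
    refine (measure_union_le _ _).trans ?_
    rw [h2, add_zero]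
  rw [Finset.card_singleton, pow_one] at h1
  have h4 := ENNReal.toReal_mono (measure_ne_top _ _) (h1.trans h3)
  rwa [ENNReal.toReal_mul] at h4

theorem locprob_arith {q s0 ρ m ε' a0 s1 s2 b : ℝ} (hq : 0 < q) (hs0 : 0 < s0) (hρ : 0 < ρ)
    (hm : 0 < m) (hε : ε' ≤ q * s0 / (16 * m)) (ha0 : q / 2 ≤ a0) (h1 : ρ / 4 * a0 ≤ s1)
    (h2 : s0 * s1 ≤ s2) (h3 : s2 ≤ m * ρ * b) (hb : b ≤ ε') : False := by
  have c1 : ρ / 4 * (q / 2) ≤ s1 := le_trans (by gcongr) h1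
  have c2 : s0 * (ρ / 4 * (q / 2)) ≤ s2 := le_trans (by gcongr) h2
  have c3 : m * ρ * b ≤ m * ρ * (q * s0 / (16 * m)) := by
    have := hb.trans hε
    gcongr
  have c4 : m * ρ * (q * s0 / (16 * m)) = ρ * q * s0 / 16 := by field_simp
  have c5 : 0 < ρ * q * s0 := by positivity
  nlinarith

theorem loc_null (hp : Par G h g) (η x : ℝ) (M : ℕ) :
    mu G {ω | Pj ω η x ∧ ¬ Pj ω η (x + g) ∧ ¬ Many ω η M} = 0 := by
  classical
  set A : Set Om := {ω | Pj ω η x ∧ ¬ Pj ω η (x + g) ∧ ¬ Many ω η M} with hA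
  by_contra hne
  have hq : 0 < (mu G).real A := ENNReal.toReal_pos hne (measure_ne_top _ _)
  set q := (mu G).real A with hqdef
  have hAm : NullMeasurableSet A (mu G) :=
    (null_pj G η x).inter ((null_pj G η (x + g)).compl.inter (null_many G η M).compl)
  obtain ⟨C, hC, hfr⟩ := fr_prob hp
  have hh := hp.h_pos
  obtain ⟨C1, hC1⟩ := exists_nat_gt (3 * C / (h / 4))
  rw [div_lt_iff₀ (by positivity)] at hC1
  have hCL : 3 * C < h / 4 * ((C1 + 1 : ℕ) : ℝ) := by push_cast; nlinarith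
  have hs0 : 0 < G.real (Set.Ioo 0 (h - g)) :=
    ENNReal.toReal_pos hp.tgt.ne' (measure_ne_top _ _)
  set s0 := G.real (Set.Ioo 0 (h - g)) with hs0def
  set m : ℝ := (((M + 1) * (C1 + 1) : ℕ) : ℝ) with hmdef
  have hm : 0 < m := by rw [hmdef]; positivity
  obtain ⟨S, A', hA'm, hA'S, hd1, hd2⟩ := approx_local G hAm
    (ε := min (q / 4) (q * s0 / (16 * m))) (by positivity)
  obtain ⟨ρ0, hρ0⟩ := pei_box hp (ε := q / 8) (by positivity)
  obtain ⟨ρ, hρ, hρ2⟩ := hfr 1 le_rfl (q / 8) (by positivity) (ρ0 + 4 * S.card + 4)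
  have f1 := (hρ2 0).1
  have f2 := hρ0 ρ (by omega) 0
  let A0 : Set Om := {ω | ω ∈ A ∧ ω ∈ A' ∧ Reg h ω ∧ Fr ω 0 ρ (C * ρ) ∧
    ∀ z ∈ box 0 ρ, Pei ω h z ρ}
  have hA0 : q / 2 ≤ (mu G).real A0 := by
    have hsub : A ≤ᵐ[mu G] (((A0 ∪ (A \ A')) ∪ {ω | ¬ Fr ω 0 ρ (C * ρ)}) ∪
        {ω | ∃ z ∈ box 0 ρ, ¬ Pei ω h z ρ} : Set Om) := by
      filter_upwards [reg_ae hp] with ω hR hω
      by_cases c1 : ω ∈ A'
      · by_cases c2 : Fr ω 0 ρ (C * ρ)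
        · by_cases c3 : ∀ z ∈ box 0 ρ, Pei ω h z ρ
          · exact Or.inl (Or.inl (Or.inl ⟨hω, c1, hR, c2, c3⟩))
          · right
            by_contra c4
            exact c3 fun z hz => by
              by_contra c5
              exact c4 ⟨z, hz, c5⟩
        · exact Or.inl (Or.inr c2)
      · exact Or.inl (Or.inl (Or.inr ⟨hω, c1⟩))
    have h4 : q ≤ (mu G).real (((A0 ∪ (A \ A')) ∪ {ω | ¬ Fr ω 0 ρ (C * ρ)}) ∪
        {ω | ∃ z ∈ box 0 ρ, ¬ Pei ω h z ρ}) :=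
      ENNReal.toReal_mono (measure_ne_top _ _) (measure_mono_ae hsub)
    have h5 := measureReal_union_le (μ := mu G) ((A0 ∪ (A \ A')) ∪ {ω | ¬ Fr ω 0 ρ (C * ρ)})
        {ω | ∃ z ∈ box 0 ρ, ¬ Pei ω h z ρ}
    have h6 := measureReal_union_le (μ := mu G) (A0 ∪ (A \ A')) {ω | ¬ Fr ω 0 ρ (C * ρ)}
    have h7 := measureReal_union_le (μ := mu G) A0 (A \ A')
    have h8 := min_le_left (q / 4) (q * s0 / (16 * m))
    linarith
  let Ee : E → Set Om := fun e => {ω | ω ∈ A0 ∧ h < ω e ∧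
    ∃ γ, ML ω η γ ∧ FinL ω γ ∧ Big ω γ x ∧ Uses γ e}
  let Be : E → Set Om := fun e => (A' \ A) ∩ ({ω | Piv ω η M e} ∩ {ω | Len ω 0 ρ ((C1 + 1) * ρ)})
  have h1 := count_lower (mu G) (ebox 0 ρ \ S) Ee A0 ((ρ : ℝ) / 4) (by
    refine Filter.Eventually.of_forall fun ω hω => ?_
    obtain ⟨γ, a1, a2, a3⟩ := hω.1.1
    have b1 := hi_cnt hω.2.2.1.pos a1.1 a1.2.1 (hω.2.2.2.2 0 (self_mem_box _ _))
    have b2 := locprob_cnt_sdiff (s := ebox 0 ρ) (S := S) (P := fun e => Uses γ e ∧ h < ω e)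
      (Q := fun e => ω ∈ Ee e) fun e he => ⟨hω, he.2, γ, a1, a2, a3, he.1⟩
    have b3 : ρ ≤ 4 * cnt (ebox 0 ρ \ S) (fun e => ω ∈ Ee e) := by omega
    have b4 : (ρ : ℝ) ≤ 4 * cnt (ebox 0 ρ \ S) (fun e => ω ∈ Ee e) := by exact_mod_cast b3
    linarith)
  have h2 : s0 * ∑ e ∈ ebox 0 ρ \ S, (mu G).real (Ee e) ≤
      ∑ e ∈ ebox 0 ρ \ S, (mu G).real (Be e) := by
    rw [Finset.mul_sum]
    refine Finset.sum_le_sum fun e he => locprob_fe hp e _ _ ?_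
    intro ω hω ω' hR' hω' hlow
    obtain ⟨⟨a1, a2, a3, a4, a5⟩, a6, γ, b1, b2, b3, b4⟩ := hω
    obtain ⟨c1, c2, c3⟩ := locprob_mod hp (by omega) (by omega) hCL a3 hR' a1.2.2 a4 a5 a6
      b1 b2 b3 b4 hω' hlow
    refine ⟨⟨hA'S ω ω' (fun e' he' => (hω' e' fun hc => ?_).symm) a2, fun hc => hc.2.1 c1⟩, c2, c3⟩
    exact (Finset.mem_sdiff.1 he).2 (hc ▸ he')
  have h3 := count_in (mu G) (ebox 0 ρ \ S) Be
    (fun e _ => (hA'm.nullMeasurableSet.diff hAm).inter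
      ((null_piv G η M e).inter (meas_len 0 ρ _).nullMeasurableSet)) (A' \ A) (m * ρ)
    (by positivity) (fun e _ => Set.inter_subset_left) (by
      filter_upwards [pos_ae hp] with ω hpos
      by_cases hL : Len ω 0 ρ ((C1 + 1) * ρ)
      · have b1 := piv_cnt hpos hL η M
        have b2 := locprob_cnt_mono (s := ebox 0 ρ \ S) (t := ebox 0 ρ) (P := fun e => ω ∈ Be e)
          (Q := Piv ω η M) Finset.sdiff_subset fun e _ he => he.2.1
        have b3 : cnt (ebox 0 ρ \ S) (fun e => ω ∈ Be e) ≤ (M + 1) * (C1 + 1) * ρ := by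
          rw [mul_assoc]; omega
        rw [hmdef]
        exact_mod_cast b3
      · have b2 := locprob_cnt_mono (s := ebox 0 ρ \ S) (t := ebox 0 ρ \ S)
          (P := fun e => ω ∈ Be e) (Q := fun _ => False) le_rfl fun e _ he => hL he.2.2
        have b3 : cnt (ebox 0 ρ \ S) (fun _ => False) = 0 := by
          rw [cnt_eq]; simp
        have b4 : cnt (ebox 0 ρ \ S) (fun e => ω ∈ Be e) = 0 := by omega
        rw [b4, Nat.cast_zero]
        positivity)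
  exact locprob_arith hq hs0 (by exact_mod_cast (by omega : 0 < ρ)) hm (min_le_right _ _) hA0
    h1 h2 h3 hd2

theorem locality (hp : Par G h g) {η : ℝ} (hη : 0 < η)
    (hM : ∀ᵐ ω ∂mu G, ∃ M, ¬ Many ω η M) : ∀ᵐ ω ∂mu G, ∀ γ, ML ω η γ → ¬ FinL ω γ := by
  have h1 : ∀ᵐ ω ∂mu G, ∀ j M : ℕ,
      ¬ (Pj ω η (j * g) ∧ ¬ Pj ω η (j * g + g) ∧ ¬ Many ω η M) := by
    rw [ae_all_iff]
    intro j
    rw [ae_all_iff]
    intro M
    exact measure_eq_zero_iff_ae_notMem.1 (loc_null hp η (j * g) M)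
  filter_upwards [h1, hM] with ω a1 a2 γ a3 a4
  obtain ⟨M, a2⟩ := a2
  obtain ⟨j, b1, b2⟩ := exists_pj hη hp.g_pos a2 a3 a4
  exact a1 j M ⟨b1, b2, a2⟩

end Vale.Agent.P158
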