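import Vale.Agent.P158.BudProb
import Vale.Agent.P158.LocProb

/-!
TASK Main: no lines.
many_ae: if Many M for all M the set of ML lines is infinite; the map to ranges has fibres of size ≤ 2 (eq_or_rev), so there are
k lines with pairwise different ranges: Ev ω 0 k η 0 η for every k. budget: μ (Ev k) ≤ C' / (k η) for all k ≥ 1.
no_ml: p = μ {∃ γ, ML}. By locality, a.e. such ω is in the increasing union over r of Ev ω 0 1 η r w (not FinL gives Big y for y ≥ w,
Det.mono); continuity from below and budget give p ≤ C' / w for every w > 0.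
no_line: a.e. for all v and n no ML (1/(n+1)) line in act (tr v) ω (mu_act); fe_ae, acc_ae: lower s(γ 0, γ 1) into
Ioo 0 (ω e) = Ioo (ω e - κ) (ω e) with κ = ω e; margin_of_low, Det.mono, ml_act.
-/

namespace Vale.Agent.P158

open MeasureTheory

variable {G : Measure ℝ} [IsProbabilityMeasure G] {h g : ℝ}

theorem main_null_of_le {A : Set Om} {C : ℝ}
    (hA : ∀ n : ℕ, ((n : ℝ) + 1) * (mu G).real A ≤ C) : mu G A = 0 := by
  have h0 : (mu G).real A = 0 := by
    by_contra hne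
    have hpos : 0 < (mu G).real A := lt_of_le_of_ne measureReal_nonneg (Ne.symm hne)
    obtain ⟨n, hn⟩ := exists_nat_gt (C / (mu G).real A)
    have h1 := hA n
    rw [div_lt_iff₀ hpos] at hn
    nlinarith
  exact (measureReal_eq_zero_iff (measure_ne_top _ _)).1 h0

theorem main_ev {ω : Om} (hG : Good h ω) {η : ℝ} (hM : ∀ M, Many ω η M) (k : ℕ) :
    Ev ω 0 k η 0 η := by
  have hinf : Set.Infinite {γ | ML ω η γ} := by
    intro hfin
    obtain ⟨f, hf, hf'⟩ := hM hfin.toFinset.card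
    have h1 := Finset.card_le_card_of_injOn (s := Finset.univ) (t := hfin.toFinset) f
      (fun i _ => by simpa using hf' i) hf.injOn
    simp at h1
  have hinf2 : Set.Infinite ((fun γ : ℤ → V => Set.range γ) '' {γ | ML ω η γ}) := by
    intro hfin
    refine hinf (Set.Finite.of_finite_fibers _ hfin ?_)
    rintro x ⟨γ, hγ, rfl⟩
    refine (Set.toFinite {γ, rev γ}).subset ?_
    rintro γ' ⟨hγ', hr⟩
    have hr' : Set.range γ' = Set.range γ := hr
    exact eq_or_rev hG.reg hG.noY hγ.1 hγ'.1 (hγ.2.1.trans hγ'.2.1.symm) hr'.symm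
  have hch : ∀ i : ℕ, ∃ γ, ML ω η γ ∧ Set.range γ = (hinf2.natEmbedding _ i : Set V) :=
    fun i => (hinf2.natEmbedding _ i).2
  choose f hf hfr using hch
  refine ⟨fun i => f i, fun i => ⟨(hf i).1, (hf i).2.1, (hf i).2.2, (hf i).2.2⟩, ?_⟩
  intro i j hij heq
  apply hij
  apply Fin.ext
  apply (hinf2.natEmbedding _).injective
  apply Subtype.ext
  rw [← hfr, ← hfr]
  exact heq

theorem many_ae (hp : Par G h g) {η : ℝ} (hη : 0 < η) : ∀ᵐ ω ∂mu G, ∃ M, ¬ Many ω η M := by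
  obtain ⟨C, hC⟩ := budget hp
  have hA : mu G {ω | Good h ω ∧ ∀ M, Many ω η M} = 0 := by
    refine main_null_of_le (C := C / η) fun n => ?_
    have h1 := hC (n + 1) η 0 η hη hη
    have h2 : (mu G).real {ω | Good h ω ∧ ∀ M, Many ω η M} ≤
        (mu G).real {ω | Ev ω 0 (n + 1) η 0 η} :=
      measureReal_mono (fun ω hω => main_ev hω.1 hω.2 (n + 1)) (measure_ne_top _ _)
    rw [le_div_iff₀ hη]
    push_cast at h1
    have h3 : 0 ≤ ((n : ℝ) + 1) * η := by positivity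
    nlinarith [mul_le_mul_of_nonneg_left h2 h3]
  filter_upwards [good_ae hp, measure_eq_zero_iff_ae_notMem.1 hA] with ω h1 h2
  by_contra hc
  push Not at hc
  exact h2 ⟨h1, hc⟩

theorem main_ev_mono {ω : Om} {η w : ℝ} {k r r' : ℕ} (hr : r ≤ r') (hE : Ev ω 0 k η r w) :
    Ev ω 0 k η r' w := by
  obtain ⟨f, hf, hne⟩ := hE
  exact ⟨f, fun i => ⟨(hf i).1, (hf i).2.1, (hf i).2.2.1, (hf i).2.2.2.mono hr le_rfl⟩, hne⟩

theorem no_ml (hp : Par G h g) {η : ℝ} (hη : 0 < η) : ∀ᵐ ω ∂mu G, ¬ ∃ γ, ML ω η γ := by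
  obtain ⟨C, hC⟩ := budget hp
  have hA : mu G {ω | (∃ γ, ML ω η γ) ∧ ∀ γ, ML ω η γ → ¬ FinL ω γ} = 0 := by
    refine main_null_of_le (C := C) fun n => ?_
    have hw : (0 : ℝ) < (n : ℝ) + 1 := by positivity
    have hsub : {ω | (∃ γ, ML ω η γ) ∧ ∀ γ, ML ω η γ → ¬ FinL ω γ} ⊆
        ⋃ r : ℕ, {ω | Ev ω 0 1 η r ((n : ℝ) + 1)} := by
      rintro ω ⟨⟨γ, hγ⟩, hL⟩
      have h1 := hL γ hγ
      unfold FinL at h1
      push Not at h1
      obtain ⟨r, m, hD⟩ := h1 (n + 1)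
      refine Set.mem_iUnion.2 ⟨r, fun _ => γ, fun _ => ⟨hγ.1, hγ.2.1, hγ.2.2, hD.mono le_rfl ?_⟩,
        fun i j hij => absurd (Subsingleton.elim i j) hij⟩
      have : (0 : ℝ) ≤ 1 / ((m : ℝ) + 1) := by positivity
      push_cast
      linarith
    have hmono : Monotone fun r : ℕ => {ω | Ev ω 0 1 η r ((n : ℝ) + 1)} :=
      fun r r' hr ω hω => main_ev_mono hr hω
    have hC0 : 0 ≤ C := by
      have := hC 0 η 0 η hη hη
      simpa using this
    have hle : mu G {ω | (∃ γ, ML ω η γ) ∧ ∀ γ, ML ω η γ → ¬ FinL ω γ} ≤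
        ENNReal.ofReal (C / ((n : ℝ) + 1)) := by
      refine (measure_mono hsub).trans ?_
      rw [hmono.measure_iUnion]
      refine iSup_le fun r => ?_
      have h1 := hC 1 η r ((n : ℝ) + 1) hη hw
      rw [← ofReal_measureReal (measure_ne_top _ _)]
      apply ENNReal.ofReal_le_ofReal
      rw [le_div_iff₀ hw]
      push_cast at h1
      linarith
    have h2 : (mu G).real {ω | (∃ γ, ML ω η γ) ∧ ∀ γ, ML ω η γ → ¬ FinL ω γ} ≤
        C / ((n : ℝ) + 1) :=
      ENNReal.toReal_le_of_le_ofReal (by positivity) hle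
    rw [le_div_iff₀ hw] at h2
    linarith
  filter_upwards [locality hp hη (many_ae hp hη), measure_eq_zero_iff_ae_notMem.1 hA]
    with ω h1 h2
  exact fun hc => h2 ⟨hc, h1⟩

theorem no_line (hp : Par G h g) : ∀ᵐ ω ∂mu G, ¬ ∃ γ, IsLine ω γ := by
  classical
  have hP : ∀ᵐ ω ∂mu G, ∀ (v : V) (n : ℕ),
      ¬ ∃ γ, ML (act (tr v) ω) (1 / ((n : ℝ) + 1)) γ := by
    rw [ae_all_iff]
    intro v
    rw [ae_all_iff]
    intro n
    have h1 := no_ml hp (η := 1 / ((n : ℝ) + 1)) (by positivity)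
    rw [ae_iff] at h1 ⊢
    rw [← mu_act G (tr v)] at h1
    exact h1
  filter_upwards [fe_ae G hP, acc_ae hp, pos_ae hp] with ω hfe hacc hpos
  rintro ⟨γ, hγ⟩
  obtain ⟨ω', h1, h2, h3⟩ := hfe {s(γ 0, γ 1)}
    (fun e => Set.Ioo (ω e - ω e) (ω e))
    (fun e _ => ⟨measurableSet_Ioo, hacc e (ω e) (hpos e)⟩)
  have h4 := h2 _ (Finset.mem_singleton_self _)
  have h5 : ∀ e, e ≠ s(γ 0, γ 1) → ω' e = ω e := fun e he => h1 e (by simpa using he)
  have h0 : ∀ e, 0 ≤ ω' e := by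
    intro e
    by_cases he : e = s(γ 0, γ 1)
    · rw [he]; have := h4.1; linarith
    · rw [h5 e he]; exact (hpos e).le
  obtain ⟨hl, hD⟩ := margin_of_low hpos h0 hγ h5 h4.2.le
  obtain ⟨n, hn⟩ := exists_nat_one_div_lt (sub_pos.2 h4.2)
  exact h3 (γ 0) n ⟨_, ml_act hl (hD.mono le_rfl hn.le)⟩

end Vale.Agent.P158
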