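import Vale.Agent.P158.Bus

/-!
TASK Pair: oscillation of the difference of two Busemann functions. A = bus γ, A' = bus γ', Φ = A - A'.
Tools: bus_lip, bus_line, bus_zero, le_bus, e_anti, T_triangle, T_comm, IsLine.T_add.
near_core: Φ u ≥ Φ c (A u - A c = T c u, A' u - A' c ≤ T c u); Φ (γ' j2) ≤ Φ (γ' j') (e_anti);
Φ (γ' j') - Φ c ≤ [A (γ i') + T (γ i') (γ' j')] - [A (γ i') + T (γ i') c] - T c (γ' j') ≤ -w.
E1 lemma (j1 ≤ j0): every term of the infimum defining A y' is at least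
min (T v c + w - T y' c) (T v y' - 2M): take a geodesic p from γ (-n) to y' (n ≥ 1); if it avoids the r-box,
append the segment of γ' from j1 to j0 (IsLine.seg, avoids the box by hav) and use Det with indices -n, i0;
otherwise T (γ (-n)) y' = T (γ (-n)) z + T z y' ≥ T (γ (-n)) v + T v y' - 2M.
far_core, with o = γ i1, y' = γ' j1, c = γ i0, want w ≤ Φ y' - Φ o. Facts: Φ o ≤ Φ c, Φ o ≤ 4M,
Φ c = T v c - A' c. Case 0 ≤ j0: E1 = Φ y' - Φ c = A y' - T v c + T y' c ≥ w or ≥ T v y' + T y' v' - 5M.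
Case j0 < 0 and j1 ≤ j0: Φ y' ≥ Φ c = T v c + T c v' ≥ 2 T c v' - 3M; if T c v' ≥ 4M done, else use E1
(≥ w or ≥ 10M - 2M - 7M). Case j0 < j1 ≤ 0: A' y' = - T y' v', A y' ≥ T v c - T c y' ≥ T y' v' - 3M.
-/

namespace Vale.Agent.P158

variable {h : ℝ} {ω : Om} {γ γ' : ℤ → V}

theorem near_core (h0 : ∀ e, 0 ≤ ω e) (hγ : IsLine ω γ) (hγ' : IsLine ω γ') {i i' i2 j j' j2 : ℤ}
    {w : ℝ} (hc : γ i = γ' j) (hi' : i' ≤ i) (hi2 : i ≤ i2) (hj : j ≤ j') (hj2 : j' ≤ j2)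
    (hw : w ≤ T ω (γ i') (γ i) + T ω (γ' j) (γ' j') - T ω (γ i') (γ' j')) :
    w ≤ (bus ω γ (γ i2) - bus ω γ' (γ i2)) - (bus ω γ (γ' j2) - bus ω γ' (γ' j2)) := by
  have a1 := bus_line h0 hγ hi2
  have a2 := bus_lip h0 hγ' (γ i2) (γ i)
  have a3 := e_anti h0 hγ hγ' hj2
  have a4 := bus_lip h0 hγ (γ' j') (γ i')
  have a5 := bus_line h0 hγ hi'
  have a6 := bus_line h0 hγ' hj
  rw [T_comm ω (γ i2)] at a2
  rw [T_comm ω (γ' j')] at a4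
  rw [← hc] at a6 hw
  linarith

theorem E1 (hR : Reg h ω) (hγ : IsLine ω γ) (hγ' : IsLine ω γ') {r : ℕ} {w M : ℝ}
    (hD : Det ω γ r w) (hav : ∀ k, γ' k ∉ box (γ 0) r)
    (hM : ∀ z ∈ box (γ 0) r, T ω (γ 0) z ≤ M) {i0 j0 j1 : ℤ} (hi0 : 0 < i0) (hc : γ i0 = γ' j0)
    (hj : j1 ≤ j0) :
    min (T ω (γ 0) (γ i0) + w - T ω (γ' j1) (γ' j0)) (T ω (γ 0) (γ' j1) - 2 * M)
      ≤ bus ω γ (γ' j1) := by
  refine le_bus hR.nn hγ 1 fun n hn => ?_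
  obtain ⟨p, -, hp⟩ := hR.geo (γ (-(n : ℤ))) (γ' j1)
  by_cases hz : ∃ z ∈ p.support, z ∈ box (γ 0) r
  · obtain ⟨z, hz, hzb⟩ := hz
    refine (min_le_right _ _).trans ?_
    have a1 := T_add_of_mem_geo hR.nn p hp hz
    have a2 := T_triangle hR.nn (γ (-(n : ℤ))) z (γ 0)
    have a3 := T_triangle hR.nn (γ 0) z (γ' j1)
    have a4 := hM z hzb
    rw [T_comm ω z (γ 0)] at a2
    linarith
  · refine (min_le_left _ _).trans ?_
    obtain ⟨q, -, hq, -, hqs, -⟩ := hγ'.seg hR.pos hj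
    have a1 := hD (-(n : ℤ)) i0 _ _ (p.append q) (by omega) hi0 rfl hc (by
      intro z hzs
      rw [SimpleGraph.Walk.mem_support_append_iff] at hzs
      rcases hzs with hzs | hzs
      · exact fun hb => hz ⟨z, hzs, hb⟩
      · obtain ⟨k, -, -, rfl⟩ := (hqs z).mp hzs
        exact hav k)
    have a2 := hγ.T_add hR.nn (i := -(n : ℤ)) (j := 0) (k := i0) (by omega) hi0.le
    rw [cost_append, hp, hq, ← hc] at a1
    rw [← hc]
    linarith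

theorem far_core (hR : Reg h ω) (hγ : IsLine ω γ) (hγ' : IsLine ω γ') {r : ℕ} {w M : ℝ}
    (hD : Det ω γ r w) (hav : ∀ k, γ' k ∉ box (γ 0) r)
    (hM : ∀ z ∈ box (γ 0) r, T ω (γ 0) z ≤ M) (hwM : w ≤ M) {i0 j0 i1 j1 : ℤ} (hi0 : 0 < i0)
    (hc : γ i0 = γ' j0) (hi1 : i1 ≤ 0) (hj1 : j1 ≤ 0) (ho : T ω (γ 0) (γ i1) ≤ M)
    (hvv : T ω (γ 0) (γ' 0) ≤ 3 * M) (hy : 10 * M ≤ T ω (γ 0) (γ' j1))
    (hy' : 10 * M ≤ T ω (γ' 0) (γ' j1)) :
    w ≤ (bus ω γ (γ' j1) - bus ω γ' (γ' j1)) - (bus ω γ (γ i1) - bus ω γ' (γ i1)) := by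
  have h0 := hR.nn
  have hM0 : 0 ≤ M := by
    have := hM (γ 0) (self_mem_box _ _)
    rwa [T_self h0] at this
  have z1 := bus_zero h0 hγ
  have z2 := bus_zero h0 hγ'
  have a1 := bus_line h0 hγ hi1
  have a2 := bus_line h0 hγ hi0.le
  have a3 := bus_line h0 hγ' hj1
  have a4 := bus_line h0 hγ (hi1.trans hi0.le)
  have a5 := bus_lip h0 hγ' (γ i0) (γ i1)
  have a6 := bus_lip h0 hγ' (γ' 0) (γ i1)
  have a7 := T_triangle h0 (γ' 0) (γ 0) (γ i1)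
  rw [T_comm ω (γ i0)] at a5
  rw [T_comm ω (γ' 0) (γ 0)] at a7
  rw [T_comm ω (γ i1)] at a1
  rw [T_comm ω (γ' j1)] at a3
  rcases le_or_gt j1 j0 with hj | hj
  · have b1 := E1 hR hγ hγ' hD hav hM hi0 hc hj
    have b2 := bus_line h0 hγ' hj
    rw [← hc] at b1 b2
    rcases min_le_iff.mp b1 with b | b
    · linarith
    · linarith
  · have b1 := bus_lip h0 hγ (γ i0) (γ' j1)
    have b2 := hγ'.T_add h0 hj.le hj1
    have b3 := T_triangle h0 (γ i0) (γ 0) (γ' 0)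
    rw [← hc, T_comm ω (γ' j1)] at b2
    rw [T_comm ω (γ i0) (γ 0)] at b3
    linarith

end Vale.Agent.P158
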