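import Vale.Agent.P158.Pair
import Vale.Agent.P158.Key
import Vale.Agent.P158.Inv

/-!
TASK PairOK: the oscillation bound for a pair of chosen lines.
Facts: frame_T for W1 gives points o± = γ i± of W1 with T v o± ≤ M on both sides of v, same for γ', so T v v' ≤ 3M
(T_le_of_mem_support in W1). frame_hit for W2 (box 0 H ⊆ box 0 ρ2) gives points of γ' on W2 on both sides of v'; they are outside
box 0 (ρ2 - 1), so hfar applies. osc_or: PB and Cross.meet give γ i0 = γ' j0, i0 ≠ 0 as v is not on γ'.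
Far case (γ' avoids box v r): i0 > 0: far_core gives Osc γ γ'; i0 < 0: far_core for rev γ, rev γ' (Det.rev).
Near case γ' k0 in box v r: hB applied to (γ, sh k0 γ') gives Wit t; the points γ i and γ' (k0 + j') lie in box 0 (H + r + t)
(IsLine.mem_box), frame_hit for W2 gives i2 ≥ i, j2 ≥ k0 + j'; near_core gives Osc γ γ'.
pairOK_of: osc_or for γ' and for rev γ'.
-/

namespace Vale.Agent.P158

variable {h : ℝ} {ω : Om}

theorem osc_or (hG : Good h ω) {H ρ2 r t : ℕ} {η w M : ℝ} (hη : 0 < η) (hwM : w ≤ M)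
    {a1 b1 a2 b2 a b : V} {W1 : grid.Walk a1 b1} {W2 : grid.Walk a2 b2} {W : grid.Walk a b}
    (hW1 : IsFr 0 H W1) (hc1 : cost ω W1 ≤ M) (hW2 : IsFr 0 ρ2 W2)
    (hs1 : ∀ z ∈ W1.support, z ∈ W.support) (hs2 : ∀ z ∈ W2.support, z ∈ W.support)
    (hfar : ∀ v ∈ box 0 H, ∀ y, y ∉ box 0 (ρ2 - 1) → 10 * M ≤ T ω v y) (hρ : H + r + t ≤ ρ2)
    {v : V} {γ γ' : ℤ → V} (hv : v ∈ box 0 H) (hγ : MLine ω v η r w γ) (hγ' : IsLine ω γ')
    (hv' : γ' 0 ∈ box 0 H) (hnot : ∀ k, γ' k ≠ v) (hB : ¬ BadNear ω v η r w t)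
    (hM : ∀ z ∈ box v r, T ω v z ≤ M) :
    Osc ω W γ γ' w ∨ Osc ω W (rev γ) (rev γ') w := by
  have hR := hG.reg
  have h0 := hR.nn
  obtain ⟨hl, h00, hD0, hDr⟩ := hγ
  subst h00
  have hHρ : H ≤ ρ2 := by omega
  obtain ⟨⟨ip, hip, sip, tip⟩, im, him, sim, tim⟩ := hl.frame_T hR.pos hW1 hv
  obtain ⟨⟨jp, -, sjp, tjp⟩, -⟩ := hγ'.frame_T hR.pos hW1 hv'
  have hvv : T ω (γ 0) (γ' 0) ≤ 3 * M := by
    have e1 := T_triangle h0 (γ 0) (γ ip) (γ' 0)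
    have e2 := T_triangle h0 (γ ip) (γ' jp) (γ' 0)
    have e3 := T_le_of_mem_support h0 W1 sip sjp
    have e4 := T_comm ω (γ' jp) (γ' 0)
    linarith
  obtain ⟨⟨kp, hkp, skp⟩, km, hkm, skm⟩ := hγ'.frame_hit hR.pos hW2 (box_mono hv' hHρ)
  have hne : Set.range γ ≠ Set.range γ' := fun hr => by
    obtain ⟨k, hk⟩ : γ 0 ∈ Set.range γ' := hr ▸ Set.mem_range_self 0
    exact hnot k hk
  obtain ⟨i0, j0, hc⟩ := Cross.meet (hl.rayW hR.pos) (hγ'.rayW hR.pos)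
    ((hl.rev h0).rayW hR.pos) ((hγ'.rev h0).rayW hR.pos) (hG.pb η γ γ' hη hl hγ' hD0 hne)
  by_cases hav : ∀ k, γ' k ∉ box (γ 0) r
  · rcases lt_trichotomy i0 0 with hi | hi | hi
    · have hf := far_core (γ := rev γ) (γ' := rev γ') hR (hl.rev h0) (hγ'.rev h0) hDr.rev
        (fun k => hav (-k)) hM hwM (i0 := -i0) (j0 := -j0) (i1 := -ip) (j1 := -kp) (by omega)
        (by simpa using hc) (by omega) (by omega) (by simpa using tip.trans hc1) hvv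
        (by simpa using hfar _ hv _ (hW2.1 _ skp)) (by simpa using hfar _ hv' _ (hW2.1 _ skp))
      simp only [rev_apply, neg_neg] at hf
      exact Or.inr ⟨_, hs2 _ skp, _, hs1 _ sip, hf⟩
    · exact absurd (hi ▸ hc).symm (hnot j0)
    · exact Or.inl ⟨_, hs2 _ skm, _, hs1 _ sim, far_core hR hl hγ' hDr hav hM hwM hi hc him hkm
        (tim.trans hc1) hvv (hfar _ hv _ (hW2.1 _ skm)) (hfar _ hv' _ (hW2.1 _ skm))⟩
  · push Not at hav
    obtain ⟨k0, hk0⟩ := hav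
    have hW : Wit ω t w γ (sh k0 γ') := by
      by_contra hn
      exact hB ⟨γ, sh k0 γ', hl, hγ'.sh k0, rfl, hD0, by simpa using hk0,
        fun k => hnot (k0 + k), hn⟩
    obtain ⟨i, i', j, j', hi, -, -, hj', hii, hjj, hc', hw⟩ := hW
    simp only [sh_apply] at hc' hw
    have b1 : γ i ∈ box 0 ρ2 :=
      box_mono (box_trans hv (hl.mem_box 0 i)) (by rcases abs_cases i with e | e <;> omega)
    have b2 : γ' (k0 + j') ∈ box 0 ρ2 :=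
      box_mono (box_trans (box_trans hv hk0) (hγ'.mem_box k0 (k0 + j')))
        (by rcases abs_cases j' with e | e <;> omega)
    obtain ⟨⟨i2, hi2, si2⟩, -⟩ := hl.frame_hit hR.pos hW2 b1
    obtain ⟨⟨j2, hj2, sj2⟩, -⟩ := hγ'.frame_hit hR.pos hW2 b2
    exact Or.inl ⟨_, hs2 _ si2, _, hs2 _ sj2,
      near_core h0 hl hγ' hc' hii hi2 (by omega) hj2 hw⟩

theorem pairOK_of (hG : Good h ω) {H ρ2 r t : ℕ} {η w M : ℝ} (hη : 0 < η) (hwM : w ≤ M)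
    {a1 b1 a2 b2 a b : V} {W1 : grid.Walk a1 b1} {W2 : grid.Walk a2 b2} {W : grid.Walk a b}
    (hW1 : IsFr 0 H W1) (hc1 : cost ω W1 ≤ M) (hW2 : IsFr 0 ρ2 W2)
    (hs1 : ∀ z ∈ W1.support, z ∈ W.support) (hs2 : ∀ z ∈ W2.support, z ∈ W.support)
    (hfar : ∀ v ∈ box 0 H, ∀ y, y ∉ box 0 (ρ2 - 1) → 10 * M ≤ T ω v y) (hρ : H + r + t ≤ ρ2)
    {v : V} {γ γ' : ℤ → V} (hv : v ∈ box 0 H) (hγ : MLine ω v η r w γ) (hγ' : IsLine ω γ')
    (hv' : γ' 0 ∈ box 0 H) (hnot : ∀ k, γ' k ≠ v) (hB : ¬ BadNear ω v η r w t)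
    (hM : ∀ z ∈ box v r, T ω v z ≤ M) : PairOK ω W γ γ' w := by
  refine ⟨osc_or hG hη hwM hW1 hc1 hW2 hs1 hs2 hfar hρ hv hγ hγ' hv' hnot hB hM, ?_⟩
  have h2 := osc_or hG hη hwM hW1 hc1 hW2 hs1 hs2 hfar hρ hv hγ (hγ'.rev hG.reg.nn) hv'
    (fun k => hnot (-k)) hB hM
  rwa [rev_rev] at h2

end Vale.Agent.P158
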