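import Vale.Agent.P158.Walks

/-!
TASK RegDet: deterministic part of regularity.
Plan: from Pei at x (threshold n0) every path from x of length n ≥ n0 costs at least h n / 2
(Pei.peiT). geo: fix a walk p0; paths x to y of cost at most cost p0 have bounded length, so they form
a finite nonempty set (SimpleGraph.finsetWalkLengthLT needs LocallyFinite; alternatively the supports
are lists of bounded length over a finite box, List.finite_length_le style, and support is injective);
take a minimiser (Set.Finite.exists_minimal or Finset.exists_min_image) and use le_T_path.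
A walk with cost = T is a path (positivity: otherwise bypass is strictly cheaper; or show
that a repeated vertex gives a closed subwalk of positive cost).
uniq: geodesic paths p from z, p' from z' to x; cons p and cons p' are geodesic walks from y, hence
paths, with equal cost; hsum and cost_eq_sum give the same edge finset; s(y,z) is an edge of cons p', so
z = z' or s(y,z) in p'.edges, and then y in p'.support, contradiction.
proper: a point with T ≤ r has a geodesic path of length < n0 or ≤ 2r/h; walk_mem_box.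
-/

namespace Vale.Agent.P158

open SimpleGraph

theorem regdet_sublist {ω : Om} (hpos : ∀ e, 0 < ω e) {l l' : List E} (h : l.Sublist l')
    (hs : (l'.map ω).sum ≤ (l.map ω).sum) : l = l' := by
  induction h with
  | slnil => rfl
  | @cons l l' a h _ =>
    have h1 : (l.map ω).sum ≤ (l'.map ω).sum := (h.map ω).sum_le_sum fun b hb => by
      obtain ⟨e, -, rfl⟩ := List.mem_map.1 hb
      exact (hpos e).le
    have h2 := hpos a
    rw [List.map_cons, List.sum_cons] at hs
    linarith
  | @cons_cons l l' a h ih =>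
    rw [List.map_cons, List.sum_cons, List.map_cons, List.sum_cons] at hs
    rw [ih (by linarith)]

theorem isPath_of_geo {ω : Om} (hpos : ∀ e, 0 < ω e) {x y : V} (p : grid.Walk x y)
    (hp : cost ω p = T ω x y) : p.IsPath := by
  have h0 : ∀ e, 0 ≤ ω e := fun e => (hpos e).le
  have h1 : p.bypass.edges = p.edges :=
    regdet_sublist hpos p.edges_bypass_sublist_edges (hp.le.trans (T_le_cost h0 p.bypass))
  rw [← Walk.edges_injective h1]
  exact p.bypass_isPath

theorem regdet_finite (x y : V) (N : ℕ) : {p : grid.Walk x y | p.length ≤ N}.Finite := by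
  refine Set.Finite.of_finite_image (f := Walk.support) ?_ fun _ _ _ _ h => Walk.ext_support h
  refine ((List.finite_length_le (box x N) (N + 1)).image (List.map Subtype.val)).subset ?_
  rintro _ ⟨p, hp, rfl⟩
  refine ⟨p.support.attachWith (· ∈ box x N) fun z hz => box_mono (walk_mem_box p z hz) hp, ?_,
    List.attachWith_map_subtype_val _⟩
  simpa using hp

theorem regdet_len {ω : Om} {h : ℝ} (h0 : ∀ e, 0 ≤ ω e) (hh : 0 < h) {x : V} {n : ℕ}
    (hn : Pei ω h x n) (r : ℝ) :
    ∃ N : ℕ, ∀ (y : V) (p : grid.Walk x y), p.IsPath → cost ω p ≤ r → p.length ≤ N := by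
  obtain ⟨N, hN⟩ := exists_nat_ge (r / (h / 2))
  refine ⟨max n N, fun y p hp hr => ?_⟩
  rcases le_total p.length n with h1 | h1
  · exact h1.trans (le_max_left _ _)
  · have h2 := (hn.peiT h0 hh.le y p hp h1).trans hr
    have h3 : (p.length : ℝ) ≤ r / (h / 2) := (le_div_iff₀' (half_pos hh)).2 h2
    exact (Nat.cast_le.1 (h3.trans hN)).trans (le_max_right _ _)

theorem reg_of {h : ℝ} {ω : Om} (hh : 0 < h) (hpos : ∀ e, 0 < ω e) (hpei : ∀ x, ∃ n, Pei ω h x n)
    (hsum : ∀ S S' : Finset E, ∑ e ∈ S, ω e = ∑ e ∈ S', ω e → S = S') : Reg h ω := by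
  have h0 : ∀ e, 0 ≤ ω e := fun e => (hpos e).le
  have geo : ∀ x y, ∃ p : grid.Walk x y, p.IsPath ∧ cost ω p = T ω x y := fun x y => by
    obtain ⟨n, hn⟩ := hpei x
    obtain ⟨p0⟩ := walk_nonempty x y
    obtain ⟨N, hN⟩ := regdet_len h0 hh hn (cost ω p0.bypass)
    obtain ⟨p, hp, hmin⟩ := Set.exists_min_image
      {p : grid.Walk x y | p.IsPath ∧ cost ω p ≤ cost ω p0.bypass} (cost ω)
      ((regdet_finite x y N).subset fun p hp => hN y p hp.1 hp.2)
      ⟨p0.bypass, p0.bypass_isPath, le_rfl⟩
    refine ⟨p, hp.1, le_antisymm (le_T_path h0 fun q hq => ?_) (T_le_cost h0 p)⟩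
    rcases le_total (cost ω q) (cost ω p0.bypass) with h1 | h1
    exacts [hmin q ⟨hq, h1⟩, hp.2.trans h1]
  refine ⟨hh, hpos, geo, fun x y z z' hz hz' => ?_, hpei⟩
  obtain ⟨p, -, hp⟩ := geo z x
  obtain ⟨p', -, hp'⟩ := geo z' x
  have c1 : cost ω (Walk.cons hz.1 p) = T ω y x := by rw [cost_cons, hp, hz.2]
  have c2 : cost ω (Walk.cons hz'.1 p') = T ω y x := by rw [cost_cons, hp', hz'.2]
  have q1 := isPath_of_geo hpos _ c1
  have q2 := isPath_of_geo hpos _ c2
  have e := hsum _ _ ((cost_eq_sum ω _ q1).symm.trans (c1.trans (c2.symm.trans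
    (cost_eq_sum ω _ q2))))
  have m : s(y, z) ∈ (Walk.cons hz'.1 p').edges := by
    rw [← List.mem_toFinset, ← e, List.mem_toFinset]
    exact List.mem_cons_self
  rcases List.mem_cons.1 m with m | m
  · exact Sym2.congr_right.1 m
  · exact absurd (p'.fst_mem_support_of_mem_edges m) ((Walk.cons_isPath_iff _ _).1 q2).2

theorem Reg.T_pos {h : ℝ} {ω : Om} (hR : Reg h ω) {x y : V} (hxy : x ≠ y) : 0 < T ω x y := by
  obtain ⟨p, -, hp⟩ := hR.geo x y
  cases p with
  | nil => exact absurd rfl hxy
  | cons ha p =>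
    rw [← hp, cost_cons]
    exact add_pos_of_pos_of_nonneg (hR.pos _) (cost_nonneg hR.nn p)

theorem Reg.proper {h : ℝ} {ω : Om} (hR : Reg h ω) (x : V) (r : ℝ) :
    {y | T ω x y ≤ r}.Finite := by
  obtain ⟨n, hn⟩ := hR.pei x
  obtain ⟨N, hN⟩ := regdet_len hR.nn hR.h_pos hn r
  refine (box x N).finite_toSet.subset fun y hy => ?_
  obtain ⟨p, h1, h2⟩ := hR.geo x y
  exact box_mono (walk_mem_box p y p.end_mem_support) (hN y p h1 (h2.le.trans hy))

/-- far points are far in passage time. -/
theorem Reg.le_T_of_peiT {h : ℝ} {ω : Om} (hR : Reg h ω) {a : ℝ} (ha : 0 ≤ a) {x y : V} {n m : ℕ}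
    (hp : PeiT ω a x n) (hy : y ∉ box x m) (hnm : n ≤ m + 1) : a * (m + 1) ≤ T ω x y := by
  obtain ⟨p, h1, h2⟩ := hR.geo x y
  have h3 : m + 1 ≤ p.length := by
    by_contra hc
    exact hy (box_mono (walk_mem_box p y p.end_mem_support) (by omega))
  have h4 : (m : ℝ) + 1 ≤ p.length := by exact_mod_cast h3
  exact (mul_le_mul_of_nonneg_left h4 ha).trans ((hp y p h1 (hnm.trans h3)).trans h2.le)

end Vale.Agent.P158
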