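import Vale.Agent.P158.Basic

/-!
TASK Walks: constructions of walks, boxes, ultrafilter limits.
Plan: everything about boxes is mem_box / adj_iff plus omega. seqWalk: induction on n with
Walk.concat (List.range_succ). box_walk: go straight first in one coordinate then in the other
(induct on the l1 distance: if y ≠ y' there is a neighbour of y in the box closer to y').
join: W1, then back along W1 from its end to z1 (reverse of dropUntil), then p, then backwards along W2
from z2 to its start (reverse of takeUntil), then W2. ulim: for each i use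
Ultrafilter.eventually_exists_mem_iff or Ultrafilter.finite_biUnion_mem_iff on the finite set.
-/

namespace Vale.Agent.P158

open SimpleGraph

theorem self_mem_box (v : V) (r : ℕ) : v ∈ box v r := by
  rw [mem_box]; omega

theorem box_symm {x y : V} {r : ℕ} (h : y ∈ box x r) : x ∈ box y r := by
  rw [mem_box] at *; omega

theorem box_trans {x y z : V} {r s : ℕ} (h1 : y ∈ box x r) (h2 : z ∈ box y s) :
    z ∈ box x (r + s) := by
  rw [mem_box] at *; push_cast; omega

theorem box_mono {x y : V} {r s : ℕ} (h : y ∈ box x r) (hrs : r ≤ s) : y ∈ box x s := by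
  rw [mem_box] at *; omega

theorem mem_box_zero {x y : V} : y ∈ box x 0 ↔ y = x := by
  rw [mem_box, Prod.ext_iff]; omega

theorem adj_mem_box {x y : V} (h : grid.Adj x y) : y ∈ box x 1 := by
  rw [adj_iff] at h; rw [mem_box]; omega

theorem exists_mem_box (x y : V) : ∃ r, y ∈ box x r := by
  refine ⟨(x.1 - y.1).natAbs + (x.2 - y.2).natAbs, ?_⟩
  rw [mem_box]
  omega

/-- a finite set lies in a box. -/
theorem finite_subset_box (v : V) {s : Set V} (hs : s.Finite) : ∃ r, ∀ y ∈ s, y ∈ box v r := by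
  choose r hr using exists_mem_box v
  obtain ⟨R, hR⟩ := (hs.image r).bddAbove
  exact ⟨R, fun y hy => box_mono (hr y) (hR ⟨y, hy, rfl⟩)⟩

theorem card_ring (v : V) (n : ℕ) : (box v (n + 1) \ box v n).card = 8 * (n + 1) := by
  rw [Finset.card_sdiff_of_subset fun y hy => box_mono hy (Nat.le_add_right n 1),
    card_box, card_box]
  refine Nat.sub_eq_of_eq_add ?_
  ring

theorem card_ebox (v v' : V) (r : ℕ) : (ebox v r).card = (ebox v' r).card := by
  rw [ebox, ebox, Finset.card_sym2, Finset.card_sym2, card_box, card_box]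

theorem walk_mem_box {x y : V} (p : grid.Walk x y) : ∀ z ∈ p.support, z ∈ box x p.length := by
  induction p with
  | nil => exact fun z hz => Walk.mem_support_nil_iff.1 hz ▸ self_mem_box _ _
  | cons h p ih =>
    intro z hz
    rcases List.mem_cons.1 hz with rfl | hz
    · exact self_mem_box _ _
    · rw [Walk.length_cons, add_comm]
      exact box_trans (adj_mem_box h) (ih z hz)

theorem iter_mem_box {f : V → V} (hf : ∀ y, f y ∈ box y 1) (y : V) (n : ℕ) :
    f^[n] y ∈ box y n := by
  induction n with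
  | zero => exact self_mem_box _ _
  | succ n ih =>
    rw [Function.iterate_succ_apply']
    exact box_trans ih (hf _)

theorem seq_mem_box {f : ℕ → V} (hf : ∀ k, f (k + 1) ∈ box (f k) 1) (i n : ℕ) :
    f (i + n) ∈ box (f i) n := by
  induction n with
  | zero => exact self_mem_box _ _
  | succ n ih => exact box_trans ih (hf (i + n))

/-- the walk along a sequence of adjacent vertices. -/
theorem seqWalk (f : ℕ → V) (n : ℕ) (h : ∀ k < n, grid.Adj (f k) (f (k + 1))) :
    ∃ p : grid.Walk (f 0) (f n), p.length = n ∧ p.support = (List.range (n + 1)).map f ∧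
      p.edges = (List.range n).map fun k => s(f k, f (k + 1)) := by
  induction n with
  | zero => exact ⟨Walk.nil, rfl, rfl, rfl⟩
  | succ n ih =>
    obtain ⟨p, h1, h2, h3⟩ := ih fun k hk => h k (by omega)
    refine ⟨p.concat (h n n.lt_succ_self), by rw [Walk.length_concat, h1], ?_, ?_⟩
    · rw [Walk.support_concat, h2, List.range_succ (n := n + 1)]
      simp
    · rw [Walk.edges_concat, h3, List.range_succ]
      simp

theorem box_walk {v y y' : V} {r : ℕ} (hy : y ∈ box v r) (hy' : y' ∈ box v r) :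
    ∃ p : grid.Walk y y', p.length ≤ 4 * r ∧ ∀ z ∈ p.support, z ∈ box v r := by
  obtain ⟨p, h1, h2⟩ := basic_walk _ y y' rfl
  refine ⟨p, ?_, h2 v r hy hy'⟩
  rw [mem_box] at hy hy'
  omega

theorem Loc.T_le {ω : Om} (h0 : ∀ e, 0 ≤ ω e) {v y y' : V} {r : ℕ} {M : ℝ} (hL : Loc ω v r M)
    (hy : y ∈ box v r) (hy' : y' ∈ box v r) : T ω y y' ≤ 4 * r * M := by
  obtain ⟨p, h1, h2⟩ := box_walk hy hy'
  have hM : 0 ≤ M := (h0 _).trans (hL s(y, y) (mk_mem_ebox.2 ⟨hy, hy⟩))
  have h3 : cost ω p ≤ p.length * M := cost_le_length p fun e he => by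
    induction e using Sym2.ind with
    | h a b =>
      exact hL _ (mk_mem_ebox.2 ⟨h2 a (p.fst_mem_support_of_mem_edges he),
        h2 b (p.snd_mem_support_of_mem_edges he)⟩)
  have h4 : (p.length : ℝ) ≤ 4 * r := by exact_mod_cast h1
  exact (T_le_cost h0 p).trans (h3.trans (mul_le_mul_of_nonneg_right h4 hM))

/-- one walk covering two walks and a connection between them. -/
theorem join {ω : Om} (h0 : ∀ e, 0 ≤ ω e) {a b c d z1 z2 : V} (W1 : grid.Walk a b)
    (W2 : grid.Walk c d) (h1 : z1 ∈ W1.support) (h2 : z2 ∈ W2.support) (p : grid.Walk z1 z2) :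
    ∃ W : grid.Walk a d, cost ω W ≤ 2 * cost ω W1 + 2 * cost ω W2 + cost ω p ∧
      (∀ z, z ∈ W.support ↔ z ∈ W1.support ∨ z ∈ W2.support ∨ z ∈ p.support) := by
  obtain ⟨q1, r1, rfl⟩ := Walk.mem_support_iff_exists_append.1 h1
  obtain ⟨q2, r2, rfl⟩ := Walk.mem_support_iff_exists_append.1 h2
  refine ⟨(q1.append r1).append (r1.reverse.append (p.append (q2.reverse.append (q2.append r2)))),
    ?_, fun z => ?_⟩
  · have := cost_nonneg h0 q1
    have := cost_nonneg h0 r2
    simp only [cost_append, cost_reverse]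
    linarith
  · simp only [Walk.mem_support_append_iff, Walk.support_reverse, List.mem_reverse]
    tauto

/-- an injective sequence eventually avoids a finite set. -/
theorem escape_nat {ξ : ℕ → V} (hξ : Function.Injective ξ) {s : Set V} (hs : s.Finite) :
    ∃ n0, ∀ n, n0 ≤ n → ξ n ∉ s := by
  obtain ⟨N, hN⟩ := (hs.preimage hξ.injOn).bddAbove
  exact ⟨N + 1, fun n hn h => absurd (hN h) (by omega)⟩

theorem escape_int {γ : ℤ → V} (hγ : Function.Injective γ) {s : Set V} (hs : s.Finite) :
    ∃ n0 : ℕ, ∀ i : ℤ, (n0 : ℤ) ≤ |i| → γ i ∉ s := by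
  obtain ⟨N, hN⟩ := ((hs.preimage hγ.injOn).image Int.natAbs).bddAbove
  refine ⟨N + 1, fun i hi h => ?_⟩
  have h1 : i.natAbs ≤ N := hN ⟨i, h, rfl⟩
  rw [Int.abs_eq_natAbs] at hi
  omega

/-- ultrafilter limit of locally finite families. -/
theorem ulim {ι : Type*} (γ : ℕ → ι → V) (h : ∀ i, ∃ F : Finset V, ∀ t, γ t i ∈ F) :
    ∃ γ' : ι → V, ∀ i, ∀ᶠ t in (Filter.hyperfilter ℕ : Filter ℕ), γ t i = γ' i := by
  have key : ∀ i, ∃ a, ∀ᶠ t in (Filter.hyperfilter ℕ : Filter ℕ), γ t i = a := fun i => by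
    obtain ⟨F, hF⟩ := h i
    obtain ⟨a, -, ha⟩ := (Ultrafilter.eventually_exists_mem_iff (f := Filter.hyperfilter ℕ)
      (P := fun a t => γ t i = a) F.finite_toSet).1
      (Filter.Eventually.of_forall fun t => ⟨γ t i, hF t, rfl⟩)
    exact ⟨a, ha⟩
  exact ⟨fun i => (key i).choose, fun i => (key i).choose_spec⟩

end Vale.Agent.P158
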